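import Vale.Agent.P354w.SC4

set_option maxSynthPendingDepth 3
set_option linter.unusedSectionVars false

open Set MeasureTheory Filter

namespace Vale.Agent.P354w

/-- A change of the angular coordinates. -/
structure Tr (K K' : Coef) (T : P4 ≃L[ℝ] P4) : Prop where
  v : ∀ y, (T y).2.1 = y.2.1
  u : ∀ y, (T y).2.2.1 = y.2.2.1
  n1 : ∀ y, |(T y).1| ≤ |y.1| + |y.2.2.2|
  n2 : ∀ y, |(T y).2.2.2| ≤ |y.1| + |y.2.2.2|
  det : |((T : P4 →L[ℝ] P4)).det| = 1
  gF : ∀ x a b, K'.gF (T x) (T a) (T b) = K.gF x a b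
  diff : ∀ x, K.DiffAt x → K'.DiffAt (T x)
  bd : ∀ x C cv cw cu, K.DiffAt x → K.Bd x C cv cw cu →
    K'.Bd (T x) (8 * C) (8 * cv) (8 * cw) (8 * cu)
  smooth : ∀ U, K.SmoothOn U → K'.SmoothOn (T '' U)

lemma SmoothOn.diffAt {K : Coef} {U : Set P4} (h : K.SmoothOn U) (hU : IsOpen U) {x : P4}
    (hx : x ∈ U) : K.DiffAt x := by
  have key : ∀ g : P4 → ℝ, ContDiffOn ℝ 1 g U → DifferentiableAt ℝ g x := fun g hg =>
    (hg.differentiableOn (by norm_num)).differentiableAt (hU.mem_nhds hx)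
  exact ⟨key _ h.om, key _ h.s1, key _ h.s2, key _ h.w1, key _ h.w2, key _ h.g11, key _ h.g12,
    key _ h.g22⟩

variable {K K' : Coef} {G : P4 → P4 →L[ℝ] P4 →L[ℝ] ℝ} {Psi : P4 → P4} {V U : Set P4}
    {C R : ℝ} {cv cw cu : ℝ → ℝ} {t0 r : ℝ} {f : P3 → ℝ} {T : P4 ≃L[ℝ] P4}

lemma CoreHyp.tr (h : CoreHyp K G Psi V U C R cv cw cu t0 r f) (hT : Tr K K' T)
    (hcv : ∫⁻ v in Ico (-(2 * R)) 0, ENNReal.ofReal (cv v) ≠ ⊤)
    (hcw : ∫⁻ v in Ico (-(2 * R)) 0, ENNReal.ofReal (cw v) ≠ ⊤)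
    (hcu : ∫⁻ u in Icc (-(2 * R)) (2 * R), ENNReal.ofReal (cu u) ≠ ⊤) :
    CoreHyp K' G (fun z => T (Psi z)) V (T '' U) (8 * C) (2 * R) (fun v => 8 * cv v)
      (fun v => 8 * cw v) (fun u => 8 * cu u) t0 r f := by
  have hz0 : ((t0, (0 : P3)) : P4) ∈ V := by
    have hb : (0 : P3) ∈ Metric.ball (0 : P3) r := Metric.mem_ball_self h.r_pos
    exact h.memV 0 hb t0 ⟨le_refl _, h.t0f 0 hb⟩
  have hC : 1 ≤ C := (h.pt hz0).bd.one_le
  have hR0 : 0 ≤ R := (abs_nonneg _).trans (h.U_sub _ (h.maps hz0)).1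
  have hfd : ∀ z ∈ V, fderiv ℝ (fun z => T (Psi z)) z = (T : P4 →L[ℝ] P4).comp (fderiv ℝ Psi z) := by
    intro z hz
    have h1 : HasFDerivAt Psi (fderiv ℝ Psi z) z :=
      ((h.iso.contDiffAt hz).differentiableAt (by norm_num)).hasFDerivAt
    exact (T.hasFDerivAt.comp z h1).fderiv
  have hmul : ∀ (g : ℝ → ℝ) (s : Set ℝ), ∫⁻ v in s, ENNReal.ofReal (g v) ≠ ⊤ →
      ∫⁻ v in s, ENNReal.ofReal (8 * g v) ≠ ⊤ := by
    intro g s hg
    have : ∀ v, ENNReal.ofReal (8 * g v) = ENNReal.ofReal 8 * ENNReal.ofReal (g v) := fun v =>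
      ENNReal.ofReal_mul (by norm_num)
    simp_rw [this]
    rw [lintegral_const_mul' _ _ ENNReal.ofReal_ne_top]
    exact ENNReal.mul_ne_top ENNReal.ofReal_ne_top hg
  refine
    { openU := T.toHomeomorph.isOpenMap _ h.openU
      smoothK := hT.smooth _ h.smoothK
      bd := ?_
      U_sub := ?_
      cv_meas := h.cv_meas.const_mul 8
      cw_meas := h.cw_meas.const_mul 8
      cu_meas := h.cu_meas.const_mul 8
      cv_int := hmul _ _ hcv
      cw_int := hmul _ _ hcw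
      cu_int := hmul _ _ hcu
      iso := ?_
      inj := fun z hz w hw hzw => h.inj hz hw (T.injective hzw)
      maps := fun z hz => ⟨_, h.maps hz, rfl⟩
      cone := ?_
      tt := ?_
      pos := ?_
      det_lo := ?_
      det_hi := ?_
      r_pos := h.r_pos
      t0f := h.t0f
      memV := h.memV
      openD := h.openD
      cpt := ?_
      exit := ?_
      finD := h.finD
      L2 := h.L2 }
  · rintro _ ⟨x, hx, rfl⟩
    rw [hT.v, hT.u]
    exact hT.bd x _ _ _ _ (SmoothOn.diffAt h.smoothK h.openU hx) (h.bd x hx)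
  · rintro _ ⟨x, hx, rfl⟩
    obtain ⟨a1, a2, a3, a4, a5⟩ := h.U_sub x hx
    rw [hT.v, hT.u]
    exact ⟨(hT.n1 x).trans (by linarith), by linarith only [a2, a3], a3, by linarith,
      (hT.n2 x).trans (by linarith)⟩
  · exact
      { isOpen := h.iso.isOpen
        smooth := T.contDiff.comp_contDiffOn h.iso.smooth
        diffG := h.iso.diffG
        diffK := fun z hz => hT.diff _ (h.iso.diffK z hz)
        iso := fun z hz a b => by
          rw [hfd z hz]
          show _ = K'.gF (T (Psi z)) (T (fderiv ℝ Psi z a)) (T (fderiv ℝ Psi z b))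
          rw [hT.gF, h.iso.iso z hz] }
  · intro z hz a
    have h1 := h.cone z hz a
    have h2 := sq_nonneg ‖a‖
    linarith only [h1, h2]
  · intro z hz
    have h1 := h.tt z hz
    linarith
  · intro z hz
    rw [hfd z hz]
    show 0 < (T (fderiv ℝ Psi z e1)).2.1
    rw [hT.v]; exact h.pos z hz
  · intro z hz
    rw [hfd z hz]
    have h1 := h.det_lo z hz
    have h2 : ((T : P4 →L[ℝ] P4).comp (fderiv ℝ Psi z)).det =
        (T : P4 →L[ℝ] P4).det * (fderiv ℝ Psi z).det := by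
      show LinearMap.det (((T : P4 →L[ℝ] P4) : P4 →ₗ[ℝ] P4).comp (fderiv ℝ Psi z : P4 →ₗ[ℝ] P4)) = _
      rw [LinearMap.det_comp]
    rw [h2, abs_mul, hT.det, one_mul]
    linarith only [h1]
  · intro z hz
    rw [hfd z hz]
    have h1 := h.det_hi z hz
    have h2 : ((T : P4 →L[ℝ] P4).comp (fderiv ℝ Psi z)).det =
        (T : P4 →L[ℝ] P4).det * (fderiv ℝ Psi z).det := by
      show LinearMap.det (((T : P4 →L[ℝ] P4) : P4 →ₗ[ℝ] P4).comp (fderiv ℝ Psi z : P4 →ₗ[ℝ] P4)) = _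
      rw [LinearMap.det_comp]
    rw [h2, abs_mul, hT.det, one_mul]
    linarith
  · intro r' hr' v2 hv2
    have h1 := h.cpt r' hr' v2 hv2
    simpa only [hT.v] using h1
  · intro x hx v2 hv2
    simpa only [hT.v] using h.exit x hx v2 hv2

lemma fderiv_T {f : P4 → ℝ} {x : P4} (hf : DifferentiableAt ℝ f x) (a : P4) :
    fderiv ℝ (fun y => f (T.symm y)) (T x) a = fderiv ℝ f x (T.symm a) := by
  have hf' : DifferentiableAt ℝ f (T.symm (T x)) := by simpa using hf
  have h1 : HasFDerivAt (fun z => f (T.symm z))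
      ((fderiv ℝ f (T.symm (T x))).comp (T.symm : P4 →L[ℝ] P4)) (T x) :=
    hf'.hasFDerivAt.comp (T x) T.symm.hasFDerivAt
  rw [h1.fderiv]
  simp

lemma diff_T {f : P4 → ℝ} {x : P4} (hf : DifferentiableAt ℝ f x) :
    DifferentiableAt ℝ (fun y => f (T.symm y)) (T x) := by
  have hf' : DifferentiableAt ℝ f (T.symm (T x)) := by simpa using hf
  exact hf'.comp (T x) T.symm.differentiableAt

lemma smooth_T {f : P4 → ℝ} {U : Set P4} (hf : ContDiffOn ℝ 1 f U) :
    ContDiffOn ℝ 1 (fun y => f (T.symm y)) (T '' U) := by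
  refine hf.comp T.symm.contDiff.contDiffOn ?_
  rintro _ ⟨x, hx, rfl⟩
  show T.symm (T x) ∈ U
  rw [ContinuousLinearEquiv.symm_apply_apply]; exact hx

/-! ### swap -/

/-- exchange of the angular coordinates -/
noncomputable def Tw : P4 ≃L[ℝ] P4 :=
  LinearEquiv.toContinuousLinearEquiv
    { toFun := fun a => (a.2.2.2, a.2.1, a.2.2.1, a.1)
      invFun := fun a => (a.2.2.2, a.2.1, a.2.2.1, a.1)
      map_add' := fun a b => rfl
      map_smul' := fun t a => rfl
      left_inv := fun a => rfl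
      right_inv := fun a => rfl }

lemma Tw_apply (a : P4) : Tw a = (a.2.2.2, a.2.1, a.2.2.1, a.1) := rfl
lemma Tw_symm_apply (a : P4) : Tw.symm a = (a.2.2.2, a.2.1, a.2.2.1, a.1) := rfl

/-- the coefficients after the exchange -/
noncomputable def Coef.sw (K : Coef) : Coef where
  om := fun y => K.om (Tw.symm y)
  s1 := fun y => K.s2 (Tw.symm y)
  s2 := fun y => K.s1 (Tw.symm y)
  w1 := fun y => K.w2 (Tw.symm y)
  w2 := fun y => K.w1 (Tw.symm y)
  g11 := fun y => K.g22 (Tw.symm y)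
  g12 := fun y => K.g12 (Tw.symm y)
  g22 := fun y => K.g11 (Tw.symm y)

/-! ### shear -/

/-- shear of the angular coordinates -/
noncomputable def Ts : P4 ≃L[ℝ] P4 :=
  LinearEquiv.toContinuousLinearEquiv
    { toFun := fun a => (a.1, a.2.1, a.2.2.1, a.2.2.2 - a.1)
      invFun := fun a => (a.1, a.2.1, a.2.2.1, a.2.2.2 + a.1)
      map_add' := fun a b => by
        ext <;> simp only [Prod.fst_add, Prod.mk_add_mk, Prod.snd_add]
        ring
      map_smul' := fun t a => by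
        ext <;> simp only [Prod.smul_fst, smul_eq_mul, Real.ringHom_apply, Prod.smul_mk, Prod.smul_snd]
        ring
      left_inv := fun a => by simp
      right_inv := fun a => by simp }

lemma Ts_apply (a : P4) : Ts a = (a.1, a.2.1, a.2.2.1, a.2.2.2 - a.1) := rfl
lemma Ts_symm_apply (a : P4) : Ts.symm a = (a.1, a.2.1, a.2.2.1, a.2.2.2 + a.1) := rfl

/-- the coefficients after the shear -/
noncomputable def Coef.sh (K : Coef) : Coef where
  om := fun y => K.om (Ts.symm y)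
  s1 := fun y => K.s1 (Ts.symm y)
  s2 := fun y => K.s2 (Ts.symm y) - K.s1 (Ts.symm y)
  w1 := fun y => K.w1 (Ts.symm y)
  w2 := fun y => K.w2 (Ts.symm y) - K.w1 (Ts.symm y)
  g11 := fun y => K.g11 (Ts.symm y) + 2 * K.g12 (Ts.symm y) + K.g22 (Ts.symm y)
  g12 := fun y => K.g12 (Ts.symm y) + K.g22 (Ts.symm y)
  g22 := fun y => K.g22 (Ts.symm y)


lemma det_eqP (L : P4 →L[ℝ] P4) :
    L.det = (Matrix.of fun i j => P354.eqP (L (P354.bP j)) i).det := by
  have h1 : L.det = (LinearMap.toMatrix P354.BP P354.BP (L : P4 →ₗ[ℝ] P4)).det := by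
    rw [LinearMap.det_toMatrix]
  rw [h1]
  congr 1
  ext i j
  rw [LinearMap.toMatrix_apply, P354.BP_apply, Matrix.of_apply]
  simp [P354.BP]

lemma det_Tw : |((Tw : P4 →L[ℝ] P4)).det| = 1 := by
  rw [det_eqP, Matrix.det_succ_row_zero]
  simp only [Nat.succ_eq_add_one, Nat.reduceAdd, P354.eqP, Fin.isValue, P354.bP, ContinuousLinearEquiv.coe_coe, Tw_apply, LinearEquiv.coe_mk, LinearMap.coe_mk, AddHom.coe_mk, Matrix.of_apply, Matrix.cons_val_zero, Matrix.submatrix, Fin.succAbove, Matrix.cons_val_succ, Matrix.det_fin_three, Fin.castSucc_zero, Fin.succ_zero_eq_one, Fin.castSucc_one, Fin.succ_one_eq_two, Matrix.cons_val_one, Fin.reduceCastSucc, Fin.reduceSucc, Matrix.cons_val, Fin.sum_univ_succ, Fin.coe_ofNat_eq_mod, Nat.zero_mod, pow_zero, mul_zero, lt_self_iff_false, ↓reduceIte, not_lt_zero, mul_one, sub_self, add_zero, Fin.val_succ, Fin.succ_pos, zero_mul, zero_add, pow_one, Fin.lt_one_iff, Fin.reduceEq, even_two, Even.neg_pow, one_pow,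 Fin.reduceLT, Finset.univ_unique, Fin.default_eq_zero, Fin.val_eq_zero, Matrix.cons_val_fin_one, Finset.sum_singleton, sub_zero, abs_pow, abs_neg, abs_one]

lemma det_Ts : |((Ts : P4 →L[ℝ] P4)).det| = 1 := by
  rw [det_eqP, Matrix.det_succ_row_zero]
  simp only [Nat.succ_eq_add_one, Nat.reduceAdd, P354.eqP, Fin.isValue, P354.bP, ContinuousLinearEquiv.coe_coe, Ts_apply, LinearEquiv.coe_mk, LinearMap.coe_mk, AddHom.coe_mk, Matrix.of_apply, Matrix.cons_val_zero, Matrix.submatrix, Fin.succAbove, Matrix.cons_val_succ, Matrix.det_fin_three, Fin.castSucc_zero, Fin.succ_zero_eq_one, Fin.castSucc_one, Fin.succ_one_eq_two, Matrix.cons_val_one, Fin.reduceCastSucc, Fin.reduceSucc, Matrix.cons_val, Fin.sum_univ_succ, Fin.coe_ofNat_eq_mod, Nat.zero_mod, pow_zero, mul_one, lt_self_iff_false, ↓reduceIte, not_lt_zero, sub_zero, mul_zero, sub_self, add_zero, Fin.val_succ, Fin.succ_pos, zero_mul, zero_sub, mul_neg, zero_add, sub_neg_eq_add, pow_one, Fin.lt_one_iff,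 Fin.reduceEq, neg_zero, even_two, Even.neg_pow, one_pow, Fin.reduceLT, Finset.univ_unique, Fin.default_eq_zero, Fin.val_eq_zero, Matrix.cons_val_fin_one, Finset.sum_const_zero, abs_one]

lemma Tw_s {x : P4} : Tw.symm (Tw x) = x := ContinuousLinearEquiv.symm_apply_apply _ _
lemma Ts_s {x : P4} : Ts.symm (Ts x) = x := ContinuousLinearEquiv.symm_apply_apply _ _

lemma sw_e4 (K : Coef) (x : P4) : Tw.symm (e4 K.sw (Tw x)) = e4 K x := by
  simp only [e4, Coef.sw, Tw_s]
  rw [Tw_symm_apply]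

lemma sw_e3 (K : Coef) (x : P4) : Tw.symm (e3 K.sw (Tw x)) = e3 K x := by
  simp only [e3, Coef.sw, Tw_s]
  rw [Tw_symm_apply]

lemma sh_e4 (K : Coef) (x : P4) : Ts.symm (e4 K.sh (Ts x)) = e4 K x := by
  simp only [e4, Coef.sh, Ts_s]
  rw [Ts_symm_apply]
  simp

lemma sh_e3 (K : Coef) (x : P4) : Ts.symm (e3 K.sh (Ts x)) = e3 K x := by
  simp only [e3, Coef.sh, Ts_s]
  rw [Ts_symm_apply]
  simp

lemma tr_sw (K : Coef) : Tr K K.sw Tw where
  v := fun y => rfl
  u := fun y => rfl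
  n1 := fun y => by
    rw [Tw_apply]
    have := abs_nonneg y.1
    show |y.2.2.2| ≤ _
    linarith
  n2 := fun y => by
    rw [Tw_apply]
    have := abs_nonneg y.2.2.2
    show |y.1| ≤ _
    linarith
  det := det_Tw
  gF := fun x a b => by
    simp only [Coef.gF, Coef.h1, Coef.h2, Coef.sw, Tw_s]
    simp only [Tw_apply]
    ring
  diff := fun x hK => ⟨diff_T hK.om, diff_T hK.s2, diff_T hK.s1, diff_T hK.w2, diff_T hK.w1,
    diff_T hK.g22, diff_T hK.g12, diff_T hK.g11⟩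
  smooth := fun U hK => ⟨smooth_T hK.om, smooth_T hK.s2, smooth_T hK.s1, smooth_T hK.w2,
    smooth_T hK.w1, smooth_T hK.g22, smooth_T hK.g12, smooth_T hK.g11⟩
  bd := fun x C cv cw cu hK hB => by
    have hC : 1 ≤ C := hB.one_le
    have h1 : Tw.symm e1 = e2 := rfl
    have h2 : Tw.symm e2 = e1 := rfl
    have hv := hB.cv0
    have hw := hB.cw0
    have hu := hB.cu0
    have key : ∀ a b : ℝ, 0 ≤ b → a ≤ b → a ≤ 8 * b := fun a b h0 h => by linarith only [h0, h]
    have hC0 : 0 ≤ C := by linarith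
    have om' : fderiv ℝ K.sw.om (Tw x) = _ := rfl
    exact
      { one_le := by linarith only [hC]
        cv0 := by linarith
        cw0 := by linarith
        cu0 := by linarith
        om_lo := by
          show 1 ≤ 8 * C * K.om (Tw.symm (Tw x))
          rw [Tw_s]
          have := hB.om_lo
          linarith
        om_hi := by
          show K.om (Tw.symm (Tw x)) ≤ _
          rw [Tw_s]
          exact key _ _ hC0 hB.om_hi
        g_lo := by
          intro p q
          show _ ≤ 8 * C * (K.g22 (Tw.symm (Tw x)) * p ^ 2 + 2 * K.g12 (Tw.symm (Tw x)) * p * q +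
            K.g11 (Tw.symm (Tw x)) * q ^ 2)
          rw [Tw_s]
          have h3 := hB.g_lo q p
          have h4 : 0 ≤ q ^ 2 + p ^ 2 := by positivity
          linarith only [h3, h4]
        g11 := by
          show |K.g22 (Tw.symm (Tw x))| ≤ _
          rw [Tw_s]; exact key _ _ hC0 hB.g22
        g12 := by
          show |K.g12 (Tw.symm (Tw x))| ≤ _
          rw [Tw_s]; exact key _ _ hC0 hB.g12
        g22 := by
          show |K.g11 (Tw.symm (Tw x))| ≤ _
          rw [Tw_s]; exact key _ _ hC0 hB.g11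
        om_1 := by
          show |fderiv ℝ (fun y => K.om (Tw.symm y)) (Tw x) _| ≤ _
          rw [fderiv_T hK.om, h1]; exact key _ _ hC0 hB.om_2
        om_2 := by
          show |fderiv ℝ (fun y => K.om (Tw.symm y)) (Tw x) _| ≤ _
          rw [fderiv_T hK.om, h2]; exact key _ _ hC0 hB.om_1
        g11_1 := by
          show |fderiv ℝ (fun y => K.g22 (Tw.symm y)) (Tw x) _| ≤ _
          rw [fderiv_T hK.g22, h1]; exact key _ _ hC0 hB.g22_2
        g11_2 := by
          show |fderiv ℝ (fun y => K.g22 (Tw.symm y)) (Tw x) _| ≤ _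
          rw [fderiv_T hK.g22, h2]; exact key _ _ hC0 hB.g22_1
        g12_1 := by
          show |fderiv ℝ (fun y => K.g12 (Tw.symm y)) (Tw x) _| ≤ _
          rw [fderiv_T hK.g12, h1]; exact key _ _ hC0 hB.g12_2
        g12_2 := by
          show |fderiv ℝ (fun y => K.g12 (Tw.symm y)) (Tw x) _| ≤ _
          rw [fderiv_T hK.g12, h2]; exact key _ _ hC0 hB.g12_1
        g22_1 := by
          show |fderiv ℝ (fun y => K.g11 (Tw.symm y)) (Tw x) _| ≤ _
          rw [fderiv_T hK.g11, h1]; exact key _ _ hC0 hB.g11_2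
        g22_2 := by
          show |fderiv ℝ (fun y => K.g11 (Tw.symm y)) (Tw x) _| ≤ _
          rw [fderiv_T hK.g11, h2]; exact key _ _ hC0 hB.g11_1
        s1_1 := by
          show |fderiv ℝ (fun y => K.s2 (Tw.symm y)) (Tw x) _| ≤ _
          rw [fderiv_T hK.s2, h1]; exact key _ _ hC0 hB.s2_2
        s1_2 := by
          show |fderiv ℝ (fun y => K.s2 (Tw.symm y)) (Tw x) _| ≤ _
          rw [fderiv_T hK.s2, h2]; exact key _ _ hC0 hB.s2_1
        s2_1 := by
          show |fderiv ℝ (fun y => K.s1 (Tw.symm y)) (Tw x) _| ≤ _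
          rw [fderiv_T hK.s1, h1]; exact key _ _ hC0 hB.s1_2
        s2_2 := by
          show |fderiv ℝ (fun y => K.s1 (Tw.symm y)) (Tw x) _| ≤ _
          rw [fderiv_T hK.s1, h2]; exact key _ _ hC0 hB.s1_1
        w1_1 := by
          show |fderiv ℝ (fun y => K.w2 (Tw.symm y)) (Tw x) _| ≤ _
          rw [fderiv_T hK.w2, h1]; exact key _ _ hC0 hB.w2_2
        w1_2 := by
          show |fderiv ℝ (fun y => K.w2 (Tw.symm y)) (Tw x) _| ≤ _
          rw [fderiv_T hK.w2, h2]; exact key _ _ hC0 hB.w2_1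
        w2_1 := by
          show |fderiv ℝ (fun y => K.w1 (Tw.symm y)) (Tw x) _| ≤ _
          rw [fderiv_T hK.w1, h1]; exact key _ _ hC0 hB.w1_2
        w2_2 := by
          show |fderiv ℝ (fun y => K.w1 (Tw.symm y)) (Tw x) _| ≤ _
          rw [fderiv_T hK.w1, h2]; exact key _ _ hC0 hB.w1_1
        t1 := by
          show |fderiv ℝ (fun y => K.s2 (Tw.symm y)) (Tw x) _ -
            fderiv ℝ (fun y => K.w2 (Tw.symm y)) (Tw x) _| ≤ _
          rw [fderiv_T hK.s2, fderiv_T hK.w2, sw_e3, sw_e4]; exact key _ _ hC0 hB.t2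
        t2 := by
          show |fderiv ℝ (fun y => K.s1 (Tw.symm y)) (Tw x) _ -
            fderiv ℝ (fun y => K.w1 (Tw.symm y)) (Tw x) _| ≤ _
          rw [fderiv_T hK.s1, fderiv_T hK.w1, sw_e3, sw_e4]; exact key _ _ hC0 hB.t1
        om_4 := by
          show |fderiv ℝ (fun y => K.om (Tw.symm y)) (Tw x) _| ≤ _
          rw [fderiv_T hK.om, sw_e4]; exact key _ _ hw hB.om_4
        g11_4 := by
          show |fderiv ℝ (fun y => K.g22 (Tw.symm y)) (Tw x) _| ≤ _
          rw [fderiv_T hK.g22, sw_e4]; exact key _ _ hv hB.g22_4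
        g12_4 := by
          show |fderiv ℝ (fun y => K.g12 (Tw.symm y)) (Tw x) _| ≤ _
          rw [fderiv_T hK.g12, sw_e4]; exact key _ _ hv hB.g12_4
        g22_4 := by
          show |fderiv ℝ (fun y => K.g11 (Tw.symm y)) (Tw x) _| ≤ _
          rw [fderiv_T hK.g11, sw_e4]; exact key _ _ hv hB.g11_4
        om_3 := by
          show |fderiv ℝ (fun y => K.om (Tw.symm y)) (Tw x) _| ≤ _
          rw [fderiv_T hK.om, sw_e3]; exact key _ _ hu hB.om_3
        g11_3 := by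
          show |fderiv ℝ (fun y => K.g22 (Tw.symm y)) (Tw x) _| ≤ _
          rw [fderiv_T hK.g22, sw_e3]; exact key _ _ hu hB.g22_3
        g12_3 := by
          show |fderiv ℝ (fun y => K.g12 (Tw.symm y)) (Tw x) _| ≤ _
          rw [fderiv_T hK.g12, sw_e3]; exact key _ _ hu hB.g12_3
        g22_3 := by
          show |fderiv ℝ (fun y => K.g11 (Tw.symm y)) (Tw x) _| ≤ _
          rw [fderiv_T hK.g11, sw_e3]; exact key _ _ hu hB.g11_3 }

lemma fT_sub {f g : P4 → ℝ} {x : P4} (hf : DifferentiableAt ℝ f x)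
    (hg : DifferentiableAt ℝ g x) (a : P4) :
    fderiv ℝ (fun y => f (T.symm y) - g (T.symm y)) (T x) a =
      fderiv ℝ f x (T.symm a) - fderiv ℝ g x (T.symm a) := by
  have h1 := (diff_T (T := T) hf).hasFDerivAt.sub (diff_T (T := T) hg).hasFDerivAt
  have h2 : fderiv ℝ (fun y => f (T.symm y) - g (T.symm y)) (T x) =
    fderiv ℝ (fun y => f (T.symm y)) (T x) - fderiv ℝ (fun y => g (T.symm y)) (T x) := h1.fderiv
  rw [h2, ContinuousLinearMap.sub_apply, fderiv_T hf, fderiv_T hg]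

lemma fT_add {f g : P4 → ℝ} {x : P4} (hf : DifferentiableAt ℝ f x)
    (hg : DifferentiableAt ℝ g x) (a : P4) :
    fderiv ℝ (fun y => f (T.symm y) + g (T.symm y)) (T x) a =
      fderiv ℝ f x (T.symm a) + fderiv ℝ g x (T.symm a) := by
  have h1 := (diff_T (T := T) hf).hasFDerivAt.add (diff_T (T := T) hg).hasFDerivAt
  have h2 : fderiv ℝ (fun y => f (T.symm y) + g (T.symm y)) (T x) =
    fderiv ℝ (fun y => f (T.symm y)) (T x) + fderiv ℝ (fun y => g (T.symm y)) (T x) := h1.fderiv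
  rw [h2, ContinuousLinearMap.add_apply, fderiv_T hf, fderiv_T hg]

lemma fT_add3 {f g k : P4 → ℝ} {x : P4} (hf : DifferentiableAt ℝ f x)
    (hg : DifferentiableAt ℝ g x) (hk : DifferentiableAt ℝ k x) (a : P4) :
    fderiv ℝ (fun y => f (T.symm y) + 2 * g (T.symm y) + k (T.symm y)) (T x) a =
      fderiv ℝ f x (T.symm a) + 2 * fderiv ℝ g x (T.symm a) + fderiv ℝ k x (T.symm a) := by
  have h1 := ((diff_T (T := T) hf).hasFDerivAt.add
    ((diff_T (T := T) hg).hasFDerivAt.const_mul 2)).add (diff_T (T := T) hk).hasFDerivAt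
  have h2 : fderiv ℝ (fun y => f (T.symm y) + 2 * g (T.symm y) + k (T.symm y)) (T x) =
    fderiv ℝ (fun y => f (T.symm y)) (T x) + (2:ℝ) • fderiv ℝ (fun y => g (T.symm y)) (T x) +
      fderiv ℝ (fun y => k (T.symm y)) (T x) := h1.fderiv
  rw [h2]
  show fderiv ℝ (fun y => f (T.symm y)) (T x) a + 2 * fderiv ℝ (fun y => g (T.symm y)) (T x) a +
      fderiv ℝ (fun y => k (T.symm y)) (T x) a = _
  rw [fderiv_T hf, fderiv_T hg, fderiv_T hk]

lemma ax2 {a b C : ℝ} (ha : |a| ≤ C) (hb : |b| ≤ C) : |a + b| ≤ 8 * C := by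
  have h0 : 0 ≤ C := (abs_nonneg a).trans ha
  rw [abs_le] at *
  constructor <;> linarith only [ha, hb]

lemma ax2' {a b C : ℝ} (ha : |a| ≤ C) (hb : |b| ≤ C) : |a - b| ≤ 8 * C := by
  have h0 : 0 ≤ C := (abs_nonneg a).trans ha
  rw [abs_le] at *
  constructor <;> linarith only [ha, hb]

lemma ax22 {a b c d C : ℝ} (ha : |a| ≤ C) (hb : |b| ≤ C) (hc : |c| ≤ C) (hd : |d| ≤ C) :
    |(a + b) + (c + d)| ≤ 8 * C := by
  have h0 : 0 ≤ C := (abs_nonneg a).trans ha
  rw [abs_le] at *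
  constructor <;> linarith only [ha, hb, hc, hd]

lemma ax22' {a b c d C : ℝ} (ha : |a| ≤ C) (hb : |b| ≤ C) (hc : |c| ≤ C) (hd : |d| ≤ C) :
    |(a + b) - (c + d)| ≤ 8 * C := by
  have h0 : 0 ≤ C := (abs_nonneg a).trans ha
  rw [abs_le] at *
  constructor <;> linarith only [ha, hb, hc, hd]

lemma ax3 {a b c C : ℝ} (ha : |a| ≤ C) (hb : |b| ≤ C) (hc : |c| ≤ C) :
    |a + 2 * b + c| ≤ 8 * C := by
  have h0 : 0 ≤ C := (abs_nonneg a).trans ha
  rw [abs_le] at *
  constructor <;> linarith only [ha, hb, hc]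

lemma ax33 {a b c d e f C : ℝ} (ha : |a| ≤ C) (hb : |b| ≤ C) (hc : |c| ≤ C) (hd : |d| ≤ C)
    (he : |e| ≤ C) (hf : |f| ≤ C) :
    |(a + b) + 2 * (c + d) + (e + f)| ≤ 8 * C := by
  have h0 : 0 ≤ C := (abs_nonneg a).trans ha
  rw [abs_le] at *
  constructor <;> linarith only [ha, hb, hc, hd, he, hf]

lemma axt {a b c d C : ℝ} (h : |a - b| ≤ C) (h' : |c - d| ≤ C) :
    |(c - a) - (d - b)| ≤ 8 * C := by
  have h0 : 0 ≤ C := (abs_nonneg _).trans h
  rw [abs_le] at *
  constructor <;> linarith only [h, h']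

lemma tr_sh (K : Coef) : Tr K K.sh Ts where
  v := fun y => rfl
  u := fun y => rfl
  n1 := fun y => by
    rw [Ts_apply]
    have := abs_nonneg y.2.2.2
    show |y.1| ≤ _
    linarith
  n2 := fun y => by
    rw [Ts_apply]
    show |y.2.2.2 - y.1| ≤ _
    have := abs_sub y.2.2.2 y.1
    linarith
  det := det_Ts
  gF := fun x a b => by
    simp only [Coef.gF, Coef.h1, Coef.h2, Coef.sh, Ts_s]
    simp only [Ts_apply]
    ring
  diff := fun x hK => ⟨diff_T hK.om, diff_T hK.s1, (diff_T hK.s2).sub (diff_T hK.s1),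
    diff_T hK.w1, (diff_T hK.w2).sub (diff_T hK.w1),
    ((diff_T hK.g11).add ((diff_T hK.g12).const_mul 2)).add (diff_T hK.g22),
    (diff_T hK.g12).add (diff_T hK.g22), diff_T hK.g22⟩
  smooth := fun U hK => ⟨smooth_T hK.om, smooth_T hK.s1, (smooth_T hK.s2).sub (smooth_T hK.s1),
    smooth_T hK.w1, (smooth_T hK.w2).sub (smooth_T hK.w1),
    ((smooth_T hK.g11).add (contDiffOn_const.mul (smooth_T hK.g12))).add (smooth_T hK.g22),
    (smooth_T hK.g12).add (smooth_T hK.g22), smooth_T hK.g22⟩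
  bd := fun x C cv cw cu hK hB => by
    have hC : 1 ≤ C := hB.one_le
    have h1 : Ts.symm e1 = e1 + e2 := by simp [Ts_symm_apply, e1, e2]
    have h2 : Ts.symm e2 = e2 := by simp [Ts_symm_apply, e2]
    have hv := hB.cv0
    have hw := hB.cw0
    have hu := hB.cu0
    have key : ∀ a b : ℝ, 0 ≤ b → a ≤ b → a ≤ 8 * b := fun a b h0 h => by linarith only [h0, h]
    have hC0 : 0 ≤ C := by linarith
    have e1' := fun (L : P4 →L[ℝ] ℝ) => map_add L e1 e2
    exact
      { one_le := by linarith only [hC]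
        cv0 := by linarith
        cw0 := by linarith
        cu0 := by linarith
        om_lo := by
          show 1 ≤ 8 * C * K.om (Ts.symm (Ts x))
          rw [Ts_s]
          have := hB.om_lo
          linarith
        om_hi := by
          show K.om (Ts.symm (Ts x)) ≤ _
          rw [Ts_s]
          exact key _ _ hC0 hB.om_hi
        g_lo := by
          intro p q
          show _ ≤ 8 * C * ((K.g11 (Ts.symm (Ts x)) + 2 * K.g12 (Ts.symm (Ts x)) +
            K.g22 (Ts.symm (Ts x))) * p ^ 2 + 2 * (K.g12 (Ts.symm (Ts x)) +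
            K.g22 (Ts.symm (Ts x))) * p * q + K.g22 (Ts.symm (Ts x)) * q ^ 2)
          rw [Ts_s]
          have h3 := hB.g_lo p (p + q)
          have h4 : p ^ 2 + q ^ 2 ≤ 8 * (p ^ 2 + (p + q) ^ 2) := by
            linarith only [sq_nonneg (3 * p + 2 * q), sq_nonneg (p + q), sq_nonneg p]
          linarith
        g11 := by
          show |K.g11 (Ts.symm (Ts x)) + 2 * K.g12 (Ts.symm (Ts x)) + K.g22 (Ts.symm (Ts x))| ≤ _
          rw [Ts_s]; exact ax3 hB.g11 hB.g12 hB.g22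
        g12 := by
          show |K.g12 (Ts.symm (Ts x)) + K.g22 (Ts.symm (Ts x))| ≤ _
          rw [Ts_s]; exact ax2 hB.g12 hB.g22
        g22 := by
          show |K.g22 (Ts.symm (Ts x))| ≤ _
          rw [Ts_s]; exact key _ _ hC0 hB.g22
        om_1 := by
          show |fderiv ℝ (fun y => K.om (Ts.symm y)) (Ts x) _| ≤ _
          rw [fderiv_T hK.om, h1, e1']; exact ax2 hB.om_1 hB.om_2
        om_2 := by
          show |fderiv ℝ (fun y => K.om (Ts.symm y)) (Ts x) _| ≤ _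
          rw [fderiv_T hK.om, h2]; exact key _ _ hC0 hB.om_2
        g11_1 := by
          show |fderiv ℝ (fun y => K.g11 (Ts.symm y) + 2 * K.g12 (Ts.symm y) +
            K.g22 (Ts.symm y)) (Ts x) _| ≤ _
          rw [fT_add3 hK.g11 hK.g12 hK.g22, h1, e1', e1', e1']
          exact ax33 hB.g11_1 hB.g11_2 hB.g12_1 hB.g12_2 hB.g22_1 hB.g22_2
        g11_2 := by
          show |fderiv ℝ (fun y => K.g11 (Ts.symm y) + 2 * K.g12 (Ts.symm y) +
            K.g22 (Ts.symm y)) (Ts x) _| ≤ _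
          rw [fT_add3 hK.g11 hK.g12 hK.g22, h2]
          exact ax3 hB.g11_2 hB.g12_2 hB.g22_2
        g12_1 := by
          show |fderiv ℝ (fun y => K.g12 (Ts.symm y) + K.g22 (Ts.symm y)) (Ts x) _| ≤ _
          rw [fT_add hK.g12 hK.g22, h1, e1', e1']
          exact ax22 hB.g12_1 hB.g12_2 hB.g22_1 hB.g22_2
        g12_2 := by
          show |fderiv ℝ (fun y => K.g12 (Ts.symm y) + K.g22 (Ts.symm y)) (Ts x) _| ≤ _
          rw [fT_add hK.g12 hK.g22, h2]; exact ax2 hB.g12_2 hB.g22_2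
        g22_1 := by
          show |fderiv ℝ (fun y => K.g22 (Ts.symm y)) (Ts x) _| ≤ _
          rw [fderiv_T hK.g22, h1, e1']; exact ax2 hB.g22_1 hB.g22_2
        g22_2 := by
          show |fderiv ℝ (fun y => K.g22 (Ts.symm y)) (Ts x) _| ≤ _
          rw [fderiv_T hK.g22, h2]; exact key _ _ hC0 hB.g22_2
        s1_1 := by
          show |fderiv ℝ (fun y => K.s1 (Ts.symm y)) (Ts x) _| ≤ _
          rw [fderiv_T hK.s1, h1, e1']; exact ax2 hB.s1_1 hB.s1_2
        s1_2 := by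
          show |fderiv ℝ (fun y => K.s1 (Ts.symm y)) (Ts x) _| ≤ _
          rw [fderiv_T hK.s1, h2]; exact key _ _ hC0 hB.s1_2
        s2_1 := by
          show |fderiv ℝ (fun y => K.s2 (Ts.symm y) - K.s1 (Ts.symm y)) (Ts x) _| ≤ _
          rw [fT_sub hK.s2 hK.s1, h1, e1', e1']
          exact ax22' hB.s2_1 hB.s2_2 hB.s1_1 hB.s1_2
        s2_2 := by
          show |fderiv ℝ (fun y => K.s2 (Ts.symm y) - K.s1 (Ts.symm y)) (Ts x) _| ≤ _
          rw [fT_sub hK.s2 hK.s1, h2]; exact ax2' hB.s2_2 hB.s1_2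
        w1_1 := by
          show |fderiv ℝ (fun y => K.w1 (Ts.symm y)) (Ts x) _| ≤ _
          rw [fderiv_T hK.w1, h1, e1']; exact ax2 hB.w1_1 hB.w1_2
        w1_2 := by
          show |fderiv ℝ (fun y => K.w1 (Ts.symm y)) (Ts x) _| ≤ _
          rw [fderiv_T hK.w1, h2]; exact key _ _ hC0 hB.w1_2
        w2_1 := by
          show |fderiv ℝ (fun y => K.w2 (Ts.symm y) - K.w1 (Ts.symm y)) (Ts x) _| ≤ _
          rw [fT_sub hK.w2 hK.w1, h1, e1', e1']
          exact ax22' hB.w2_1 hB.w2_2 hB.w1_1 hB.w1_2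
        w2_2 := by
          show |fderiv ℝ (fun y => K.w2 (Ts.symm y) - K.w1 (Ts.symm y)) (Ts x) _| ≤ _
          rw [fT_sub hK.w2 hK.w1, h2]; exact ax2' hB.w2_2 hB.w1_2
        t1 := by
          show |fderiv ℝ (fun y => K.s1 (Ts.symm y)) (Ts x) _ -
            fderiv ℝ (fun y => K.w1 (Ts.symm y)) (Ts x) _| ≤ _
          rw [fderiv_T hK.s1, fderiv_T hK.w1, sh_e3, sh_e4]; exact key _ _ hC0 hB.t1
        t2 := by
          show |fderiv ℝ (fun y => K.s2 (Ts.symm y) - K.s1 (Ts.symm y)) (Ts x) _ -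
            fderiv ℝ (fun y => K.w2 (Ts.symm y) - K.w1 (Ts.symm y)) (Ts x) _| ≤ _
          rw [fT_sub hK.s2 hK.s1, fT_sub hK.w2 hK.w1, sh_e3, sh_e4]
          exact axt hB.t1 hB.t2
        om_4 := by
          show |fderiv ℝ (fun y => K.om (Ts.symm y)) (Ts x) _| ≤ _
          rw [fderiv_T hK.om, sh_e4]; exact key _ _ hw hB.om_4
        g11_4 := by
          show |fderiv ℝ (fun y => K.g11 (Ts.symm y) + 2 * K.g12 (Ts.symm y) +
            K.g22 (Ts.symm y)) (Ts x) _| ≤ _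
          rw [fT_add3 hK.g11 hK.g12 hK.g22, sh_e4]
          exact ax3 hB.g11_4 hB.g12_4 hB.g22_4
        g12_4 := by
          show |fderiv ℝ (fun y => K.g12 (Ts.symm y) + K.g22 (Ts.symm y)) (Ts x) _| ≤ _
          rw [fT_add hK.g12 hK.g22, sh_e4]; exact ax2 hB.g12_4 hB.g22_4
        g22_4 := by
          show |fderiv ℝ (fun y => K.g22 (Ts.symm y)) (Ts x) _| ≤ _
          rw [fderiv_T hK.g22, sh_e4]; exact key _ _ hv hB.g22_4
        om_3 := by
          show |fderiv ℝ (fun y => K.om (Ts.symm y)) (Ts x) _| ≤ _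
          rw [fderiv_T hK.om, sh_e3]; exact key _ _ hu hB.om_3
        g11_3 := by
          show |fderiv ℝ (fun y => K.g11 (Ts.symm y) + 2 * K.g12 (Ts.symm y) +
            K.g22 (Ts.symm y)) (Ts x) _| ≤ _
          rw [fT_add3 hK.g11 hK.g12 hK.g22, sh_e3]
          exact ax3 hB.g11_3 hB.g12_3 hB.g22_3
        g12_3 := by
          show |fderiv ℝ (fun y => K.g12 (Ts.symm y) + K.g22 (Ts.symm y)) (Ts x) _| ≤ _
          rw [fT_add hK.g12 hK.g22, sh_e3]; exact ax2 hB.g12_3 hB.g22_3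
        g22_3 := by
          show |fderiv ℝ (fun y => K.g22 (Ts.symm y)) (Ts x) _| ≤ _
          rw [fderiv_T hK.g22, sh_e3]; exact key _ _ hu hB.g22_3 }

/-- the derivatives of the three functions g11, g22, g11 + 2 g12 + g22 in the direction e4 -/
noncomputable def D3 (K : Coef) (j : Fin 3) (y : P4) : ℝ :=
  ![fderiv ℝ K.g11 y (e4 K y), fderiv ℝ K.g22 y (e4 K y),
    fderiv ℝ K.g11 y (e4 K y) + 2 * fderiv ℝ K.g12 y (e4 K y) + fderiv ℝ K.g22 y (e4 K y)] j

end Vale.Agent.P354w
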