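import Vale.Agent.P354w.Iso

set_option maxSynthPendingDepth 3

namespace Vale.Agent.P354w

/-- basis vectors of the standard side; `e1` is also the exotic vertical direction `T`. -/
def e1 : P4 := (1, 0, 0, 0)
def ev : P4 := (0, 1, 0, 0)
def eu : P4 := (0, 0, 1, 0)
def e2 : P4 := (0, 0, 0, 1)

/-- the null vector `d_u + w` -/
def e3 (K : Coef) (x : P4) : P4 := (K.w1 x, 0, 1, K.w2 x)

/-- the null vector `d_v + s` -/
def e4 (K : Coef) (x : P4) : P4 := (K.s1 x, 1, 0, K.s2 x)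

lemma clm_decomp (L : P4 →L[ℝ] ℝ) (a : P4) :
    L a = a.1 * L e1 + a.2.1 * L ev + a.2.2.1 * L eu + a.2.2.2 * L e2 := by
  have : a = a.1 • e1 + a.2.1 • ev + a.2.2.1 • eu + a.2.2.2 • e2 := by
    simp only [e1, Prod.smul_mk, smul_eq_mul, mul_one, mul_zero, ev, Prod.mk_add_mk, add_zero, zero_add, eu, e2, Prod.mk.eta]
  conv_lhs => rw [this]
  simp only [map_add, map_smul, smul_eq_mul]

lemma clm_decomp' (K : Coef) (x : P4) (L : P4 →L[ℝ] ℝ) (a : P4) :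
    L a = K.h1 x a * L e1 + a.2.1 * L (e4 K x) + a.2.2.1 * L (e3 K x) + K.h2 x a * L e2 := by
  rw [clm_decomp L a, clm_decomp L (e4 K x), clm_decomp L (e3 K x)]
  simp only [Coef.h1, Coef.h2, e3, e4]
  ring

/-- uniform bounds at the point `x`. -/
structure Coef.Bd (K : Coef) (x : P4) (C cv cw cu : ℝ) : Prop where
  one_le : 1 ≤ C
  cv0 : 0 ≤ cv
  cw0 : 0 ≤ cw
  cu0 : 0 ≤ cu
  om_lo : 1 ≤ C * K.om x
  om_hi : K.om x ≤ C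
  g_lo : ∀ p q : ℝ, p ^ 2 + q ^ 2 ≤ C * (K.g11 x * p ^ 2 + 2 * K.g12 x * p * q + K.g22 x * q ^ 2)
  g11 : |K.g11 x| ≤ C
  g12 : |K.g12 x| ≤ C
  g22 : |K.g22 x| ≤ C
  om_1 : |fderiv ℝ K.om x e1| ≤ C
  om_2 : |fderiv ℝ K.om x e2| ≤ C
  g11_1 : |fderiv ℝ K.g11 x e1| ≤ C
  g11_2 : |fderiv ℝ K.g11 x e2| ≤ C
  g12_1 : |fderiv ℝ K.g12 x e1| ≤ C
  g12_2 : |fderiv ℝ K.g12 x e2| ≤ C
  g22_1 : |fderiv ℝ K.g22 x e1| ≤ C
  g22_2 : |fderiv ℝ K.g22 x e2| ≤ C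
  s1_1 : |fderiv ℝ K.s1 x e1| ≤ C
  s1_2 : |fderiv ℝ K.s1 x e2| ≤ C
  s2_1 : |fderiv ℝ K.s2 x e1| ≤ C
  s2_2 : |fderiv ℝ K.s2 x e2| ≤ C
  w1_1 : |fderiv ℝ K.w1 x e1| ≤ C
  w1_2 : |fderiv ℝ K.w1 x e2| ≤ C
  w2_1 : |fderiv ℝ K.w2 x e1| ≤ C
  w2_2 : |fderiv ℝ K.w2 x e2| ≤ C
  t1 : |fderiv ℝ K.s1 x (e3 K x) - fderiv ℝ K.w1 x (e4 K x)| ≤ C
  t2 : |fderiv ℝ K.s2 x (e3 K x) - fderiv ℝ K.w2 x (e4 K x)| ≤ C
  om_4 : |fderiv ℝ K.om x (e4 K x)| ≤ cw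
  g11_4 : |fderiv ℝ K.g11 x (e4 K x)| ≤ cv
  g12_4 : |fderiv ℝ K.g12 x (e4 K x)| ≤ cv
  g22_4 : |fderiv ℝ K.g22 x (e4 K x)| ≤ cv
  om_3 : |fderiv ℝ K.om x (e3 K x)| ≤ cu
  g11_3 : |fderiv ℝ K.g11 x (e3 K x)| ≤ cu
  g12_3 : |fderiv ℝ K.g12 x (e3 K x)| ≤ cu
  g22_3 : |fderiv ℝ K.g22 x (e3 K x)| ≤ cu

lemma aux_mul3 {x y z X Y Z : ℝ} (hx : |x| ≤ X) (hy : |y| ≤ Y) (hz : |z| ≤ Z) :
    |x * y * z| ≤ X * Y * Z := by
  rw [abs_mul, abs_mul]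
  have := abs_nonneg x
  have := abs_nonneg y
  have := abs_nonneg z
  have hX : 0 ≤ X := by linarith
  have hY : 0 ≤ Y := by linarith
  exact mul_le_mul (mul_le_mul hx hy (abs_nonneg y) hX) hz (abs_nonneg z) (mul_nonneg hX hY)

lemma aux_mul2 {x y X Y : ℝ} (hx : |x| ≤ X) (hy : |y| ≤ Y) : |x * y| ≤ X * Y := by
  rw [abs_mul]
  have := abs_nonneg x
  exact mul_le_mul hx hy (abs_nonneg y) (by linarith)

lemma aux_xy {x y M : ℝ} (h : x ^ 2 + y ^ 2 ≤ M) :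
    |x * y| ≤ M ∧ |x ^ 2| ≤ M ∧ |y ^ 2| ≤ M := by
  refine ⟨?_, ?_, ?_⟩
  · rw [abs_le]; constructor <;> linarith only [h, sq_nonneg (x + y), sq_nonneg (x - y)]
  · rw [abs_of_nonneg (sq_nonneg x)]; linarith only [h, sq_nonneg y]
  · rw [abs_of_nonneg (sq_nonneg y)]; linarith only [h, sq_nonneg x]

/-- Real-number lemma for the `beta` and `alpha` equations. -/
lemma alg_q {C c4 c3 a b x1 x2 g11 g12 g22 o4 o1 o2 g113 g123 g223 t1 t2 w11 w12 w21 w22 : ℝ}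
    (hC : 1 ≤ C) (hc4 : 0 ≤ c4) (hc3 : 0 ≤ c3) (ha : 0 ≤ a) (hb : 0 ≤ b)
    (hx1 : |x1| ≤ C * (a + b)) (hx2 : |x2| ≤ C * (a + b))
    (hx : x1 ^ 2 + x2 ^ 2 ≤ 2 * C ^ 2 * (a * b))
    (hg11 : |g11| ≤ C) (hg12 : |g12| ≤ C) (hg22 : |g22| ≤ C)
    (ho4 : |o4| ≤ c4) (ho1 : |o1| ≤ C) (ho2 : |o2| ≤ C)
    (hg113 : |g113| ≤ c3) (hg123 : |g123| ≤ c3) (hg223 : |g223| ≤ c3)
    (ht1 : |t1| ≤ C) (ht2 : |t2| ≤ C) (hw11 : |w11| ≤ C) (hw12 : |w12| ≤ C)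
    (hw21 : |w21| ≤ C) (hw22 : |w22| ≤ C) :
    |-2 * (b * (b * o4 + x1 * o1 + x2 * o2))
      - (g113 * x1 ^ 2 + 2 * g123 * (x1 * x2) + g223 * x2 ^ 2)
      + 2 * (g11 * x1 * (b * t1 - (x1 * w11 + x2 * w12))
        + g12 * (x1 * (b * t2 - (x1 * w21 + x2 * w22)) + x2 * (b * t1 - (x1 * w11 + x2 * w12)))
        + g22 * x2 * (b * t2 - (x1 * w21 + x2 * w22)))|
    ≤ 60 * C ^ 4 * (b * (c4 * b + c3 * a + a + b)) := by
  have hC0 : 0 ≤ C := by linarith only [hC]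
  have hab : 0 ≤ a + b := by linarith only [ha, hb]
  have hC4 : 1 ≤ C ^ 4 := one_le_pow₀ hC
  have hC2 : C ^ 2 ≤ C ^ 4 := pow_le_pow_right₀ hC (by norm_num)
  have hC3 : C ^ 3 ≤ C ^ 4 := pow_le_pow_right₀ hC (by norm_num)
  have hP : 0 ≤ b * (c4 * b) := mul_nonneg hb (mul_nonneg hc4 hb)
  have hQ : 0 ≤ b * (c3 * a) := mul_nonneg hb (mul_nonneg hc3 ha)
  have hab2 : 0 ≤ b * (a + b) := mul_nonneg hb hab
  obtain ⟨hx12, hx11, hx22⟩ := aux_xy hx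
  have hb' : |b| ≤ b := (abs_of_nonneg hb).le
  set A1 := C ^ 4 * (b * (c3 * a)) with hA1
  set A2 := C ^ 4 * (b * (c4 * b)) with hA2
  set A3 := C ^ 4 * (b * (a + b)) with hA3
  have p1 : 0 ≤ A1 := by positivity
  have p2 : 0 ≤ A2 := by positivity
  have p3 : 0 ≤ A3 := by positivity
  have m1 : b * (c4 * b) ≤ A2 := by
    have := mul_le_mul_of_nonneg_right hC4 hP; linarith only [this]
  have m2 : C ^ 2 * (b * (a + b)) ≤ A3 := mul_le_mul_of_nonneg_right hC2 hab2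
  have m3 : C ^ 3 * (b * (a + b)) ≤ A3 := mul_le_mul_of_nonneg_right hC3 hab2
  have m4 : C ^ 4 * (a * b) ≤ A3 := by
    apply mul_le_mul_of_nonneg_left _ (by positivity)
    linarith only [mul_nonneg hb hb]
  have m5 : C ^ 2 * (b * (c3 * a)) ≤ A1 := mul_le_mul_of_nonneg_right hC2 hQ
  -- terms
  have t1' : |b * (b * o4)| ≤ A2 := by
    refine (aux_mul2 hb' (aux_mul2 hb' ho4)).trans ?_
    calc b * (b * c4) = b * (c4 * b) := by ring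
      _ ≤ _ := m1
  have tt : ∀ {x o : ℝ}, |x| ≤ C * (a + b) → |o| ≤ C → |b * (x * o)| ≤ A3 := by
    intro x o hx ho
    refine (aux_mul2 hb' (aux_mul2 hx ho)).trans ?_
    calc b * (C * (a + b) * C) = C ^ 2 * (b * (a + b)) := by ring
      _ ≤ _ := m2
  have t2' := tt hx1 ho1
  have t3' := tt hx2 ho2
  have tu : ∀ {g x o : ℝ}, |g| ≤ C → |x| ≤ C * (a + b) → |o| ≤ C → |g * x * (b * o)| ≤ A3 := by
    intro g x o hg hx ho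
    refine (aux_mul2 (aux_mul2 hg hx) (aux_mul2 hb' ho)).trans ?_
    calc C * (C * (a + b)) * (b * C) = C ^ 3 * (b * (a + b)) := by ring
      _ ≤ _ := m3
  have tq : ∀ {g q o : ℝ}, |g| ≤ C → |q| ≤ 2 * C ^ 2 * (a * b) → |o| ≤ C → |g * q * o| ≤ 2 * A3 := by
    intro g x o hg hx ho
    refine (aux_mul3 hg hx ho).trans ?_
    calc C * (2 * C ^ 2 * (a * b)) * C = 2 * (C ^ 4 * (a * b)) := by ring
      _ ≤ _ := by linarith only [m4]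
  have u1 := tu hg11 hx1 ht1
  have u2 := tq hg11 hx11 hw11
  have u3 := tq hg11 hx12 hw12
  have u4 := tu hg12 hx1 ht2
  have u5 := tq hg12 hx11 hw21
  have u6 := tq hg12 hx12 hw22
  have u7 := tu hg12 hx2 ht1
  have u8 := tq hg12 hx12 hw11
  have u9 := tq hg12 hx22 hw12
  have u10 := tu hg22 hx2 ht2
  have u11 := tq hg22 hx12 hw21
  have u12 := tq hg22 hx22 hw22
  have tv : ∀ {g q : ℝ}, |g| ≤ c3 → |q| ≤ 2 * C ^ 2 * (a * b) → |g * q| ≤ 2 * A1 := by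
    intro g q hg hq
    refine (aux_mul2 hg hq).trans ?_
    calc c3 * (2 * C ^ 2 * (a * b)) = 2 * (C ^ 2 * (b * (c3 * a))) := by ring
      _ ≤ _ := by linarith only [m5]
  have w1 := tv hg113 hx11
  have w2 := tv hg123 hx12
  have w3 := tv hg223 hx22
  have e : 60 * C ^ 4 * (b * (c4 * b + c3 * a + a + b)) = 60 * A1 + 60 * A2 + 60 * A3 := by
    rw [hA1, hA2, hA3]; ring
  have key : -2 * (b * (b * o4 + x1 * o1 + x2 * o2))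
      - (g113 * x1 ^ 2 + 2 * g123 * (x1 * x2) + g223 * x2 ^ 2)
      + 2 * (g11 * x1 * (b * t1 - (x1 * w11 + x2 * w12))
        + g12 * (x1 * (b * t2 - (x1 * w21 + x2 * w22)) + x2 * (b * t1 - (x1 * w11 + x2 * w12)))
        + g22 * x2 * (b * t2 - (x1 * w21 + x2 * w22)))
      = -2 * (b * (b * o4)) - 2 * (b * (x1 * o1)) - 2 * (b * (x2 * o2))
       + 2 * (g11 * x1 * (b * t1)) - 2 * (g11 * x1 ^ 2 * w11) - 2 * (g11 * (x1 * x2) * w12)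
       + 2 * (g12 * x1 * (b * t2)) - 2 * (g12 * x1 ^ 2 * w21) - 2 * (g12 * (x1 * x2) * w22)
       + 2 * (g12 * x2 * (b * t1)) - 2 * (g12 * (x1 * x2) * w11) - 2 * (g12 * x2 ^ 2 * w12)
       + 2 * (g22 * x2 * (b * t2)) - 2 * (g22 * (x1 * x2) * w21) - 2 * (g22 * x2 ^ 2 * w22)
       - g113 * x1 ^ 2 - 2 * (g123 * (x1 * x2)) - g223 * x2 ^ 2 := by ring
  rw [key, e]
  clear_value A1 A2 A3
  clear key e tt tu tq tv hA1 hA2 hA3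
  generalize b * (b * o4) = q1 at t1' ⊢
  generalize b * (x1 * o1) = q2 at t2' ⊢
  generalize b * (x2 * o2) = q3 at t3' ⊢
  generalize g11 * x1 * (b * t1) = q4 at u1 ⊢
  generalize g11 * x1 ^ 2 * w11 = q5 at u2 ⊢
  generalize g11 * (x1 * x2) * w12 = q6 at u3 ⊢
  generalize g12 * x1 * (b * t2) = q7 at u4 ⊢
  generalize g12 * x1 ^ 2 * w21 = q8 at u5 ⊢
  generalize g12 * (x1 * x2) * w22 = q9 at u6 ⊢
  generalize g12 * x2 * (b * t1) = q10 at u7 ⊢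
  generalize g12 * (x1 * x2) * w11 = q11 at u8 ⊢
  generalize g12 * x2 ^ 2 * w12 = q12 at u9 ⊢
  generalize g22 * x2 * (b * t2) = q13 at u10 ⊢
  generalize g22 * (x1 * x2) * w21 = q14 at u11 ⊢
  generalize g22 * x2 ^ 2 * w22 = q15 at u12 ⊢
  generalize g113 * x1 ^ 2 = q16 at w1 ⊢
  generalize g123 * (x1 * x2) = q17 at w2 ⊢
  generalize g223 * x2 ^ 2 = q18 at w3 ⊢
  clear * - t1' t2' t3' u1 u2 u3 u4 u5 u6 u7 u8 u9 u10 u11 u12 w1 w2 w3 p1 p2 p3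
  rw [abs_le] at t1' t2' t3' u1 u2 u3 u4 u5 u6 u7 u8 u9 u10 u11 u12 w1 w2 w3 ⊢
  obtain ⟨_, _⟩ := t1'
  obtain ⟨_, _⟩ := t2'
  obtain ⟨_, _⟩ := t3'
  obtain ⟨_, _⟩ := u1
  obtain ⟨_, _⟩ := u2
  obtain ⟨_, _⟩ := u3
  obtain ⟨_, _⟩ := u4
  obtain ⟨_, _⟩ := u5
  obtain ⟨_, _⟩ := u6
  obtain ⟨_, _⟩ := u7
  obtain ⟨_, _⟩ := u8
  obtain ⟨_, _⟩ := u9
  obtain ⟨_, _⟩ := u10
  obtain ⟨_, _⟩ := u11
  obtain ⟨_, _⟩ := u12
  obtain ⟨_, _⟩ := w1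
  obtain ⟨_, _⟩ := w2
  obtain ⟨_, _⟩ := w3
  constructor <;> linarith

/-- Real-number lemma for the `Z` derivatives. -/
lemma alg_qZ {C c3 a b x1 x2 g11 g12 g22 o1 g113 g123 t1 t2 w11 w12 w21 w22 : ℝ}
    (hC : 1 ≤ C) (ha : 0 ≤ a) (hb : 0 ≤ b)
    (hx1 : |x1| ≤ C * (a + b)) (hx2 : |x2| ≤ C * (a + b))
    (hg11 : |g11| ≤ C) (hg12 : |g12| ≤ C) (hg22 : |g22| ≤ C)
    (ho1 : |o1| ≤ C)
    (hg113 : |g113| ≤ c3) (hg123 : |g123| ≤ c3)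
    (ht1 : |t1| ≤ C) (ht2 : |t2| ≤ C) (hw11 : |w11| ≤ C) (hw12 : |w12| ≤ C)
    (hw21 : |w21| ≤ C) (hw22 : |w22| ≤ C) :
    |- (o1 * b) - (g11 * x1 * w11 + g12 * (x1 * w21 + x2 * w11) + g22 * x2 * w21)
      - (g113 * x1 + g123 * x2)
      + (g11 * (b * t1 - (x1 * w11 + x2 * w12)) + g12 * (b * t2 - (x1 * w21 + x2 * w22)))|
    ≤ 15 * (C ^ 3 * (a + b)) + c3 * (|x1| + |x2|) := by
  have hC0 : 0 < C := by linarith only [hC]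
  have hb' : |b| ≤ b := (abs_of_nonneg hb).le
  set M := C ^ 3 * (a + b) with hM
  have hM0 : 0 ≤ M := by positivity
  have c13 : C ≤ C ^ 3 := le_self_pow₀ hC (by norm_num)
  have c23 : C ^ 2 ≤ C ^ 3 := pow_le_pow_right₀ hC (by norm_num)
  have hC3 : 0 < C ^ 3 := pow_pos hC0 3
  have mab : C ^ 3 * b ≤ M := by
    rw [hM]; exact mul_le_mul_of_nonneg_left (by linarith only [ha]) hC3.le
  have mCa : C * b ≤ M := (mul_le_mul_of_nonneg_right c13 hb).trans mab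
  have mC2a : C * (b * C) ≤ M := by
    have : C * (b * C) = C ^ 2 * b := by ring
    rw [this]; exact (mul_le_mul_of_nonneg_right c23 hb).trans mab
  have mM : C * (C * (a + b)) * C ≤ M := by
    rw [hM]; apply le_of_eq; ring
  have b1 : |o1 * b| ≤ M := (aux_mul2 ho1 hb').trans mCa
  have u1 := (aux_mul3 hg11 hx1 hw11).trans mM
  have u2 := (aux_mul3 hg12 hx1 hw21).trans mM
  have u3 := (aux_mul3 hg12 hx2 hw11).trans mM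
  have u4 := (aux_mul3 hg22 hx2 hw21).trans mM
  have u5 := (aux_mul2 hg11 (aux_mul2 hb' ht1)).trans mC2a
  have u6 := (aux_mul3 hg11 hx2 hw12).trans mM
  have u7 := (aux_mul2 hg12 (aux_mul2 hb' ht2)).trans mC2a
  have u8 := (aux_mul3 hg12 hx2 hw22).trans mM
  have v1 := aux_mul2 hg113 (le_refl |x1|)
  have v2 := aux_mul2 hg123 (le_refl |x2|)
  have e3 : - (o1 * b) - (g11 * x1 * w11 + g12 * (x1 * w21 + x2 * w11) + g22 * x2 * w21)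
      - (g113 * x1 + g123 * x2)
      + (g11 * (b * t1 - (x1 * w11 + x2 * w12)) + g12 * (b * t2 - (x1 * w21 + x2 * w22)))
      = - (o1 * b) - 2 * (g11 * x1 * w11) - 2 * (g12 * x1 * w21) - g12 * x2 * w11
        - g22 * x2 * w21 + g11 * (b * t1) - g11 * x2 * w12 + g12 * (b * t2)
        - g12 * x2 * w22 - g113 * x1 - g123 * x2 := by ring
  rw [e3]
  clear e3
  generalize o1 * b = q1 at b1 ⊢
  generalize g11 * x1 * w11 = q2 at u1 ⊢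
  generalize g12 * x1 * w21 = q3 at u2 ⊢
  generalize g12 * x2 * w11 = q4 at u3 ⊢
  generalize g22 * x2 * w21 = q5 at u4 ⊢
  generalize g11 * (b * t1) = q6 at u5 ⊢
  generalize g11 * x2 * w12 = q7 at u6 ⊢
  generalize g12 * (b * t2) = q8 at u7 ⊢
  generalize g12 * x2 * w22 = q9 at u8 ⊢
  generalize g113 * x1 = q10 at v1 ⊢
  generalize g123 * x2 = q13 at v2 ⊢
  clear_value M
  clear * - b1 u1 u2 u3 u4 u5 u6 u7 u8 v1 v2 hM0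
  rw [mul_add]
  generalize c3 * |x1| = r1 at *
  generalize c3 * |x2| = r2 at *
  rw [abs_le] at b1 u1 u2 u3 u4 u5 u6 u7 u8 v1 v2 ⊢
  obtain ⟨_, _⟩ := b1
  obtain ⟨_, _⟩ := u1
  obtain ⟨_, _⟩ := u2
  obtain ⟨_, _⟩ := u3
  obtain ⟨_, _⟩ := u4
  obtain ⟨_, _⟩ := u5
  obtain ⟨_, _⟩ := u6
  obtain ⟨_, _⟩ := u7
  obtain ⟨_, _⟩ := u8
  obtain ⟨_, _⟩ := v1
  obtain ⟨_, _⟩ := v2
  constructor <;> linarith

end Vale.Agent.P354w
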