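import Mathlib
import Vale.Agent.P354.Det
import Vale.Agent.P354w.PointEst

set_option linter.unusedSectionVars false
set_option maxSynthPendingDepth 3

open Set

namespace Vale.Agent.P354

/-- The cone condition of the core, from closeness to the Minkowski form. -/
lemma NearM.cone4 {B : P4 →L[ℝ] P4 →L[ℝ] ℝ} (h : NearM B) {C : ℝ} (hC : 1 ≤ C) (a : P4) :
    ‖a‖ ^ 2 ≤ C * ((4:ℝ) • B) a a + C * (((4:ℝ) • B) a P354w.e1) ^ 2 := by
  have h1 := (abs_le.1 (h a a)).1
  rw [mink_self] at h1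
  have h2 := h a P354w.e1
  have hme : P354.mink a P354w.e1 = -a.1 := by simp only [mink, P354w.e1, mul_one, mul_zero, add_zero]
  have hne : ‖(P354w.e1 : P4)‖ = 1 := norm_Tv
  rw [hme, hne] at h2
  have e1' : (((4:ℝ) • B) a a) = 4 * B a a := rfl
  have e2' : (((4:ℝ) • B) a P354w.e1) = 4 * B a P354w.e1 := rfl
  rw [e1', e2']
  set t := B a P354w.e1 with ht
  set n := ‖a‖ with hn
  have hn0 : 0 ≤ n := norm_nonneg a
  have hat : |a.1| ≤ n := norm_fst_le a
  -- t ^ 2 ≥ a.1 ^ 2 - n ^ 2 / 50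
  have h3 : a.1 ^ 2 - n ^ 2 / 50 ≤ t ^ 2 := by
    obtain ⟨p1, p2⟩ := abs_le.1 h2
    obtain ⟨q1, q2⟩ := abs_le.1 hat
    have h4 : |t| ≥ |a.1| - n / 100 := by
      have : |a.1| ≤ |t| + |t - -a.1| := by
        have e : a.1 = (t - -a.1) - t := by ring
        calc |a.1| = |(t - -a.1) - t| := by rw [← e]
          _ ≤ |t - -a.1| + |t| := abs_sub _ _
          _ = _ := by ring
      linarith only [h2, this]
    have h5 : 0 ≤ |t| := abs_nonneg t
    have h6 : 0 ≤ |a.1| := abs_nonneg _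
    have h7 : t ^ 2 = |t| ^ 2 := (sq_abs t).symm
    have h8 : a.1 ^ 2 = |a.1| ^ 2 := (sq_abs _).symm
    rw [h7, h8]
    rcases le_total (|a.1|) (n / 100) with h9 | h9
    · linarith only [pow_le_pow_left₀ h6 h9 2, sq_nonneg n, sq_nonneg |t|]
    · have h10 : (|a.1| - n / 100) ^ 2 ≤ |t| ^ 2 := by
        have : 0 ≤ |a.1| - n / 100 := by linarith only [h9]
        gcongr
      linarith only [h10, mul_le_mul_of_nonneg_right hat hn0, sq_nonneg n]
  have h4 : n ^ 2 ≤ a.1 ^ 2 + (a.2.1 ^ 2 + a.2.2.1 ^ 2 + a.2.2.2 ^ 2) := by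
    have hm : n = max |a.1| (max |a.2.1| (max |a.2.2.1| |a.2.2.2|)) := rfl
    have s1 := sq_nonneg a.1
    have s2 := sq_nonneg a.2.1
    have s3 := sq_nonneg a.2.2.1
    have s4 := sq_nonneg a.2.2.2
    rw [hm]
    rcases max_cases |a.1| (max |a.2.1| (max |a.2.2.1| |a.2.2.2|)) with h5 | h5
    · rw [h5.1, sq_abs]; linarith only [s2, s3, s4]
    · rw [h5.1]
      rcases max_cases |a.2.1| (max |a.2.2.1| |a.2.2.2|) with h6 | h6
      · rw [h6.1, sq_abs]; linarith only [s1, s3, s4]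
      · rw [h6.1]
        rcases max_cases |a.2.2.1| |a.2.2.2| with h7 | h7
        · rw [h7.1, sq_abs]; linarith only [s1, s2, s4]
        · rw [h7.1, sq_abs]; linarith only [s1, s2, s3]
  have h5 : n ^ 2 ≤ 4 * B a a + (4 * t) ^ 2 := by
    have h6 : 0 ≤ n ^ 2 := by positivity
    have h7 : 0 ≤ a.1 ^ 2 := sq_nonneg _
    linarith
  have h6 : 0 ≤ 4 * B a a + (4 * t) ^ 2 := (sq_nonneg n).trans h5
  linarith only [h5, mul_le_mul_of_nonneg_right hC h6]


end Vale.Agent.P354
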