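import Vale.Agent.P354w.SC3
import Vale.Agent.P354w.Cone4

set_option maxSynthPendingDepth 3

open Set Filter Topology MeasureTheory

namespace Vale.Agent.P354w

open Vale.Agent.P354 (mink NearM Tv norm_Tv cone mem_cone InV norm_sub_le_of_deriv
  hasDerivAt_line norm_P4_le norm_P4 tube ball_seg SCurve Reach inV_const cone_nonneg cone_add
  cone_smul cone_zero cone_mono vline_sub vline_cone vline_inV vline_norm TT exitT TT_facts
  BP BP_apply bP Gram)

/-- scaling of the metric by a constant -/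
def Coef.scale (c : ℝ) (K : Coef) : Coef where
  om := fun x => c * K.om x
  s1 := K.s1
  s2 := K.s2
  w1 := K.w1
  w2 := K.w2
  g11 := fun x => c * K.g11 x
  g12 := fun x => c * K.g12 x
  g22 := fun x => c * K.g22 x

lemma gF_scale (c : ℝ) (K : Coef) (x a b : P4) : (K.scale c).gF x a b = c * K.gF x a b := by
  simp only [Coef.gF, Coef.scale, Coef.h1, Coef.h2]; ring

lemma Iso.scale {K : Coef} {G : P4 → P4 →L[ℝ] P4 →L[ℝ] ℝ} {Psi : P4 → P4} {V : Set P4}
    (h : Iso K G Psi V) (c : ℝ) : Iso (K.scale c) (fun z => c • G z) Psi V where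
  isOpen := h.isOpen
  smooth := h.smooth
  diffG := fun z hz => (h.diffG z hz).const_smul c
  diffK := fun z hz => by
    have hK := h.diffK z hz
    exact ⟨hK.om.const_mul c, hK.s1, hK.s2, hK.w1, hK.w2, hK.g11.const_mul c, hK.g12.const_mul c,
      hK.g22.const_mul c⟩
  iso := fun z hz a b => by
    rw [gF_scale, ← h.iso z hz a b]
    rfl

lemma Coef.SmoothOn.scale {K : Coef} {U : Set P4} (h : K.SmoothOn U) (c : ℝ) :
    (K.scale c).SmoothOn U where
  om := contDiffOn_const.mul h.om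
  s1 := h.s1
  s2 := h.s2
  w1 := h.w1
  w2 := h.w2
  g11 := contDiffOn_const.mul h.g11
  g12 := contDiffOn_const.mul h.g12
  g22 := contDiffOn_const.mul h.g22

/-- Gram matrix of the standard side -/
noncomputable def GramK (K : Coef) (x : P4) : Matrix (Fin 4) (Fin 4) ℝ :=
  Matrix.of fun i j => K.gF x (bP i) (bP j)

lemma det_GramK (K : Coef) (x : P4) :
    (GramK K x).det = -(K.om x ^ 2 * (K.g11 x * K.g22 x - K.g12 x ^ 2)) := by
  rw [Matrix.det_succ_row_zero]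
  simp only [Nat.succ_eq_add_one, Nat.reduceAdd, GramK, Coef.gF, bP, neg_mul, Coef.h1, Coef.h2, Fin.isValue, Matrix.of_apply, Matrix.cons_val_zero, zero_mul, add_zero, mul_zero, neg_zero, sub_zero, one_mul, zero_add, sub_self, Matrix.submatrix, Fin.succAbove, Matrix.cons_val_succ, Matrix.det_fin_three, Fin.castSucc_zero, Fin.succ_zero_eq_one, mul_one, zero_sub, mul_neg, Matrix.cons_val_one, Fin.castSucc_one, Fin.succ_one_eq_two, Matrix.cons_val, Fin.reduceCastSucc, Fin.reduceSucc, Fin.sum_univ_succ, Fin.coe_ofNat_eq_mod, Nat.zero_mod, pow_zero, lt_self_iff_false, ↓reduceIte, neg_neg, not_lt_zero, Fin.val_succ, Fin.succ_pos, pow_one, neg_add_rev, Fin.lt_one_iff, Fin.reduceEq, even_two, Even.neg_pow, one_pow, Fin.reduceLT, Finset.univ_unique, Fin.default_eq_zero, Fin.val_eq_zero, Matrix.cons_val_fin_one, Finset.sum_singleton]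
  ring

lemma gF_smul_left (K : Coef) (x a b : P4) (t : ℝ) : K.gF x (t • a) b = t * K.gF x a b := by
  simp only [Coef.gF, Coef.h1, Coef.h2, Prod.smul_fst, Prod.smul_snd, smul_eq_mul]; ring

lemma gF_smul_right (K : Coef) (x a b : P4) (t : ℝ) : K.gF x a (t • b) = t * K.gF x a b := by
  simp only [Coef.gF, Coef.h1, Coef.h2, Prod.smul_fst, Prod.smul_snd, smul_eq_mul]; ring

lemma gF_expand (K : Coef) (x : P4) (c d : Fin 4 → ℝ) :
    K.gF x (∑ i, c i • bP i) (∑ j, d j • bP j) = ∑ i, ∑ j, c i * (K.gF x (bP i) (bP j)) * d j := by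
  simp only [Fin.sum_univ_four, K.gF_add_left, K.gF_add_right, gF_smul_left, gF_smul_right]
  ring

lemma Gram_eq {K : Coef} {G : P4 → P4 →L[ℝ] P4 →L[ℝ] ℝ} {Psi : P4 → P4} {V : Set P4}
    (h : Iso K G Psi V) {z : P4} (hz : z ∈ V) :
    Gram (G z) = (LinearMap.toMatrix BP BP (fderiv ℝ Psi z : P4 →ₗ[ℝ] P4)).transpose *
      GramK K (Psi z) * (LinearMap.toMatrix BP BP (fderiv ℝ Psi z : P4 →ₗ[ℝ] P4)) := by
  set L : Matrix (Fin 4) (Fin 4) ℝ := LinearMap.toMatrix BP BP (fderiv ℝ Psi z : P4 →ₗ[ℝ] P4)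
    with hL
  have hcol : ∀ j, fderiv ℝ Psi z (bP j) = ∑ i, L i j • bP i := by
    intro j
    have h1 := BP.sum_repr (fderiv ℝ Psi z (bP j))
    rw [← h1]
    refine Finset.sum_congr rfl fun i _ => ?_
    rw [hL, LinearMap.toMatrix_apply, BP_apply, BP_apply]
    rfl
  ext i j
  rw [Matrix.mul_apply]
  simp only [Matrix.mul_apply, Matrix.transpose_apply]
  have h2 : Gram (G z) i j = G z (bP i) (bP j) := rfl
  rw [h2, h.iso z hz, hcol, hcol, gF_expand]
  simp only [Finset.sum_mul]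
  rw [Finset.sum_comm]
  rfl

lemma det_bounds {K : Coef} {G : P4 → P4 →L[ℝ] P4 →L[ℝ] ℝ} {Psi : P4 → P4} {V : Set P4}
    (h : Iso K G Psi V) {z : P4} (hz : z ∈ V) {C : ℝ} (hC : CBdW K C (Psi z))
    (hdet : (Gram (G z)).det ∈ Ioo (-2 : ℝ) (-(1 / 2))) :
    1 ≤ 4 * C ^ 4 * |(fderiv ℝ Psi z).det| ∧ |(fderiv ℝ Psi z).det| ≤ 4 * C ^ 4 := by
  have h1 := Gram_eq h hz
  have h2 := congrArg Matrix.det h1
  rw [Matrix.det_mul, Matrix.det_mul, Matrix.det_transpose, LinearMap.det_toMatrix,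
    det_GramK] at h2
  have h3 : LinearMap.det (fderiv ℝ Psi z : P4 →ₗ[ℝ] P4) = (fderiv ℝ Psi z).det := rfl
  rw [h3] at h2
  set D := (fderiv ℝ Psi z).det with hD
  set om := K.om (Psi z) with hom
  set g := K.g11 (Psi z) * K.g22 (Psi z) - K.g12 (Psi z) ^ 2 with hg
  have hC1 := hC.one_le
  have hC0 := hC.C_pos
  have hompos := hC.om_pos
  have hom1 : om ^ 2 ≤ C ^ 2 := by
    have := hC.om_hi
    gcongr
  have hom2 : 1 ≤ C ^ 2 * om ^ 2 := by
    have h4 := hC.om_lo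
    rw [div_le_iff₀ hC0] at h4
    have h5 : 1 ≤ (om * C) ^ 2 := one_le_pow₀ h4
    calc (1:ℝ) ≤ (om * C) ^ 2 := h5
      _ = _ := by ring
  have hg1 : g ≤ C ^ 2 := by
    have a1 : K.g11 (Psi z) * K.g22 (Psi z) ≤ C * C := by
      calc K.g11 (Psi z) * K.g22 (Psi z) ≤ |K.g11 (Psi z) * K.g22 (Psi z)| := le_abs_self _
        _ = |K.g11 (Psi z)| * |K.g22 (Psi z)| := abs_mul _ _
        _ ≤ C * C := mul_le_mul hC.g11_hi hC.g22_hi (abs_nonneg _) hC0.le
    have a2 := sq_nonneg (K.g12 (Psi z))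
    rw [hg]; linarith only [a1, a2]
  have hg2 : 1 ≤ C ^ 2 * g := by
    have b1 := hC.g_lo (K.g12 (Psi z)) (-K.g11 (Psi z))
    have b2 := hC.g_lo 1 0
    rw [div_le_iff₀ hC0] at b1 b2
    have b3 : 1 ≤ K.g11 (Psi z) * C := by linarith only [b2]
    have b4 : 0 < K.g11 (Psi z) := by
      by_contra hcon
      push Not at hcon
      linarith only [b2, mul_nonpos_of_nonpos_of_nonneg hcon hC0.le]
    have b5 : K.g11 (Psi z) ^ 2 ≤ K.g11 (Psi z) * g * C := by
      have : K.g11 (Psi z) * K.g12 (Psi z) ^ 2 + 2 * K.g12 (Psi z) * K.g12 (Psi z) *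
        -K.g11 (Psi z) + K.g22 (Psi z) * (-K.g11 (Psi z)) ^ 2 = K.g11 (Psi z) * g := by
        rw [hg]; ring
      rw [this] at b1
      linarith only [b1, sq_nonneg (K.g12 (Psi z))]
    have b6 : K.g11 (Psi z) ≤ g * C := by
      have : K.g11 (Psi z) * K.g11 (Psi z) ≤ K.g11 (Psi z) * (g * C) := by linarith only [b5]
      exact le_of_mul_le_mul_left this b4
    linarith only [b2, mul_le_mul_of_nonneg_right b6 hC0.le]
  have hD2 : D * -(om ^ 2 * g) * D = -(D ^ 2 * (om ^ 2 * g)) := by ring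
  rw [hD2] at h2
  have hdl : D ^ 2 * (om ^ 2 * g) < 2 := by linarith only [h2, hdet.1]
  have hdu : 1 / 2 < D ^ 2 * (om ^ 2 * g) := by linarith only [h2, hdet.2]
  have hgpos : 0 < g := by
    by_contra hcon
    push Not at hcon
    linarith only [hg2, mul_nonpos_of_nonneg_of_nonpos (sq_nonneg C) hcon]
  have hC4 : 0 < C ^ 4 := by positivity
  have hC41 : 1 ≤ C ^ 4 := one_le_pow₀ hC1
  have e1 : D ^ 2 ≤ 2 * C ^ 4 := by
    have : 1 ≤ C ^ 4 * (om ^ 2 * g) := by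
      calc (1:ℝ) ≤ (C ^ 2 * om ^ 2) * (C ^ 2 * g) := one_le_mul_of_one_le_of_one_le hom2 hg2
        _ = _ := by ring
    calc D ^ 2 = D ^ 2 * 1 := by ring
      _ ≤ D ^ 2 * (C ^ 4 * (om ^ 2 * g)) := by gcongr
      _ = C ^ 4 * (D ^ 2 * (om ^ 2 * g)) := by ring
      _ ≤ C ^ 4 * 2 := by gcongr
      _ = _ := by ring
  have e2 : 1 / 2 ≤ D ^ 2 * C ^ 4 := by
    calc 1 / 2 ≤ D ^ 2 * (om ^ 2 * g) := hdu.le
      _ ≤ D ^ 2 * (C ^ 2 * C ^ 2) := by gcongr
      _ = _ := by ring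
  constructor
  · have e3 : 1 ≤ (4 * C ^ 4 * |D|) ^ 2 := by
      have : (4 * C ^ 4 * |D|) ^ 2 = 16 * C ^ 4 * (D ^ 2 * C ^ 4) := by
        rw [mul_pow, sq_abs]; ring
      rw [this]
      linarith only [mul_le_mul hC41 e2 (by norm_num) hC4.le]
    have e4 : 0 ≤ 4 * C ^ 4 * |D| := by positivity
    by_contra hcon
    push Not at hcon
    linarith only [e3, pow_lt_one₀ e4 hcon two_ne_zero]
  · apply abs_le_of_sq_le_sq _ (by positivity)
    calc D ^ 2 ≤ 2 * C ^ 4 := e1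
      _ ≤ 16 * (C ^ 4 * C ^ 4) := by linarith only [hC4, mul_le_mul_of_nonneg_left hC41 hC4.le]
      _ = _ := by ring

lemma MC_isOpen (p0 : P4) (r : ℝ) : IsOpen (MC p0 r) := by
  have : MC p0 r = {x | ‖x - p0‖ < r} ∩ ({x | x.2.1 < 0} ∩ {x | x.2.2.1 < 0}) := rfl
  rw [this]
  exact (isOpen_lt (by fun_prop) continuous_const).inter
    ((isOpen_lt (by fun_prop) continuous_const).inter (isOpen_lt (by fun_prop) continuous_const))

/-- the energy hypothesis on the exotic side -/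
structure EHyp (G : P4 → P4 →L[ℝ] P4 →L[ℝ] ℝ) (V : Set P4) (R0 : ℝ) : Prop where
  det : ∀ z ∈ V, (Gram (G z)).det ∈ Ioo (-2 : ℝ) (-(1 / 2))
  energy : ∀ D ⊆ V, IsOpen D → (∀ z ∈ D, ‖z‖ ≤ R0 / 2) →
    ∫⁻ z in D, ‖fderiv ℝ (fun z => (4:ℝ) • G z) z‖ₑ ^ 2 ≠ ⊤

/-- **Exit near a corner.** Some vertical line near a curve which exits at the corner exits at a
boundary point which is not on the corner. -/
theorem corner_exit {K : Coef} {G : P4 → P4 →L[ℝ] P4 →L[ℝ] ℝ} {Psi : P4 → P4} {V : Set P4}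
    {R0 ρ C : ℝ} {p0 : P4} {γ : ℝ → P4} {s0 η1 Cc : ℝ} {cv cw cu : ℝ → ℝ}
    (H : SHypC K G Psi V R0 ρ C p0) (hc : SCurve Psi V p0 γ s0 η1)
    (hη : 5 * C * η1 < ρ) (hinj : InjOn Psi V) (hsm : K.SmoothOn (MC p0 ρ))
    (hCc : 4 * C ^ 4 ≤ Cc)
    (hbd : ∀ y ∈ MC p0 ρ, (K.scale 4).Bd y Cc (cv y.2.1) (cw y.2.1) (cu y.2.2.1))
    (hcvm : Measurable cv) (hcwm : Measurable cw) (hcum : Measurable cu)
    (hcv : ∫⁻ v in Ico (-(ρ + ‖p0‖)) 0, ENNReal.ofReal (cv v) ≠ ⊤)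
    (hcw : ∫⁻ v in Ico (-(ρ + ‖p0‖)) 0, ENNReal.ofReal (cw v) ≠ ⊤)
    (hcu : ∫⁻ u in Icc (-(ρ + ‖p0‖)) (ρ + ‖p0‖), ENNReal.ofReal (cu u) ≠ ⊤)
    (hE : EHyp G V R0) :
    ∃ (t0 b : ℝ) (x : P3) (q : P4), t0 < b ∧ (∀ t ∈ Ico t0 b, ((t, x) : P4) ∈ V) ∧
      (∀ t ∈ Icc t0 b, ‖((t, x) : P4)‖ ≤ R0 / 2) ∧
      Tendsto (fun t => Psi (t, x)) (𝓝[<] b) (𝓝 q) ∧ ‖q - p0‖ ≤ 5 * C * η1 ∧
      ((q.2.1 = 0 ∧ q.2.2.1 < 0) ∨ (q.2.1 < 0 ∧ q.2.2.1 = 0)) := by
  have hC1 := H.one_le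
  have hC0 : 0 < C := by linarith
  obtain ⟨t0, r, f, hr, ht0f, hmemV, hopenD, hgood, hexit, hR⟩ := H.main hc hη
  have hDV : DD t0 r f ⊆ V := by
    rintro ⟨t, x⟩ ⟨hx, h1, h2⟩
    exact hmemV x hx t ⟨le_of_lt h1, h2⟩
  have hDR : ∀ z ∈ DD t0 r f, ‖z‖ ≤ R0 / 2 := by
    rintro ⟨t, x⟩ ⟨hx, h1, h2⟩
    exact hR x hx t ⟨le_of_lt h1, le_of_lt h2⟩
  have hC4 : C ≤ C ^ 4 := by
    calc C = C ^ 1 := (pow_one _).symm
      _ ≤ C ^ 4 := pow_le_pow_right₀ hC1 (by norm_num)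
  have hCc1 : 1 ≤ Cc := by linarith only [hCc, hC1, hC4]
  set R : ℝ := ρ + ‖p0‖ with hRdef
  have hρ := H.ρ_pos
  have hpre : PreHyp (K.scale 4) (fun z => (4:ℝ) • G z) Psi V (MC p0 ρ) Cc R cv cw cu t0 r f := by
    refine
      { openU := MC_isOpen _ _
        smoothK := hsm.scale 4
        bd := hbd
        U_sub := ?_
        cv_meas := hcvm
        cw_meas := hcwm
        cu_meas := hcum
        cv_int := hcv
        cw_int := hcw
        cu_int := hcu
        iso := H.iso.scale 4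
        inj := hinj
        maps := fun z hz => H.maps z hz
        cone := fun z hz a => (H.nearV hz).cone4 hCc1 a
        tt := ?_
        pos := fun z hz => H.beta z hz
        det_lo := ?_
        det_hi := ?_
        r_pos := hr
        t0f := ht0f
        memV := hmemV
        openD := hopenD
        finD := ?_
        L2 := hE.energy _ hDV hopenD hDR }
    · intro y hy
      have h1 := hy.1
      have h2 := norm_P4_le.1 (le_refl ‖y - p0‖)
      have h3 := norm_P4_le.1 (le_refl ‖p0‖)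
      simp only [Prod.fst_sub, Prod.snd_sub] at h2
      have tri : ∀ s t : ℝ, |s - t| < ρ → |t| ≤ ‖p0‖ → |s| ≤ R := by
        intro s t h4 h5
        have : |s| ≤ |s - t| + |t| := by
          calc |s| = |(s - t) + t| := by congr 1; ring
            _ ≤ _ := abs_add_le _ _
        rw [hRdef]; linarith only [h4, h5, this]
      have hyv := tri _ _ (h2.2.1.trans_lt h1) h3.2.1
      exact ⟨tri _ _ (h2.1.trans_lt h1) h3.1, (abs_le.1 hyv).1, hy.2.1,
        tri _ _ (h2.2.2.1.trans_lt h1) h3.2.2.1, tri _ _ (h2.2.2.2.trans_lt h1) h3.2.2.2⟩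
    · intro z hz
      have hTc : Tv ∈ cone (1 / 4) := by simp only [one_div, Tv, mem_cone, Prod.norm_mk, norm_zero, max_self, mul_one, inv_nonneg, Nat.ofNat_nonneg]
      have h1 := (H.nearV hz).timelike_of_cone hTc
      have h2 : (Tv : P4).1 = 1 := rfl
      rw [h2] at h1
      have h3 : ((4:ℝ) • G z) e1 e1 = 4 * G z Tv Tv := rfl
      show 1 ≤ Cc * (-(((4:ℝ) • G z) e1 e1))
      rw [h3]
      nlinarith only [hCc, hC1, hC4, h1]
    · intro z hz
      have h1 := (det_bounds H.iso hz (H.cbd hz) (hE.det z hz)).1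
      refine h1.trans ?_
      gcongr
    · intro z hz
      exact (det_bounds H.iso hz (H.cbd hz) (hE.det z hz)).2.trans hCc
    · refine ne_of_lt (lt_of_le_of_lt (measure_mono (t := Metric.closedBall (0 : P4) (R0 / 2)) ?_)
        measure_closedBall_lt_top)
      intro z hz
      simpa only [Metric.mem_closedBall, dist_zero_right] using hDR z hz
  by_contra hcon
  push Not at hcon
  apply hpre.corner (fun y hy => hy.2.2)
  intro x hx
  have hVx := hmemV x hx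
  obtain ⟨q, hq, hqη, hqv, hqu, hq0⟩ := H.line_limit (ht0f x hx) hVx (hgood x hx) (hexit x hx)
  have h1 := hcon t0 (f x) x q (ht0f x hx) hVx (hR x hx) hq hqη
  obtain ⟨h2, h3⟩ := h1
  have hq00 : q.2.1 = 0 ∧ q.2.2.1 = 0 := by
    rcases hq0 with h | h
    · exact ⟨h, le_antisymm hqu (h2 h)⟩
    · refine ⟨?_, h⟩
      by_contra hne
      exact h3 (lt_of_le_of_ne hqv hne) h
  intro ε hε
  have hv : Tendsto (fun t => (Psi (t, x)).2.1) (𝓝[<] (f x)) (𝓝 0) := by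
    have := ((continuous_fst.comp continuous_snd).tendsto q).comp hq
    simpa only [Function.comp_def, Function.comp_apply, hq00.1] using this
  have hu : Tendsto (fun t => (Psi (t, x)).2.2.1) (𝓝[<] (f x)) (𝓝 0) := by
    have := ((continuous_fst.comp (continuous_snd.comp continuous_snd)).tendsto q).comp hq
    simpa only [Function.comp_def, Function.comp_apply, hq00.2] using this
  have hev := ((hv.eventually (Metric.ball_mem_nhds _ hε)).and
    (hu.eventually (Metric.ball_mem_nhds _ hε)))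
  obtain ⟨t1, ht1, ht1'⟩ := mem_nhdsLT_iff_exists_Ico_subset.1 hev
  refine ⟨t1, ht1, fun t ht _ => ?_⟩
  have h4 := ht1' (show t ∈ Ico t1 (f x) from ⟨ht.1.le, ht.2⟩)
  simpa only [dist_zero_right, Real.norm_eq_abs, mem_ofPred_eq] using h4

end Vale.Agent.P354w
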