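import Vale.Agent.P354w.PointEqZ

set_option maxSynthPendingDepth 3

open Set MeasureTheory

namespace Vale.Agent.P354w

/-- the base space of the exotic vertical lines -/
abbrev P3 : Type := ℝ × ℝ × ℝ

/-- All coefficients are `C^1` on the open set `U`. -/
structure Coef.SmoothOn (K : Coef) (U : Set P4) : Prop where
  om : ContDiffOn ℝ 1 K.om U
  s1 : ContDiffOn ℝ 1 K.s1 U
  s2 : ContDiffOn ℝ 1 K.s2 U
  w1 : ContDiffOn ℝ 1 K.w1 U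
  w2 : ContDiffOn ℝ 1 K.w2 U
  g11 : ContDiffOn ℝ 1 K.g11 U
  g12 : ContDiffOn ℝ 1 K.g12 U
  g22 : ContDiffOn ℝ 1 K.g22 U

/-- the region swept by the vertical lines `t ↦ (t, x)`, `t0 < t < f x`, `x ∈ ball 0 r` -/
def DD (t0 r : ℝ) (f : P3 → ℝ) : Set P4 :=
  {z | z.2 ∈ Metric.ball (0 : P3) r ∧ t0 < z.1 ∧ z.1 < f z.2}

structure PreHyp (K : Coef) (G : P4 → P4 →L[ℝ] P4 →L[ℝ] ℝ) (Psi : P4 → P4) (V U : Set P4)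
    (C R : ℝ) (cv cw cu : ℝ → ℝ) (t0 r : ℝ) (f : P3 → ℝ) : Prop where
  openU : IsOpen U
  smoothK : K.SmoothOn U
  bd : ∀ y ∈ U, K.Bd y C (cv y.2.1) (cw y.2.1) (cu y.2.2.1)
  U_sub : ∀ y ∈ U, |y.1| ≤ R ∧ -R ≤ y.2.1 ∧ y.2.1 < 0 ∧ |y.2.2.1| ≤ R ∧ |y.2.2.2| ≤ R
  cv_meas : Measurable cv
  cw_meas : Measurable cw
  cu_meas : Measurable cu
  cv_int : ∫⁻ v in Ico (-R) 0, ENNReal.ofReal (cv v) ≠ ⊤
  cw_int : ∫⁻ v in Ico (-R) 0, ENNReal.ofReal (cw v) ≠ ⊤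
  cu_int : ∫⁻ u in Icc (-R) R, ENNReal.ofReal (cu u) ≠ ⊤
  iso : Iso K G Psi V
  inj : InjOn Psi V
  maps : MapsTo Psi V U
  cone : ∀ z ∈ V, ∀ a, ‖a‖ ^ 2 ≤ C * G z a a + C * (G z a e1) ^ 2
  tt : ∀ z ∈ V, 1 ≤ C * (-(G z e1 e1))
  pos : ∀ z ∈ V, 0 < (fderiv ℝ Psi z e1).2.1
  det_lo : ∀ z ∈ V, 1 ≤ C * |(fderiv ℝ Psi z).det|
  det_hi : ∀ z ∈ V, |(fderiv ℝ Psi z).det| ≤ C
  r_pos : 0 < r
  t0f : ∀ x ∈ Metric.ball (0 : P3) r, t0 < f x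
  memV : ∀ x ∈ Metric.ball (0 : P3) r, ∀ t ∈ Ico t0 (f x), (t, x) ∈ V
  openD : IsOpen (DD t0 r f)
  finD : volume (DD t0 r f) ≠ ⊤
  L2 : ∫⁻ z in DD t0 r f, ‖fderiv ℝ G z‖ₑ ^ 2 ≠ ⊤

structure CoreHyp (K : Coef) (G : P4 → P4 →L[ℝ] P4 →L[ℝ] ℝ) (Psi : P4 → P4) (V U : Set P4)
    (C R : ℝ) (cv cw cu : ℝ → ℝ) (t0 r : ℝ) (f : P3 → ℝ) : Prop
    extends PreHyp K G Psi V U C R cv cw cu t0 r f where
  cpt : ∀ r' < r, ∀ v2 < 0, IsCompact {z : P4 | ‖z.2‖ ≤ r' ∧ t0 ≤ z.1 ∧ z.1 < f z.2 ∧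
    (Psi z).2.1 ≤ v2}
  exit : ∀ x ∈ Metric.ball (0 : P3) r, ∀ v2 < 0, ∃ t ∈ Ico t0 (f x), v2 < (Psi (t, x)).2.1

namespace PreHyp

variable {K : Coef} {G : P4 → P4 →L[ℝ] P4 →L[ℝ] ℝ} {Psi : P4 → P4} {V U : Set P4}
    {C R : ℝ} {cv cw cu : ℝ → ℝ} {t0 r : ℝ} {f : P3 → ℝ}

lemma pt (h : PreHyp K G Psi V U C R cv cw cu t0 r f) {z : P4} (hz : z ∈ V) :
    PtHyp K G Psi V z C (cv (Psi z).2.1) (cw (Psi z).2.1) (cu (Psi z).2.2.1) where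
  iso := h.iso
  mem := hz
  bd := h.bd _ (h.maps hz)
  cone := h.cone z hz
  tt := h.tt z hz
  pos := h.pos z hz

/-- the derivative of `Psi` is injective, hence an equivalence -/
lemma deriv_inj (h : PreHyp K G Psi V U C R cv cw cu t0 r f) {z : P4} (hz : z ∈ V) :
    Function.Injective (fderiv ℝ Psi z) := by
  rw [injective_iff_map_eq_zero]
  intro a ha
  have h1 := h.cone z hz a
  rw [h.iso.iso z hz, h.iso.iso z hz, ha] at h1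
  simp only [Coef.gF, Coef.h1, Coef.h2, Prod.fst_zero, Prod.snd_zero] at h1
  have : ‖a‖ ^ 2 ≤ 0 := by linarith
  have h2 : ‖a‖ = 0 := by
    have := norm_nonneg a
    exact (pow_eq_zero_iff two_ne_zero).1 (le_antisymm ‹‖a‖ ^ 2 ≤ 0› (sq_nonneg _))
  exact norm_eq_zero.mp h2

/-- the derivative of `Psi` as an equivalence -/
noncomputable def Aeq (h : PreHyp K G Psi V U C R cv cw cu t0 r f) {z : P4} (hz : z ∈ V) :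
    P4 ≃L[ℝ] P4 :=
  (LinearEquiv.ofInjectiveEndo (fderiv ℝ Psi z : P4 →ₗ[ℝ] P4)
    (h.deriv_inj hz)).toContinuousLinearEquiv

lemma Aeq_apply (h : PreHyp K G Psi V U C R cv cw cu t0 r f) {z : P4} (hz : z ∈ V) (a : P4) :
    h.Aeq hz a = fderiv ℝ Psi z a := rfl

lemma Aeq_coe (h : PreHyp K G Psi V U C R cv cw cu t0 r f) {z : P4} (hz : z ∈ V) :
    (h.Aeq hz : P4 →L[ℝ] P4) = fderiv ℝ Psi z := rfl

lemma exists_pre (h : PreHyp K G Psi V U C R cv cw cu t0 r f) {z : P4} (hz : z ∈ V) (w : P4) :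
    ∃ a, fderiv ℝ Psi z a = w :=
  ⟨(h.Aeq hz).symm w, by rw [← h.Aeq_apply hz]; simp⟩

end PreHyp

end Vale.Agent.P354w
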