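import Vale.Agent.P354w.Meas

set_option maxSynthPendingDepth 3

open Set MeasureTheory Filter

namespace Vale.Agent.P354w

/-- the set of lines along which one of the frame components exceeds `κ/2` -/
def NN (Psi : P4 → P4) (t0 r : ℝ) (f : P3 → ℝ) (κ : ℝ) : Set P3 :=
  Prod.snd '' (DD t0 r f ∩ {z | κ / 2 < (fderiv ℝ Psi z e1).2.1 ∨
    κ / 2 < (fderiv ℝ Psi z e1).2.2.1})

namespace PreHyp

variable {K : Coef} {G : P4 → P4 →L[ℝ] P4 →L[ℝ] ℝ} {Psi : P4 → P4} {V U : Set P4}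
    {C R : ℝ} {cv cw cu : ℝ → ℝ} {t0 r : ℝ} {f : P3 → ℝ}

lemma NN_sub {κ : ℝ} : NN Psi t0 r f κ ⊆ Metric.ball (0 : P3) r := by
  rintro x ⟨z, ⟨hz, _⟩, rfl⟩
  exact hz.1

lemma NN_anti : Antitone (fun n : ℕ => NN Psi t0 r f n) := by
  intro n m hnm x hx
  obtain ⟨z, ⟨hz, hz2⟩, rfl⟩ := hx
  have : (n : ℝ) ≤ m := by exact_mod_cast hnm
  refine ⟨z, ⟨hz, ?_⟩, rfl⟩
  rcases hz2 with h | h
  · left; linarith only [this, h]
  · right; linarith only [this, h]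

lemma isOpen_NN (h : PreHyp K G Psi V U C R cv cw cu t0 r f) {κ : ℝ} :
    IsOpen (NN Psi t0 r f κ) := by
  apply isOpenMap_snd
  have hc : ContinuousOn (fun z => fderiv ℝ Psi z e1) (DD t0 r f) := fun z hz =>
    ((h.contDiffAt_P (h.DD_sub hz) e1).continuousAt).continuousWithinAt
  have hb : ContinuousOn (fun z => (fderiv ℝ Psi z e1).2.1) (DD t0 r f) := hc.snd.fst
  have ha : ContinuousOn (fun z => (fderiv ℝ Psi z e1).2.2.1) (DD t0 r f) := hc.snd.snd.fst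
  have e : DD t0 r f ∩ {z | κ / 2 < (fderiv ℝ Psi z e1).2.1 ∨
    κ / 2 < (fderiv ℝ Psi z e1).2.2.1} =
    (DD t0 r f ∩ (fun z => (fderiv ℝ Psi z e1).2.1) ⁻¹' Ioi (κ/2)) ∪
    (DD t0 r f ∩ (fun z => (fderiv ℝ Psi z e1).2.2.1) ⁻¹' Ioi (κ/2)) := by
    rw [← inter_union_distrib_left]
    rfl
  rw [e]
  exact (hb.isOpen_inter_preimage h.openD isOpen_Ioi).union
    (ha.isOpen_inter_preimage h.openD isOpen_Ioi)

lemma not_NN {κ : ℝ} {z : P4} (hz : z ∈ DD t0 r f) (hn : z.2 ∉ NN Psi t0 r f κ) :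
    (fderiv ℝ Psi z e1).2.1 ≤ κ / 2 ∧ (fderiv ℝ Psi z e1).2.2.1 ≤ κ / 2 := by
  constructor
  · by_contra hc
    push Not at hc
    exact hn ⟨z, ⟨hz, Or.inl hc⟩, rfl⟩
  · by_contra hc
    push Not at hc
    exact hn ⟨z, ⟨hz, Or.inr hc⟩, rfl⟩

lemma L1_lt_top (h : PreHyp K G Psi V U C R cv cw cu t0 r f) :
    ∫⁻ z in DD t0 r f, ‖fderiv ℝ G z‖ₑ ≠ ⊤ := by
  have h1 : ∫⁻ z in DD t0 r f, ‖fderiv ℝ G z‖ₑ ≤ ∫⁻ z in DD t0 r f, (1 + ‖fderiv ℝ G z‖ₑ ^ 2) := by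
    apply lintegral_mono
    intro z
    simp only
    rcases le_total ‖fderiv ℝ G z‖ₑ 1 with h | h
    · exact h.trans le_self_add
    · calc ‖fderiv ℝ G z‖ₑ = ‖fderiv ℝ G z‖ₑ * 1 := (mul_one _).symm
        _ ≤ ‖fderiv ℝ G z‖ₑ * ‖fderiv ℝ G z‖ₑ := by gcongr
        _ = ‖fderiv ℝ G z‖ₑ ^ 2 := by ring
        _ ≤ _ := le_add_self
  have h2 : ∫⁻ z in DD t0 r f, (1 + ‖fderiv ℝ G z‖ₑ ^ 2) ≠ ⊤ := by
    rw [lintegral_add_left measurable_const, lintegral_const,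
      Measure.restrict_apply MeasurableSet.univ, univ_inter, one_mul]
    exact ENNReal.add_ne_top.mpr ⟨h.finD, h.L2⟩
  exact ne_top_of_le_ne_top h2 h1

lemma ae_line (h : PreHyp K G Psi V U C R cv cw cu t0 r f) :
    ∀ᵐ x : P3, x ∈ Metric.ball (0 : P3) r →
      ∫⁻ t in Ico t0 (f x), ‖fderiv ℝ G (t, x)‖ₑ ≠ ⊤ := by
  set F : P4 → ENNReal := (DD t0 r f).indicator (fun z => ‖fderiv ℝ G z‖ₑ) with hF
  have hFm : Measurable F := ((measurable_fderiv ℝ G).enorm).indicator h.measDD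
  have h1 : ∫⁻ z, F z ∂((volume : Measure ℝ).prod (volume : Measure P3)) ≠ ⊤ := by
    have := h.L1_lt_top
    rw [← lintegral_indicator h.measDD] at this
    exact this
  rw [lintegral_prod_symm _ hFm.aemeasurable] at h1
  have h2 : Measurable (fun x : P3 => ∫⁻ t : ℝ, F (t, x)) := hFm.lintegral_prod_left'
  filter_upwards [ae_lt_top h2 h1] with x hx hxb
  have e : ∫⁻ t in Ico t0 (f x), ‖fderiv ℝ G (t, x)‖ₑ = ∫⁻ t : ℝ, F (t, x) := by
    rw [setLIntegral_congr (Ioo_ae_eq_Ico (μ := volume) (a := t0) (b := f x)).symm,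
      ← lintegral_indicator measurableSet_Ioo]
    apply lintegral_congr
    intro t
    by_cases ht : t ∈ Ioo t0 (f x)
    · rw [indicator_of_mem ht, hF, indicator_of_mem (show ((t, x) : P4) ∈ DD t0 r f from
        ⟨hxb, ht.1, ht.2⟩)]
    · rw [indicator_of_notMem ht, hF, indicator_of_notMem]
      rintro ⟨_, h1, h2⟩
      exact ht ⟨h1, h2⟩
  rw [e]
  exact hx.ne

lemma exp_aux {q q0 M : ℝ} (hq : 0 < q) (hq0 : 0 < q0) (h : |Real.log q - Real.log q0| ≤ M) :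
    q ≤ q0 * Real.exp M := by
  have h1 : Real.log q ≤ Real.log q0 + M := by
    have := (abs_le.mp h).2
    linarith
  calc q = Real.exp (Real.log q) := (Real.exp_log hq).symm
    _ ≤ Real.exp (Real.log q0 + M) := Real.exp_le_exp.mpr h1
    _ = q0 * Real.exp M := by rw [Real.exp_add, Real.exp_log hq0]

lemma tendsto_NN (h : PreHyp K G Psi V U C R cv cw cu t0 r f) :
    Tendsto (fun n : ℕ => volume (NN Psi t0 r f n)) atTop (nhds 0) := by
  have h1 := tendsto_measure_iInter_atTop (μ := (volume : Measure P3))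
    (s := fun n : ℕ => NN Psi t0 r f n)
    (fun n => (h.isOpen_NN.measurableSet).nullMeasurableSet) NN_anti
    ⟨0, ne_top_of_le_ne_top (measure_ball_lt_top (x := (0 : P3)) (r := r)).ne
      (measure_mono NN_sub)⟩
  have h2 : volume (⋂ n : ℕ, NN Psi t0 r f n) = 0 := by
    rw [measure_eq_zero_iff_ae_notMem]
    filter_upwards [h.ae_line] with x hx hmem
    have hxb : x ∈ Metric.ball (0 : P3) r := NN_sub (mem_iInter.mp hmem 0)
    obtain ⟨M, hM⟩ := h.line_bound hxb (hx hxb)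
    have hz0 : (t0, x) ∈ V := h.memV x hxb t0 ⟨le_refl _, h.t0f x hxb⟩
    have hb0 : 0 < (fderiv ℝ Psi (t0, x) e1).2.1 := h.pos _ hz0
    have ha0 : 0 < (fderiv ℝ Psi (t0, x) e1).2.2.1 := (h.pt hz0).sq_le.2.1
    obtain ⟨n, hn⟩ := exists_nat_gt (2 * max ((fderiv ℝ Psi (t0, x) e1).2.1 * Real.exp M)
      ((fderiv ℝ Psi (t0, x) e1).2.2.1 * Real.exp M))
    obtain ⟨⟨t, x'⟩, ⟨hz, hz2⟩, rfl⟩ := mem_iInter.mp hmem n
    have htm : t ∈ Ico t0 (f x') := ⟨hz.2.1.le, hz.2.2⟩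
    have hzV : ((t, x') : P4) ∈ V := h.DD_sub hz
    obtain ⟨m1, m2⟩ := hM t htm
    have k1 := exp_aux (h.pos _ hzV) hb0 m1
    have k2 := exp_aux (h.pt hzV).sq_le.2.1 ha0 m2
    have l1 := le_max_left ((fderiv ℝ Psi (t0, x') e1).2.1 * Real.exp M)
      ((fderiv ℝ Psi (t0, x') e1).2.2.1 * Real.exp M)
    have l2 := le_max_right ((fderiv ℝ Psi (t0, x') e1).2.1 * Real.exp M)
      ((fderiv ℝ Psi (t0, x') e1).2.2.1 * Real.exp M)
    simp only at hn hz2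
    rcases hz2 with h3 | h3
    · have : (n:ℝ) / 2 < (fderiv ℝ Psi (t, x') e1).2.1 := h3
      linarith only [hn, k1, l1, h3]
    · have : (n:ℝ) / 2 < (fderiv ℝ Psi (t, x') e1).2.2.1 := h3
      linarith only [hn, k2, l2, h3]
  rw [h2] at h1
  exact h1

end PreHyp

end Vale.Agent.P354w
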