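import Vale.Agent.P354w.Core

set_option maxSynthPendingDepth 3

open Set MeasureTheory Filter Topology

namespace Vale.Agent.P354w

/-- projection forgetting v -/
def pr (y : P4) : P3 := (y.1, y.2.2.1, y.2.2.2)

lemma pr_continuous : Continuous pr := by unfold pr; fun_prop

lemma lintegral_pr {p : ℝ → ENNReal} (hp : Measurable p) {s : P3 → ENNReal} (hs : Measurable s) :
    ∫⁻ y : P4, p y.2.1 * s (pr y) = (∫⁻ v, p v) * ∫⁻ w, s w := by
  have m : Measurable (fun y : P4 => p y.2.1 * s (pr y)) := by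
    exact (hp.comp (measurable_fst.comp measurable_snd)).mul (hs.comp pr_continuous.measurable)
  have e1 : ∫⁻ y : P4, p y.2.1 * s (pr y) =
      ∫⁻ a : ℝ, ∫⁻ y : P3, p y.1 * s (a, y.2) := by
    rw [Measure.volume_eq_prod, lintegral_prod _ m.aemeasurable]
    rfl
  have e2 : ∀ a : ℝ, ∫⁻ y : P3, p y.1 * s (a, y.2) = (∫⁻ v, p v) * ∫⁻ b : ℝ × ℝ, s (a, b) := by
    intro a
    have ms : Measurable (fun b : ℝ × ℝ => s (a, b)) := hs.comp measurable_prodMk_left
    have m1 : Measurable (fun y : P3 => p y.1 * s (a, y.2)) :=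
      (hp.comp measurable_fst).mul (ms.comp measurable_snd)
    rw [Measure.volume_eq_prod, lintegral_prod _ m1.aemeasurable]
    have : ∀ x : ℝ, ∫⁻ b : ℝ × ℝ, p x * s (a, b) = p x * ∫⁻ b : ℝ × ℝ, s (a, b) := fun x =>
      lintegral_const_mul _ ms
    simp only [this]
    rw [lintegral_mul_const _ hp]
  rw [e1]
  simp only [e2]
  have m2 : Measurable (fun a : ℝ => ∫⁻ b : ℝ × ℝ, s (a, b)) := hs.lintegral_prod_right'
  rw [lintegral_const_mul _ m2]
  congr 1
  rw [Measure.volume_eq_prod ℝ (ℝ × ℝ), lintegral_prod _ hs.aemeasurable]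

lemma exists_lim_of_deriv_bounded {F F' : ℝ → P4} {a b M : ℝ} (hab : a < b)
    (hF : ∀ t ∈ Ioo a b, HasDerivAt F (F' t) t) (hM : ∀ t ∈ Ioo a b, ‖F' t‖ ≤ M) :
    ∃ q, Tendsto F (𝓝[<] b) (𝓝 q) := by
  have hM0 : 0 ≤ M := (norm_nonneg _).trans (hM ((a + b) / 2) ⟨by linarith only [hab], by linarith only [hab]⟩)
  have hlip : ∀ s ∈ Ioo a b, ∀ t ∈ Ioo a b, ‖F t - F s‖ ≤ M * ‖t - s‖ := by
    intro s hs t ht
    exact (convex_Ioo a b).norm_image_sub_le_of_norm_hasDerivWithin_le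
      (fun x hx => (hF x hx).hasDerivWithinAt) hM hs ht
  have hne : (𝓝[<] b).NeBot := inferInstance
  have : Cauchy (map F (𝓝[<] b)) := by
    rw [Metric.cauchy_iff]
    refine ⟨hne.map F, fun ε hε => ?_⟩
    set δ := min (b - a) (ε / (M + 1)) with hδ
    have hδ0 : 0 < δ := lt_min (by linarith only [hab]) (by positivity)
    refine ⟨F '' Ioo (b - δ) b, image_mem_map (Ioo_mem_nhdsLT (by linarith only [hδ0])), ?_⟩
    rintro _ ⟨s, hs, rfl⟩ _ ⟨t, ht, rfl⟩
    have h1 : δ ≤ b - a := min_le_left _ _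
    have h2 : δ ≤ ε / (M + 1) := min_le_right _ _
    have hs' : s ∈ Ioo a b := ⟨by linarith only [h1, hs.1], hs.2⟩
    have ht' : t ∈ Ioo a b := ⟨by linarith [ht.1], ht.2⟩
    rw [dist_eq_norm]
    refine (hlip t ht' s hs').trans_lt ?_
    have h3 : ‖s - t‖ < δ := by
      rw [Real.norm_eq_abs, abs_lt]
      constructor <;> linarith only [hs.1, ht.2, hs.2, ht.1]
    calc M * ‖s - t‖ ≤ M * δ := by gcongr
      _ ≤ M * (ε / (M + 1)) := by gcongr
      _ < (M + 1) * (ε / (M + 1)) := by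
          have : 0 < ε / (M + 1) := by positivity
          linarith only [hδ0, h2]
      _ = ε := by field_simp
  exact cauchy_map_iff_exists_tendsto.1 this

namespace PreHyp

variable {K : Coef} {G : P4 → P4 →L[ℝ] P4 →L[ℝ] ℝ} {Psi : P4 → P4} {V U : Set P4}
    {C R : ℝ} {cv cw cu : ℝ → ℝ} {t0 r : ℝ} {f : P3 → ℝ}

lemma line_deriv_norm (h : PreHyp K G Psi V U C R cv cw cu t0 r f) {S0 : ℝ}
    (hsw : ∀ y ∈ U, |K.s1 y| ≤ S0 ∧ |K.s2 y| ≤ S0 ∧ |K.w1 y| ≤ S0 ∧ |K.w2 y| ≤ S0)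
    {z : P4} (hz : z ∈ V) {M : ℝ} (hb : (fderiv ℝ Psi z e1).2.1 ≤ M)
    (ha : (fderiv ℝ Psi z e1).2.2.1 ≤ M) : ‖fderiv ℝ Psi z e1‖ ≤ 2 * (C + S0) * M := by
  obtain ⟨k1, k2⟩ := (h.pt hz).abs_h_le
  have hC := (h.pt hz).bd.one_le
  have hbp : 0 < (fderiv ℝ Psi z e1).2.1 := h.pos z hz
  have hap : 0 < (fderiv ℝ Psi z e1).2.2.1 := (h.pt hz).sq_le.2.1
  obtain ⟨s1, s2, w1, w2⟩ := hsw _ (h.maps hz)
  have hM0 : 0 ≤ M := hbp.le.trans hb
  simp only [PtHyp.PP] at k1 k2
  set a := (fderiv ℝ Psi z e1) with hadef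
  have hS0 : 0 ≤ S0 := (abs_nonneg _).trans s1
  have hkey : ∀ s w x : ℝ, |s| ≤ S0 → |w| ≤ S0 →
      |x - s * a.2.1 - w * a.2.2.1| ≤ C * (a.2.2.1 + a.2.1) → |x| ≤ 2 * (C + S0) * M := by
    intro s w x hs hw hx
    have e : x = (x - s * a.2.1 - w * a.2.2.1) + (s * a.2.1 + w * a.2.2.1) := by ring
    rw [e]
    refine (abs_add_le _ _).trans ?_
    have h1 : |s * a.2.1 + w * a.2.2.1| ≤ S0 * a.2.1 + S0 * a.2.2.1 := by
      refine (abs_add_le _ _).trans ?_
      rw [abs_mul, abs_mul, abs_of_pos hbp, abs_of_pos hap]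
      gcongr
    have h2 : C * a.2.1 ≤ C * M := by gcongr
    have h3 : C * a.2.2.1 ≤ C * M := by gcongr
    have h4 : S0 * a.2.1 ≤ S0 * M := by gcongr
    have h5 : S0 * a.2.2.1 ≤ S0 * M := by gcongr
    linarith only [hx, h1, h2, h3, h4, h5]
  have hm : ‖a‖ = max |a.1| (max |a.2.1| (max |a.2.2.1| |a.2.2.2|)) := rfl
  have hCM : M ≤ 2 * (C + S0) * M := by nlinarith only [hC, hM0, mul_nonneg hS0 hM0]
  rw [hm]
  refine max_le (hkey _ _ _ s1 w1 k1) (max_le ?_ (max_le ?_ (hkey _ _ _ s2 w2 k2)))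
  · rw [abs_of_pos hbp]; linarith only [hb, hCM]
  · rw [abs_of_pos hap]; linarith only [ha, hCM]

end PreHyp

namespace CoreHyp

open PreHyp

variable {K : Coef} {G : P4 → P4 →L[ℝ] P4 →L[ℝ] ℝ} {Psi : P4 → P4} {V U : Set P4}
    {C R : ℝ} {cv cw cu : ℝ → ℝ} {t0 r : ℝ} {f : P3 → ℝ}

lemma lim_line (h : CoreHyp K G Psi V U C R cv cw cu t0 r f) {S0 : ℝ}
    (hsw : ∀ y ∈ U, |K.s1 y| ≤ S0 ∧ |K.s2 y| ≤ S0 ∧ |K.w1 y| ≤ S0 ∧ |K.w2 y| ≤ S0)
    {x : P3} (hx : x ∈ Metric.ball (0 : P3) r) {M : ℝ}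
    (hM : ∀ t ∈ Ioo t0 (f x), (fderiv ℝ Psi (t, x) e1).2.1 ≤ M ∧
      (fderiv ℝ Psi (t, x) e1).2.2.1 ≤ M) :
    ∃ q, Tendsto (fun t => Psi (t, x)) (𝓝[<] (f x)) (𝓝 q) ∧ q.2.1 = 0 := by
  have hV : ∀ t ∈ Ioo t0 (f x), ((t, x) : P4) ∈ V := fun t ht => h.memV x hx t ⟨ht.1.le, ht.2⟩
  obtain ⟨q, hq⟩ := exists_lim_of_deriv_bounded (F := fun t => Psi (t, x))
    (F' := fun t => fderiv ℝ Psi (t, x) e1) (M := 2 * (C + S0) * M) (h.t0f x hx)
    (fun t ht => h.hasDerivAt_line (hV t ht))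
    (fun t ht => h.line_deriv_norm hsw (hV t ht) (hM t ht).1 (hM t ht).2)
  refine ⟨q, hq, ?_⟩
  have hqv : Tendsto (fun t => (Psi (t, x)).2.1) (𝓝[<] (f x)) (𝓝 q.2.1) :=
    ((continuous_fst.comp continuous_snd).tendsto q).comp hq
  have hIoo : ∀ᶠ t in 𝓝[<] (f x), t ∈ Ioo t0 (f x) := Ioo_mem_nhdsLT (h.t0f x hx)
  apply le_antisymm
  · exact le_of_tendsto hqv (hIoo.mono fun t ht => (h.U_sub _ (h.maps (hV t ht))).2.2.1.le)
  · by_contra hcon
    push Not at hcon
    obtain ⟨t1, ht1, hv1⟩ := h.exit x hx q.2.1 hcon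
    have hmono : ∀ t ∈ Ico t1 (f x), (Psi (t1, x)).2.1 ≤ (Psi (t, x)).2.1 := by
      intro t ht
      have hd : ∀ τ ∈ Icc t1 t, HasDerivAt (fun t => (Psi (t, x)).2.1)
          (fderiv ℝ Psi (τ, x) e1).2.1 τ := fun τ hτ =>
        (h.hasDerivAt_line (h.memV x hx τ ⟨ht1.1.trans hτ.1, hτ.2.trans_lt ht.2⟩)).snd.fst
      have hm : MonotoneOn (fun t => (Psi (t, x)).2.1) (Icc t1 t) := by
        apply monotoneOn_of_deriv_nonneg (convex_Icc t1 t)
          (fun τ hτ => (hd τ hτ).continuousAt.continuousWithinAt)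
          (fun τ hτ => (hd τ (interior_subset hτ)).differentiableAt.differentiableWithinAt)
        intro τ hτ
        rw [(hd τ (interior_subset hτ)).deriv]
        have hτ' := interior_subset hτ
        exact (h.pos _ (h.memV x hx τ ⟨ht1.1.trans hτ'.1, hτ'.2.trans_lt ht.2⟩)).le
      exact hm ⟨le_rfl, ht.1⟩ ⟨ht.1, le_rfl⟩ ht.1
    have h2 : (Psi (t1, x)).2.1 ≤ q.2.1 :=
      ge_of_tendsto hqv ((show ∀ᶠ t in 𝓝[<] (f x), t ∈ Ico t1 (f x) from
        Ico_mem_nhdsLT ht1.2).mono hmono)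
    linarith

/-- Some vertical line exits outside of a given null set of boundary points. -/
theorem exists_good_exit (h : CoreHyp K G Psi V U C R cv cw cu t0 r f) {S0 : ℝ}
    (hsw : ∀ y ∈ U, |K.s1 y| ≤ S0 ∧ |K.s2 y| ≤ S0 ∧ |K.w1 y| ≤ S0 ∧ |K.w2 y| ≤ S0)
    {Z : Set P3} (hZ : volume Z = 0) :
    ∃ x ∈ Metric.ball (0 : P3) r, ∃ q, Tendsto (fun t => Psi (t, x)) (𝓝[<] (f x)) (𝓝 q) ∧
      q.2.1 = 0 ∧ pr q ∉ Z := by
  have := haarP3
  have hr := h.r_pos
  have hmem0 : ((t0, 0) : P4) ∈ V := h.memV 0 (by simpa only [Metric.mem_ball, dist_self] using hr) t0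
      ⟨le_refl _, h.t0f 0 (by simpa only [Metric.mem_ball, dist_self] using hr)⟩
  have hC : 1 ≤ C := (h.pt hmem0).bd.one_le
  set r' := r / 4 with hr'
  have hr'0 : 0 < r' := by positivity
  have hr'r : r' < r := by rw [hr']; linarith only [hr]
  set bI := volume (Metric.closedBall (0 : P3) r') with hbI
  have hbI0 : 0 < bI := Metric.measure_closedBall_pos volume _ hr'0
  have hbIt : bI ≠ ⊤ := measure_closedBall_lt_top.ne
  obtain ⟨n, hn1, hn⟩ : ∃ n : ℕ, 1 ≤ n ∧ volume (NN Psi t0 r f n) ≤ bI / 2 := by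
    have h1 := ENNReal.tendsto_nhds_zero.mp h.tendsto_NN (bI / 2)
      (ENNReal.half_pos hbI0.ne')
    obtain ⟨n, hn⟩ := (h1.and (eventually_ge_atTop 1)).exists
    exact ⟨n, hn.2, hn.1⟩
  set A : Set P3 := Metric.closedBall (0 : P3) r' \ NN Psi t0 r f n with hA
  have hAm : MeasurableSet A := Metric.isClosed_closedBall.measurableSet.diff
    h.isOpen_NN.measurableSet
  have hA0 : volume A ≠ 0 := by
    intro hA0
    have h1 : bI ≤ volume A + volume (NN Psi t0 r f n) := by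
      refine (measure_mono ?_).trans (measure_union_le _ _)
      intro x hx
      by_cases hx2 : x ∈ NN Psi t0 r f n
      · exact Or.inr hx2
      · exact Or.inl ⟨hx, hx2⟩
    rw [hA0, zero_add] at h1
    have h2 := h1.trans hn
    exact absurd h2 (not_le.mpr (ENNReal.half_lt_self hbI0.ne' hbIt))
  have hAt : volume A ≠ ⊤ := ne_top_of_le_ne_top hbIt (measure_mono sdiff_subset)
  have hAr : ∀ x ∈ A, ‖x‖ ≤ r' := fun x hx => by simpa only [Metric.mem_closedBall, dist_zero_right] using hx.1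
  have hAb : A ⊆ Metric.ball (0 : P3) r := fun x hx => by
    rw [mem_ball_zero_iff]; exact (hAr x hx).trans_lt hr'r
  have hnn : (0:ℝ) < n := by exact_mod_cast hn1
  have hAB : ∀ x ∈ A, ∀ t ∈ Ioo t0 (f x), (fderiv ℝ Psi (t, x) e1).2.1 ≤ n ∧
      (fderiv ℝ Psi (t, x) e1).2.2.1 ≤ n := by
    intro x hx t ht
    obtain ⟨k1, k2⟩ := not_NN (z := (t, x)) ⟨hAb hx, ht.1, ht.2⟩ hx.2
    constructor <;> linarith only [k1, hnn, k2]
  by_contra hcon
  push Not at hcon
  have hE : ∀ x ∈ A, ∃ q, Tendsto (fun t => Psi (t, x)) (𝓝[<] (f x)) (𝓝 q) ∧ q.2.1 = 0 ∧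
      pr q ∈ Z := by
    intro x hx
    obtain ⟨q, hq, hqv⟩ := h.lim_line hsw (hAb hx) (hAB x hx)
    exact ⟨q, hq, hqv, hcon x (hAb hx) q hq hqv⟩
  -- the initial values of v
  obtain ⟨vlo, hvlo0, hvlo⟩ : ∃ vlo < 0, ∀ x : P3, ‖x‖ ≤ r' → (Psi (t0, x)).2.1 ≤ vlo := by
    have hcpt : IsCompact ((fun x : P3 => ((t0, x) : P4)) '' Metric.closedBall (0 : P3) r') :=
      (isCompact_closedBall _ _).image (by fun_prop)
    have hsubV : (fun x : P3 => ((t0, x) : P4)) '' Metric.closedBall (0 : P3) r' ⊆ V := by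
      rintro _ ⟨x, hx, rfl⟩
      have hx' : x ∈ Metric.ball (0 : P3) r := by
        rw [mem_closedBall_zero_iff] at hx
        rw [mem_ball_zero_iff]; linarith only [hr', hr'0, hx]
      exact h.memV x hx' t0 ⟨le_rfl, h.t0f x hx'⟩
    have hne : ((fun x : P3 => ((t0, x) : P4)) '' Metric.closedBall (0 : P3) r').Nonempty :=
      ⟨_, ⟨0, by simpa only [Metric.mem_closedBall, dist_self] using hr'0.le, rfl⟩⟩
    obtain ⟨z, hz, hzmax⟩ := hcpt.exists_isMaxOn hne
      (f := fun z => (Psi z).2.1)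
      ((h.iso.smooth.continuousOn.mono hsubV).snd.fst)
    refine ⟨(Psi z).2.1, (h.U_sub _ (h.maps (hsubV hz))).2.2.1, fun x hx => ?_⟩
    exact hzmax ⟨x, by simpa only [Metric.mem_closedBall, dist_zero_right] using hx, rfl⟩
  -- the open set
  obtain ⟨ε, hε0, hε⟩ : ∃ ε : ENNReal, 0 < ε ∧ ENNReal.ofReal (n * C) * ε < volume A := by
    have hc0 : ENNReal.ofReal (n * C) ≠ 0 := by
      have : 0 < n * C := by positivity
      exact (ENNReal.ofReal_pos.2 this).ne'
    refine ⟨volume A / 2 / ENNReal.ofReal (n * C), ?_, ?_⟩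
    · exact ENNReal.div_pos (ENNReal.half_pos hA0).ne' ENNReal.ofReal_ne_top
    · rw [ENNReal.mul_div_cancel hc0 ENNReal.ofReal_ne_top]
      exact ENNReal.half_lt_self hA0 hAt
  obtain ⟨O, hZO, hOo, hOε⟩ := Z.exists_isOpen_lt_of_lt ε (by rw [hZ]; exact hε0)
  -- weights
  set T : ℕ → Set ℝ := fun m => Icc (vlo / (m + 2)) (vlo / (2 * (m + 2))) with hT
  set q : ℕ → ℝ → ENNReal := fun m =>
    (T m).indicator (fun _ => (ENNReal.ofReal (-vlo / (2 * (m + 2))))⁻¹) with hq
  have hqm : ∀ m, Measurable (q m) := fun m => measurable_const.indicator measurableSet_Icc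
  have hq1 : ∀ m, ∫⁻ v, q m v = 1 := by
    intro m
    rw [hq]
    simp only
    rw [lintegral_indicator measurableSet_Icc, lintegral_const,
      Measure.restrict_apply MeasurableSet.univ, univ_inter, Real.volume_Icc]
    have : vlo / (2 * ((m:ℝ) + 2)) - vlo / (m + 2) = -vlo / (2 * (m + 2)) := by
      field_simp; ring
    rw [this]
    apply ENNReal.inv_mul_cancel
    · have : 0 < -vlo / (2 * ((m:ℝ) + 2)) := by
        apply div_pos <;> [linarith only [hvlo0]; positivity]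
      simpa only [ne_eq, ENNReal.ofReal_eq_zero, not_le, gt_iff_lt] using this
    · exact ENNReal.ofReal_ne_top
  set I : ℕ → P4 → ENNReal := fun m z => A.indicator (fun _ => (1:ENNReal)) z.2 *
      ((ENNReal.ofReal (fderiv ℝ Psi z e1).2.1 * q m (Psi z).2.1) *
        O.indicator (fun _ => (1:ENNReal)) (pr (Psi z))) with hI
  have hIm : ∀ m, AEMeasurable (I m) (volume.restrict (DD t0 r f)) := by
    intro m
    refine AEMeasurable.mul ((measurable_const.indicator hAm).comp measurable_snd).aemeasurable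
      (AEMeasurable.mul (h.aem_b.ennreal_ofReal.mul ((hqm m).comp_aemeasurable
      h.aem_Psi.snd.fst)) ?_)
    exact ((measurable_const.indicator hOo.measurableSet).comp
      pr_continuous.measurable).comp_aemeasurable h.aem_Psi
  -- upper bound
  have up : ∀ m, ∫⁻ z in DD t0 r f, I m z ≤ ENNReal.ofReal (n * C) * ε := by
    intro m
    have mO : Measurable (O.indicator (fun _ => (1:ENNReal))) :=
      measurable_const.indicator hOo.measurableSet
    calc ∫⁻ z in DD t0 r f, I m z ≤ ∫⁻ z in DD t0 r f, ENNReal.ofReal n *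
          (q m (Psi z).2.1 * O.indicator (fun _ => (1:ENNReal)) (pr (Psi z))) := by
          apply setLIntegral_mono' h.measDD
          rintro ⟨t, x⟩ hz
          rw [hI]
          simp only
          by_cases hxA : x ∈ A
          · rw [indicator_of_mem hxA, one_mul, mul_assoc]
            have := (hAB x hxA t ⟨hz.2.1, hz.2.2⟩).1
            gcongr
          · rw [indicator_of_notMem hxA, zero_mul]
            exact bot_le
      _ = ENNReal.ofReal n * ∫⁻ z in DD t0 r f,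
          (q m (Psi z).2.1 * O.indicator (fun _ => (1:ENNReal)) (pr (Psi z))) := by
          rw [lintegral_const_mul' _ _ ENNReal.ofReal_ne_top]
      _ ≤ ENNReal.ofReal n * (ENNReal.ofReal C * ∫⁻ y in U,
          (q m y.2.1 * O.indicator (fun _ => (1:ENNReal)) (pr y))) := by
          gcongr
          exact h.push_le (fun y => q m y.2.1 * O.indicator (fun _ => (1:ENNReal)) (pr y))
      _ ≤ ENNReal.ofReal n * (ENNReal.ofReal C * ∫⁻ y,
          (q m y.2.1 * O.indicator (fun _ => (1:ENNReal)) (pr y))) := by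
          refine mul_le_mul_right (mul_le_mul_right (setLIntegral_le_lintegral _ _) _) _
      _ = ENNReal.ofReal n * (ENNReal.ofReal C * volume O) := by
          rw [lintegral_pr (hqm m) mO, hq1 m, one_mul, lintegral_indicator hOo.measurableSet,
            lintegral_const, Measure.restrict_apply MeasurableSet.univ, univ_inter, one_mul]
      _ ≤ _ := by
          rw [← mul_assoc, ← ENNReal.ofReal_mul hnn.le]
          gcongr
  -- the line integrals
  set g : ℕ → P3 → ENNReal := fun m x => ∫⁻ t, (DD t0 r f).indicator (I m) (t, x) with hg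
  have hgm : ∀ m, AEMeasurable (g m) (volume : Measure P3) := by
    intro m
    have h1 : AEMeasurable ((DD t0 r f).indicator (I m)) ((volume : Measure ℝ).prod
      (volume : Measure P3)) := (aemeasurable_indicator_iff h.measDD).mpr (hIm m)
    have h2 : AEMeasurable (fun p : P3 × ℝ => (DD t0 r f).indicator (I m) p.swap)
        ((volume : Measure P3).prod (volume : Measure ℝ)) := h1.prod_swap
    exact h2.lintegral_prod_right'
  have hgI : ∀ m, ∫⁻ x, g m x = ∫⁻ z in DD t0 r f, I m z := by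
    intro m
    rw [← lintegral_indicator h.measDD]
    have h1 : AEMeasurable ((DD t0 r f).indicator (I m)) ((volume : Measure ℝ).prod
      (volume : Measure P3)) := (aemeasurable_indicator_iff h.measDD).mpr (hIm m)
    exact (lintegral_prod_symm _ h1).symm
  have hlow : ∀ x ∈ A, ∀ᶠ m in atTop, g m x = 1 := by
    intro x hx
    obtain ⟨qx, hqx, hqv, hqZ⟩ := hE x hx
    have hxb := hAb hx
    have hev : ∀ᶠ t in 𝓝[<] (f x), pr (Psi (t, x)) ∈ O :=
      ((pr_continuous.tendsto qx).comp hqx).eventually (hOo.mem_nhds (hZO hqZ))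
    obtain ⟨t1, ht1, ht1'⟩ := mem_nhdsLT_iff_exists_Ico_subset.1
      (hev.and (Ioo_mem_nhdsLT (h.t0f x hxb)))
    have ht1f : t1 < f x := ht1
    have ht1m := (ht1' ⟨le_rfl, ht1f⟩).2
    have hv1 : (Psi (t1, x)).2.1 < 0 :=
      (h.U_sub _ (h.maps (h.memV x hxb t1 ⟨ht1m.1.le, ht1m.2⟩))).2.2.1
    have hmono : StrictMonoOn (fun t => (Psi (t, x)).2.1) (Ico t0 (f x)) := by
      have hd : ∀ τ ∈ Ico t0 (f x), HasDerivAt (fun t => (Psi (t, x)).2.1)
          (fderiv ℝ Psi (τ, x) e1).2.1 τ := fun τ hτ =>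
        (h.hasDerivAt_line (h.memV x hxb τ hτ)).snd.fst
      apply strictMonoOn_of_deriv_pos (convex_Ico _ _)
        (fun τ hτ => (hd τ hτ).continuousAt.continuousWithinAt)
      intro τ hτ
      rw [(hd τ (interior_subset hτ)).deriv]
      exact h.pos _ (h.memV x hxb τ (interior_subset hτ))
    -- eventually the support of q m is above v (t1)
    have hlim : Tendsto (fun m : ℕ => vlo / ((m:ℝ) + 2)) atTop (𝓝 0) := by
      apply Tendsto.div_atTop tendsto_const_nhds
      exact tendsto_atTop_add_const_right _ _ tendsto_natCast_atTop_atTop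
    filter_upwards [hlim.eventually (lt_mem_nhds hv1)] with m hm
    have hT2 : vlo / (2 * ((m:ℝ) + 2)) < 0 := div_neg_of_neg_of_pos hvlo0 (by positivity)
    have hTlo : vlo < vlo / ((m:ℝ) + 2) := by
      rw [lt_div_iff₀ (by positivity)]
      have : (0:ℝ) ≤ m := by positivity
      nlinarith only [hvlo0]
    have e1' := h.line_eq hxb (q := q m) hT2 ((hvlo x (hAr x hx)).trans_lt hTlo)
      (fun v hv => by rw [hq]; exact indicator_of_notMem hv _)
    rw [hq1 m] at e1'
    rw [← e1', hg]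
    simp only
    rw [← lintegral_indicator measurableSet_Ioo]
    apply lintegral_congr
    intro t
    by_cases ht : t ∈ Ioo t0 (f x)
    · rw [indicator_of_mem ht, indicator_of_mem (show ((t, x) : P4) ∈ DD t0 r f from
        ⟨hxb, ht.1, ht.2⟩), hI]
      simp only
      rw [indicator_of_mem hx, one_mul]
      by_cases hv : (Psi (t, x)).2.1 ∈ T m
      · have ht1t : t1 < t := by
          by_contra hcon2
          push Not at hcon2
          have h5 := hmono.monotoneOn ⟨ht.1.le, ht.2⟩ ⟨ht1m.1.le, ht1m.2⟩ hcon2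
          have h6 := hv.1
          have h8 : (Psi (t, x)).2.1 ≤ (Psi (t1, x)).2.1 := h5
          linarith only [hm, h5, h6]
        have h7 := (ht1' ⟨ht1t.le, ht.2⟩).1
        rw [indicator_of_mem h7, mul_one]
      · have : q m (Psi (t, x)).2.1 = 0 := by rw [hq]; exact indicator_of_notMem hv _
        rw [this]; simp
    · rw [indicator_of_notMem ht, indicator_of_notMem]
      rintro ⟨_, h1, h2⟩
      exact ht ⟨h1, h2⟩
  -- Fatou
  have hfat : ∫⁻ x in A, (1:ENNReal) ≤ ENNReal.ofReal (n * C) * ε := by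
    calc ∫⁻ x in A, (1:ENNReal) = ∫⁻ x in A, liminf (fun m => g m x) atTop := by
          apply setLIntegral_congr_fun hAm
          intro x hx
          exact ((tendsto_const_nhds (x := (1:ENNReal))).congr'
            ((hlow x hx).mono fun m hm => hm.symm)).liminf_eq.symm
      _ ≤ liminf (fun m => ∫⁻ x in A, g m x) atTop :=
          lintegral_liminf_le' (fun m => (hgm m).restrict)
      _ ≤ _ := by
          apply liminf_le_of_le (by isBoundedDefault)
          intro b hb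
          obtain ⟨m, hm⟩ := hb.exists
          refine hm.trans ((setLIntegral_le_lintegral _ _).trans ?_)
          rw [hgI m]
          exact up m
  rw [lintegral_const, Measure.restrict_apply MeasurableSet.univ, univ_inter, one_mul] at hfat
  exact absurd hfat (not_le.2 hε)

end CoreHyp

end Vale.Agent.P354w
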