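import Vale.Agent.P354w.MainIneq
import Vale.Agent.P354w.CS

set_option maxSynthPendingDepth 3

open Set MeasureTheory Filter

namespace Vale.Agent.P354w

namespace CoreHyp

open PreHyp

variable {K : Coef} {G : P4 → P4 →L[ℝ] P4 →L[ℝ] ℝ} {Psi : P4 → P4} {V U : Set P4}
    {C R : ℝ} {cv cw cu : ℝ → ℝ} {t0 r : ℝ} {f : P3 → ℝ}

lemma E2_bound (h : CoreHyp K G Psi V U C R cv cw cu t0 r f) :
    ∃ A : ENNReal, A ≠ ⊤ ∧ ∀ k : ℝ → ℝ, Measurable k →
      ∫⁻ z in DD t0 r f, ENNReal.ofReal (k (Psi z).2.1)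
        * (1 + ENNReal.ofReal (cu (Psi z).2.2.1) + ‖fderiv ℝ G z‖ₑ)
      ≤ A * (∫⁻ v, ENNReal.ofReal (k v) ^ 2) ^ (1/2:ℝ) := by
  have hI : volume (Icc (-R) R) ≠ ⊤ := by simp only [Real.volume_Icc, sub_neg_eq_add, ne_eq, ENNReal.ofReal_ne_top, not_false_eq_true]
  have hI2 : volume (Ico (-R) (0:ℝ)) ≠ ⊤ := by simp only [Real.volume_Ico, sub_neg_eq_add, zero_add, ne_eq, ENNReal.ofReal_ne_top, not_false_eq_true]
  set s : ℝ → ENNReal := fun u => 1 + ENNReal.ofReal (cu u) with hs
  have hsm : Measurable s := measurable_const.add h.cu_meas.ennreal_ofReal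
  have hsI : ∫⁻ u in Icc (-R) R, s u ≠ ⊤ := by
    rw [hs, lintegral_add_left measurable_const, lintegral_const,
      Measure.restrict_apply MeasurableSet.univ, univ_inter, one_mul]
    exact ENNReal.add_ne_top.mpr ⟨hI, h.cu_int⟩
  refine ⟨ENNReal.ofReal C * (volume (Icc (-R) R) * ((volume (Ico (-R) (0:ℝ))) ^ (1/2:ℝ) *
    ((∫⁻ u in Icc (-R) R, s u) * volume (Icc (-R) R))))
    + (ENNReal.ofReal C * (volume (Icc (-R) R) * (volume (Icc (-R) R) * volume (Icc (-R) R))))
      ^ (1/2:ℝ) * (∫⁻ z in DD t0 r f, ‖fderiv ℝ G z‖ₑ ^ 2) ^ (1/2:ℝ), ?_, ?_⟩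
  · apply ENNReal.add_ne_top.mpr
    constructor
    · apply ENNReal.mul_ne_top ENNReal.ofReal_ne_top
      apply ENNReal.mul_ne_top hI
      apply ENNReal.mul_ne_top (ENNReal.rpow_ne_top_of_nonneg (by norm_num) hI2)
      exact ENNReal.mul_ne_top hsI hI
    · apply ENNReal.mul_ne_top
      · apply ENNReal.rpow_ne_top_of_nonneg (by norm_num)
        exact ENNReal.mul_ne_top ENNReal.ofReal_ne_top (ENNReal.mul_ne_top hI
          (ENNReal.mul_ne_top hI hI))
      · exact ENNReal.rpow_ne_top_of_nonneg (by norm_num) h.L2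
  · intro k hk
    set J := ∫⁻ v, ENNReal.ofReal (k v) ^ 2 with hJ
    have hkm : Measurable (fun v => ENNReal.ofReal (k v)) := hk.ennreal_ofReal
    have hkz : AEMeasurable (fun z => ENNReal.ofReal (k (Psi z).2.1))
        (volume.restrict (DD t0 r f)) := hkm.comp_aemeasurable h.aem_Psi.snd.fst
    have hGm : AEMeasurable (fun z => ‖fderiv ℝ G z‖ₑ) (volume.restrict (DD t0 r f)) :=
      ((measurable_fderiv ℝ G).enorm).aemeasurable
    have split : ∫⁻ z in DD t0 r f, ENNReal.ofReal (k (Psi z).2.1)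
        * (1 + ENNReal.ofReal (cu (Psi z).2.2.1) + ‖fderiv ℝ G z‖ₑ)
        = (∫⁻ z in DD t0 r f, ENNReal.ofReal (k (Psi z).2.1) * s (Psi z).2.2.1)
          + ∫⁻ z in DD t0 r f, ENNReal.ofReal (k (Psi z).2.1) * ‖fderiv ℝ G z‖ₑ := by
      rw [← lintegral_add_right' _ (show AEMeasurable
        (fun z => ENNReal.ofReal (k (Psi z).2.1) * ‖fderiv ℝ G z‖ₑ)
        (volume.restrict (DD t0 r f)) from hkz.mul hGm)]
      apply lintegral_congr
      intro z
      rw [hs]
      simp only
      rw [mul_add]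
    rw [split, add_mul]
    apply add_le_add
    · refine (h.push_prod hkm hsm).trans ?_
      have c1 : ∫⁻ v in Ico (-R) 0, ENNReal.ofReal (k v)
          ≤ (volume (Ico (-R) (0:ℝ))) ^ (1/2:ℝ) * J ^ (1/2:ℝ) := by
        have := cs (μ := volume.restrict (Ico (-R) (0:ℝ))) (f := fun _ => (1:ENNReal))
          (g := fun v => ENNReal.ofReal (k v)) aemeasurable_const hkm.aemeasurable
        simp only [one_mul, one_pow, lintegral_const, Measure.restrict_apply MeasurableSet.univ,
          univ_inter] at this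
        refine this.trans ?_
        gcongr
        exact setLIntegral_le_lintegral _ _
      calc ENNReal.ofReal C * (volume (Icc (-R) R) * ((∫⁻ v in Ico (-R) 0, ENNReal.ofReal (k v))
            * ((∫⁻ u in Icc (-R) R, s u) * volume (Icc (-R) R))))
          ≤ ENNReal.ofReal C * (volume (Icc (-R) R) * (((volume (Ico (-R) (0:ℝ))) ^ (1/2:ℝ)
            * J ^ (1/2:ℝ)) * ((∫⁻ u in Icc (-R) R, s u) * volume (Icc (-R) R)))) := by gcongr
        _ = _ := by ring
    · refine (cs hkz hGm).trans ?_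
      have c2 : ∫⁻ z in DD t0 r f, ENNReal.ofReal (k (Psi z).2.1) ^ 2 ≤
          (ENNReal.ofReal C * (volume (Icc (-R) R) * (volume (Icc (-R) R) *
            volume (Icc (-R) R)))) * J := by
        have := h.push_prod (p := fun v => ENNReal.ofReal (k v) ^ 2) (s := fun _ => 1)
          (hkm.pow_const 2) measurable_const
        simp only [mul_one, lintegral_const, Measure.restrict_apply MeasurableSet.univ,
          univ_inter, one_mul] at this
        refine this.trans ?_
        have hJ' : ∫⁻ v in Ico (-R) 0, ENNReal.ofReal (k v) ^ 2 ≤ J :=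
          setLIntegral_le_lintegral _ _
        calc _ ≤ ENNReal.ofReal C * (volume (Icc (-R) R) * (J * (volume (Icc (-R) R) *
              volume (Icc (-R) R)))) := by gcongr
          _ = _ := by ring
      calc (∫⁻ z in DD t0 r f, ENNReal.ofReal (k (Psi z).2.1) ^ 2) ^ (1/2:ℝ) *
            (∫⁻ z in DD t0 r f, ‖fderiv ℝ G z‖ₑ ^ 2) ^ (1/2:ℝ)
          ≤ ((ENNReal.ofReal C * (volume (Icc (-R) R) * (volume (Icc (-R) R) *
            volume (Icc (-R) R)))) * J) ^ (1/2:ℝ) *
            (∫⁻ z in DD t0 r f, ‖fderiv ℝ G z‖ₑ ^ 2) ^ (1/2:ℝ) := by gcongr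
        _ = _ := by
          rw [ENNReal.mul_rpow_of_nonneg _ _ (by norm_num : (0:ℝ) ≤ 1/2)]
          ring

/-- **Core theorem.** -/
theorem core (h : CoreHyp K G Psi V U C R cv cw cu t0 r f) {S : Set ℝ} (hS : MeasurableSet S)
    {δ : ℝ} (hδ : 0 < δ) {σ : ℝ} (hσ : |σ| = 1)
    (hlow : ∀ y ∈ U, y.2.1 ∈ S → δ * cv y.2.1 ≤ σ * fderiv ℝ K.g11 y (e4 K y)) :
    ∃ v1 < 0, ∫⁻ v in S ∩ Ico v1 0, ENNReal.ofReal (cv v) ^ 2 ≠ ⊤ := by
  have hr := h.r_pos
  have hmem0 : ∀ x : P3, ‖x‖ ≤ r / 2 → ((t0, x) : P4) ∈ V := by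
    intro x hx
    have hxb : x ∈ Metric.ball (0 : P3) r := by
      rw [mem_ball_zero_iff]; linarith only [hr, hx]
    exact h.memV x hxb t0 ⟨le_refl _, h.t0f x hxb⟩
  have hC : 1 ≤ C := (h.pt (hmem0 0 (by simp only [norm_zero]; linarith only [hr]))).bd.one_le
  have hC0 : 0 < C := by linarith
  -- vlo
  obtain ⟨vlo, hvlo0, hvlo⟩ : ∃ vlo < 0, ∀ x : P3, ‖x‖ ≤ r / 2 → (Psi (t0, x)).2.1 ≤ vlo := by
    have hcomp : IsCompact (Metric.closedBall (0 : P3) (r/2)) := isCompact_closedBall _ _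
    have hne : (Metric.closedBall (0 : P3) (r/2)).Nonempty := ⟨0, by simp only [Metric.mem_closedBall, dist_self]; linarith only [hr]⟩
    have hcont : ContinuousOn (fun x : P3 => (Psi (t0, x)).2.1) (Metric.closedBall (0 : P3) (r/2)) := by
      intro x hx
      rw [mem_closedBall_zero_iff] at hx
      have h1 : ContinuousAt Psi (t0, x) := (h.iso.contDiffAt (hmem0 x hx)).continuousAt
      have h2 : ContinuousAt (fun x : P3 => ((t0, x) : P4)) x := by fun_prop
      have h3 : ContinuousAt (fun x : P3 => Psi (t0, x)) x :=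
        ContinuousAt.comp (g := Psi) (f := fun x : P3 => ((t0, x) : P4)) h1 h2
      exact (h3.snd.fst).continuousWithinAt
    obtain ⟨x0, hx0, hmax⟩ := hcomp.exists_isMaxOn hne hcont
    refine ⟨(Psi (t0, x0)).2.1, ?_, ?_⟩
    · rw [mem_closedBall_zero_iff] at hx0
      exact (h.U_sub _ (h.maps (hmem0 x0 hx0))).2.2.1
    · intro x hx
      exact hmax (by rwa [mem_closedBall_zero_iff])
  -- bump
  set φ : ContDiffBump (0 : P3) := ⟨r/4, r/2, by linarith only [hr], by linarith⟩ with hφ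
  have hhs : ContDiff ℝ 1 (φ : P3 → ℝ) := φ.contDiff
  obtain ⟨hb, hhb⟩ : ∃ hb : ℝ, ∀ x, ‖fderiv ℝ (φ : P3 → ℝ) x‖ ≤ hb :=
    (φ.hasCompactSupport.fderiv (𝕜 := ℝ)).exists_bound_of_continuous
      (hhs.continuous_fderiv (by norm_num))
  have hh_in : ∀ x : P3, ‖x‖ ≤ r / 4 → φ x = 1 := by
    intro x hx
    exact φ.one_of_mem_closedBall (by rwa [mem_closedBall_zero_iff])
  have hh_out : ∀ x : P3, r / 2 < ‖x‖ → φ x = 0 := by
    intro x hx
    apply φ.zero_of_le_dist
    rw [dist_zero_right]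
    exact hx.le
  obtain ⟨B, hB, hBeta⟩ := exists_eta_bound
  have hB0 : 0 < B := by linarith only [hB]
  -- choice of κ
  set mI := volume (Metric.closedBall (0 : P3) (r/4)) with hmI
  have hmI0 : 0 < mI := by
    have : Metric.ball (0:P3) (r/4) ⊆ Metric.closedBall (0 : P3) (r/4) := Metric.ball_subset_closedBall
    have h2 : 0 < volume (Metric.ball (0:P3) (r/4)) :=
      Metric.isOpen_ball.measure_pos _ ⟨0, by simp only [Metric.mem_ball, dist_self, Nat.ofNat_pos, div_pos_iff_of_pos_right]; linarith only [hr]⟩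
    exact lt_of_lt_of_le h2 (measure_mono this)
  have hmIt : mI ≠ ⊤ := (isCompact_closedBall (0:P3) (r/4)).measure_lt_top.ne
  set mr := mI.toReal with hmr
  have hmr0 : 0 < mr := ENNReal.toReal_pos hmI0.ne' hmIt
  set c0 := δ / (2 * C) with hc0
  have hc00 : 0 < c0 := by positivity
  set c1 := 8 * C ^ 5 * B with hc1
  have hc10 : 0 < c1 := by positivity
  set ε := min (mr / 2) (c0 * mr / (8 * c1)) with hε
  have hε0 : 0 < ε := lt_min (by positivity) (by positivity)
  obtain ⟨n, hn1, hn⟩ : ∃ n : ℕ, 1 ≤ n ∧ volume (NN Psi t0 r f n) ≤ ENNReal.ofReal ε := by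
    have h1 := ENNReal.tendsto_nhds_zero.mp h.tendsto_NN (ENNReal.ofReal ε)
      (ENNReal.ofReal_pos.mpr hε0)
    obtain ⟨n, hn⟩ := (h1.and (eventually_ge_atTop 1)).exists
    exact ⟨n, hn.2, hn.1⟩
  have hκ : (1:ℝ) ≤ (n:ℝ) := by exact_mod_cast hn1
  set a := (volume (Metric.closedBall (0:P3) (r/4) \ NN Psi t0 r f n)).toReal with ha
  set b := (volume (Metric.closedBall (0:P3) (r/2) ∩ NN Psi t0 r f n)).toReal with hbdef
  have hat : volume (Metric.closedBall (0:P3) (r/4) \ NN Psi t0 r f n) ≠ ⊤ :=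
    ne_top_of_le_ne_top hmIt (measure_mono sdiff_subset)
  have hbt' : volume (Metric.closedBall (0:P3) (r/2) ∩ NN Psi t0 r f n) ≤ ENNReal.ofReal ε :=
    (measure_mono inter_subset_right).trans hn
  have hbt : volume (Metric.closedBall (0:P3) (r/2) ∩ NN Psi t0 r f n) ≠ ⊤ :=
    ne_top_of_le_ne_top ENNReal.ofReal_ne_top hbt'
  have hb_le : b ≤ ε := by
    rw [hbdef]
    exact ENNReal.toReal_le_of_le_ofReal hε0.le hbt'
  have ha_ge : mr / 2 ≤ a := by
    have h1 : mI ≤ volume (Metric.closedBall (0:P3) (r/4) \ NN Psi t0 r f n)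
        + volume (NN Psi t0 r f n) := by
      refine (measure_mono ?_).trans (measure_union_le _ _)
      intro x hx
      by_cases hx2 : x ∈ NN Psi t0 r f n
      · exact Or.inr hx2
      · exact Or.inl ⟨hx, hx2⟩
    have h2 : mI ≤ volume (Metric.closedBall (0:P3) (r/4) \ NN Psi t0 r f n)
        + ENNReal.ofReal ε := h1.trans (by gcongr)
    have h3 := ENNReal.toReal_mono (ENNReal.add_ne_top.mpr ⟨hat, ENNReal.ofReal_ne_top⟩) h2
    rw [ENNReal.toReal_add hat ENNReal.ofReal_ne_top, ENNReal.toReal_ofReal hε0.le] at h3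
    have h4 : ε ≤ mr / 2 := min_le_left _ _
    linarith only [h3, h4]
  obtain ⟨A, hAt, hA⟩ := h.E2_bound
  set A' := C * Ck C B hb n * A.toReal with hA'
  have hhb0 : 0 ≤ hb := (norm_nonneg _).trans (hhb 0)
  have hCk : 0 ≤ Ck C B hb n := by unfold Ck; positivity
  have hA'0 : 0 ≤ A' := by positivity
  set c := 3/8 * (c0 * mr) with hc
  have hcp : 0 < c := by positivity
  refine ⟨vlo / 2, by linarith only [hvlo0], ?_⟩
  set T : ℕ → Set ℝ := fun N => S ∩ Icc (vlo/2) (-(1/((N:ℝ)+1))) ∩ {v | cv v ≤ N} with hT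
  have hTm : ∀ N, MeasurableSet (T N) := fun N =>
    (hS.inter measurableSet_Icc).inter (measurableSet_le h.cv_meas measurable_const)
  have key : ∀ N : ℕ, ∫⁻ v in T N, ENNReal.ofReal (cv v) ^ 2 ≤ ENNReal.ofReal ((A' / c) ^ 2) := by
    intro N
    set k : ℝ → ℝ := (T N).indicator (fun v => max (cv v) 0) with hk
    have hkmeas : Measurable k := (h.cv_meas.max measurable_const).indicator (hTm N)
    have hk0 : ∀ v, 0 ≤ k v := by
      intro v
      rw [hk]
      apply indicator_nonneg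
      intro x _
      exact le_max_right _ _
    have hkN : ∀ v, k v ≤ N := by
      intro v
      rw [hk]
      by_cases hv : v ∈ T N
      · rw [indicator_of_mem hv]
        exact max_le hv.2 (by positivity)
      · rw [indicator_of_notMem hv]
        positivity
    have hks : ∀ v, v ∉ S ∩ Icc (vlo/2) (-(1/((N:ℝ)+1))) → k v = 0 := by
      intro v hv
      rw [hk, indicator_of_notMem]
      exact fun h2 => hv h2.1
    have hv2 : -(1/((N:ℝ)+1)) < 0 := by
      have : 0 < 1/((N:ℝ)+1) := by positivity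
      linarith only [this]
    have hMI := h.main_ineq hδ hσ hlow hhs (fun x => φ.nonneg) (fun x => φ.le_one) hhb hh_in hh_out
      hB hBeta hκ hv2 (show vlo < vlo / 2 by linarith only [hvlo0]) hvlo hkmeas hk0 hkN hks
    have hE2 := hA k hkmeas
    have e1 : ∀ v, ENNReal.ofReal (k v * cv v)
        = (T N).indicator (fun v => ENNReal.ofReal (cv v) ^ 2) v := by
      intro v
      rw [hk]
      by_cases hv : v ∈ T N
      · rw [indicator_of_mem hv, indicator_of_mem hv]
        rcases le_total 0 (cv v) with h0 | h0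
        · rw [max_eq_left h0, ENNReal.ofReal_mul h0, sq]
        · rw [max_eq_right h0, zero_mul, ENNReal.ofReal_zero, ENNReal.ofReal_of_nonpos h0]
          simp
      · rw [indicator_of_notMem hv, indicator_of_notMem hv]
        simp
    have e2 : ∀ v, ENNReal.ofReal (k v) ^ 2
        = (T N).indicator (fun v => ENNReal.ofReal (cv v) ^ 2) v := by
      intro v
      rw [hk]
      by_cases hv : v ∈ T N
      · rw [indicator_of_mem hv, indicator_of_mem hv]
        rcases le_total 0 (cv v) with h0 | h0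
        · rw [max_eq_left h0]
        · rw [max_eq_right h0, ENNReal.ofReal_of_nonpos h0, ENNReal.ofReal_zero]
      · rw [indicator_of_notMem hv, indicator_of_notMem hv]
        simp
    set J := ∫⁻ v in T N, ENNReal.ofReal (cv v) ^ 2 with hJ
    have i1 : ∫⁻ v, ENNReal.ofReal (k v * cv v) = J := by
      rw [hJ, ← lintegral_indicator (hTm N)]
      exact lintegral_congr e1
    have i2 : ∫⁻ v, ENNReal.ofReal (k v) ^ 2 = J := by
      rw [hJ, ← lintegral_indicator (hTm N)]
      exact lintegral_congr e2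
    rw [i1] at hMI
    rw [i2] at hE2
    have hJt : J ≠ ⊤ := by
      have h1 : J ≤ ∫⁻ v in T N, ENNReal.ofReal (N:ℝ) ^ 2 := by
        apply setLIntegral_mono' (hTm N)
        intro v hv
        have := ENNReal.ofReal_le_ofReal hv.2
        gcongr
      rw [lintegral_const, Measure.restrict_apply MeasurableSet.univ, univ_inter] at h1
      have h2 : volume (T N) ≠ ⊤ := by
        apply ne_top_of_le_ne_top (b := volume (Icc (vlo/2) (-(1/((N:ℝ)+1)))))
        · simp only [one_div, Real.volume_Icc, ne_eq, ENNReal.ofReal_ne_top, not_false_eq_true]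
        · exact measure_mono fun v hv => hv.1.2
      exact ne_top_of_le_ne_top (ENNReal.mul_ne_top (by simp only [ENNReal.ofReal_natCast, ne_eq, ENNReal.pow_eq_top_iff, ENNReal.natCast_ne_top, OfNat.ofNat_ne_zero, not_false_eq_true, and_true]) h2) h1
    -- pass to reals
    set j := J.toReal with hj
    have hj0 : 0 ≤ j := ENNReal.toReal_nonneg
    have hJj : J = ENNReal.ofReal j := (ENNReal.ofReal_toReal hJt).symm
    have hsq : (J ^ (1/2:ℝ)) = ENNReal.ofReal (Real.sqrt j) := by
      rw [hJj, ENNReal.ofReal_rpow_of_nonneg hj0 (by norm_num), Real.sqrt_eq_rpow]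
    have hfin : ENNReal.ofReal (c0 * (a * j)) ≤ ENNReal.ofReal (c1 * (b * j) + A' * Real.sqrt j) := by
      have l1 : ENNReal.ofReal (c0 * (a * j)) = ENNReal.ofReal c0 *
          (volume (Metric.closedBall (0:P3) (r/4) \ NN Psi t0 r f n) * J) := by
        rw [ENNReal.ofReal_mul hc00.le, ENNReal.ofReal_mul ENNReal.toReal_nonneg,
          ENNReal.ofReal_toReal hat, ENNReal.ofReal_toReal hJt]
      have l2 : ENNReal.ofReal (c1 * (b * j)) = ENNReal.ofReal c1 *
          (volume (Metric.closedBall (0:P3) (r/2) ∩ NN Psi t0 r f n) * J) := by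
        rw [ENNReal.ofReal_mul hc10.le, ENNReal.ofReal_mul ENNReal.toReal_nonneg,
          ENNReal.ofReal_toReal hbt, ENNReal.ofReal_toReal hJt]
      have hb0 : 0 ≤ b := ENNReal.toReal_nonneg
      have l3 : ENNReal.ofReal (A' * Real.sqrt j) = ENNReal.ofReal (C * Ck C B hb n)
          * (A * J ^ (1/2:ℝ)) := by
        rw [hA', ENNReal.ofReal_mul (by positivity), ENNReal.ofReal_mul (by positivity),
          ENNReal.ofReal_toReal hAt, hsq, mul_assoc]
      rw [ENNReal.ofReal_add (by positivity) (by positivity), l1, l2, l3]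
      refine hMI.trans ?_
      gcongr
    have hb0 : 0 ≤ b := ENNReal.toReal_nonneg
    rw [ENNReal.ofReal_le_ofReal_iff (by positivity)] at hfin
    have hfin2 : c * j ≤ A' * Real.sqrt j := by
      have s1 : c0 * (mr / 2 * j) ≤ c0 * (a * j) := by gcongr
      have s2 : c1 * (b * j) ≤ c1 * ((c0 * mr / (8 * c1)) * j) := by
        have : b ≤ c0 * mr / (8 * c1) := hb_le.trans (min_le_right _ _)
        gcongr
      have s3 : c1 * ((c0 * mr / (8 * c1)) * j) = c0 * mr / 8 * j := by
        field_simp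
      rw [s3] at s2
      rw [hc]
      have s4 : c0 * (mr / 2 * j) = c0 * mr * j / 2 := by ring
      have s5 : c0 * mr / 8 * j = c0 * mr * j / 8 := by ring
      have s6 : 3 / 8 * (c0 * mr) * j = c0 * mr * j / 2 - c0 * mr * j / 8 := by ring
      linarith only [hfin, s1, s2]
    have hfin3 : j ≤ (A' / c) ^ 2 := by
      have hs := Real.sq_sqrt hj0
      have hs0 := Real.sqrt_nonneg j
      rcases eq_or_lt_of_le hs0 with h0 | h0
      · have hz : j = 0 := by rw [← hs, ← h0]; ring
        rw [hz]; positivity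
      · have h1 : c * Real.sqrt j ≤ A' := by
          have : (c * Real.sqrt j) * Real.sqrt j ≤ A' * Real.sqrt j := by
            calc (c * Real.sqrt j) * Real.sqrt j = c * (Real.sqrt j ^ 2) := by ring
              _ = c * j := by rw [hs]
              _ ≤ _ := hfin2
          exact le_of_mul_le_mul_right this h0
        have h2 : Real.sqrt j ≤ A' / c := by
          rw [le_div_iff₀ hcp]; linarith only [h1]
        calc j = Real.sqrt j ^ 2 := hs.symm
          _ ≤ (A' / c) ^ 2 := by gcongr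
    rw [hJj]
    exact ENNReal.ofReal_le_ofReal hfin3
  -- monotone limit
  have hmono : Monotone T := by
    intro N M hNM v hv
    have hNM' : (N:ℝ) ≤ M := by exact_mod_cast hNM
    refine ⟨⟨hv.1.1, hv.1.2.1, hv.1.2.2.trans ?_⟩, le_trans hv.2 hNM'⟩
    apply neg_le_neg
    apply one_div_le_one_div_of_le (by positivity)
    linarith only [hNM']
  have hunion : S ∩ Ico (vlo/2) 0 ⊆ ⋃ N, T N := by
    rintro v ⟨hvS, hv1, hv2⟩
    rw [mem_iUnion]
    obtain ⟨N1, hN1⟩ := exists_nat_gt (1 / (-v))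
    obtain ⟨N2, hN2⟩ := exists_nat_gt (cv v)
    refine ⟨max N1 N2, ⟨hvS, hv1, ?_⟩, ?_⟩
    · have hvp : 0 < -v := by linarith only [hv2]
      have h1 : 1 / (-v) < ((max N1 N2 : ℕ):ℝ) + 1 := by
        have : (N1:ℝ) ≤ ((max N1 N2 : ℕ):ℝ) := by exact_mod_cast le_max_left _ _
        linarith only [hN1, this]
      have h2 : 1 / (((max N1 N2 : ℕ):ℝ) + 1) ≤ -v := by
        rw [div_le_iff₀ (by positivity)]
        rw [div_lt_iff₀ hvp] at h1
        linarith only [h1]
      linarith only [h2]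
    · have : (N2:ℝ) ≤ ((max N1 N2 : ℕ):ℝ) := by exact_mod_cast le_max_right _ _
      exact hN2.le.trans this
  have hle : ∫⁻ v in S ∩ Ico (vlo/2) 0, ENNReal.ofReal (cv v) ^ 2 ≤ ENNReal.ofReal ((A' / c) ^ 2) := by
    refine (lintegral_mono_set hunion).trans ?_
    rw [setLIntegral_iUnion_of_directed _ hmono.directed_le]
    exact iSup_le key
  exact ne_top_of_le_ne_top ENNReal.ofReal_ne_top hle

end CoreHyp

end Vale.Agent.P354w
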