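import Vale.Agent.P354w.Bad

set_option maxSynthPendingDepth 3

open Set MeasureTheory Filter

namespace Vale.Agent.P354w

lemma lintegral_inv_top {a b M : ℝ} (hab : a < b) (hM : 0 < M) :
    ∫⁻ t in Ioo a b, ENNReal.ofReal (1 / (M * (b - t))) = ⊤ := by
  by_contra hne
  have hmeas : Measurable (fun t : ℝ => 1 / (M * (b - t))) := by fun_prop
  have hint : IntegrableOn (fun t : ℝ => 1 / (M * (b - t))) (Ioo a b) := by
    refine ⟨hmeas.aestronglyMeasurable, ?_⟩
    rw [hasFiniteIntegral_iff_ofReal]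
    · exact lt_top_iff_ne_top.mpr hne
    · rw [EventuallyLE, ae_restrict_iff' measurableSet_Ioo]
      apply ae_of_all
      intro t ht
      have : 0 < b - t := by linarith [ht.2]
      simp only [Pi.zero_apply]
      positivity
  have h2 : IntervalIntegrable (fun t : ℝ => (t - b)⁻¹) volume a b := by
    rw [intervalIntegrable_iff_integrableOn_Ioo_of_le hab.le]
    have h3 : IntegrableOn (fun t : ℝ => -M * (1 / (M * (b - t)))) (Ioo a b) := hint.const_mul (-M)
    apply IntegrableOn.congr_fun h3 _ measurableSet_Ioo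
    intro t ht
    have h4 : b - t ≠ 0 := by
      have := ht.2
      intro h; linarith
    have h5 : t - b ≠ 0 := by
      have := ht.2
      intro h; linarith
    simp only
    rw [show t - b = -(b - t) by ring, inv_neg]
    field_simp
  rw [intervalIntegrable_sub_inv_iff] at h2
  rcases h2 with h2 | h2
  · exact absurd h2 hab.ne
  · exact h2 right_mem_uIcc

lemma lintegral_rpow_lt {R : ℝ} (hR : 0 ≤ R) :
    ∫⁻ u in Icc (-R) R, ENNReal.ofReal (|u| ^ (-(1/2):ℝ)) ≠ ⊤ := by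
  have h1 : IntervalIntegrable (fun u : ℝ => |u| ^ (-(1/2):ℝ)) volume (-R) R := by
    have h0 : IntervalIntegrable (fun u : ℝ => |u| ^ (-(1/2):ℝ)) volume 0 R := by
      have := intervalIntegral.intervalIntegrable_rpow' (a := 0) (b := R) (r := -(1/2))
        (by norm_num)
      rw [intervalIntegrable_iff, uIoc_of_le hR] at this ⊢
      refine this.congr_fun ?_ measurableSet_Ioc
      intro u hu
      simp only
      rw [abs_of_pos hu.1]
    have h2 : IntervalIntegrable (fun u : ℝ => |u| ^ (-(1/2):ℝ)) volume (-R) 0 := by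
      have := (IntervalIntegrable.iff_comp_neg (f := fun u : ℝ => |u| ^ (-(1/2):ℝ))).mp h0
      simp only [abs_neg, neg_zero] at this
      exact this.symm
    exact h2.trans h0
  rw [intervalIntegrable_iff_integrableOn_Icc_of_le (by linarith)] at h1
  have h3 := h1.2
  rw [hasFiniteIntegral_iff_ofReal (ae_of_all _ fun u => by positivity)] at h3
  exact h3.ne

namespace PreHyp

variable {K : Coef} {G : P4 → P4 →L[ℝ] P4 →L[ℝ] ℝ} {Psi : P4 → P4} {V U : Set P4}
    {C R : ℝ} {cv cw cu : ℝ → ℝ} {t0 r : ℝ} {f : P3 → ℝ}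

lemma line_lip (h : PreHyp K G Psi V U C R cv cw cu t0 r f) {x : P3}
    (hx : x ∈ Metric.ball (0 : P3) r) {M : ℝ}
    (hM : ∀ t ∈ Ioo t0 (f x), (fderiv ℝ Psi (t, x) e1).2.1 ≤ M ∧
      (fderiv ℝ Psi (t, x) e1).2.2.1 ≤ M) {s t : ℝ} (hs : t0 < s) (hst : s ≤ t) (ht : t < f x) :
    (Psi (t, x)).2.1 - (Psi (s, x)).2.1 ≤ M * (t - s) ∧
    (Psi (t, x)).2.2.1 - (Psi (s, x)).2.2.1 ≤ M * (t - s) := by
  have hd : ∀ τ ∈ Icc s t, HasDerivAt (fun t => Psi (t, x)) (fderiv ℝ Psi (τ, x) e1) τ :=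
    fun τ hτ => h.hasDerivAt_line (h.memV x hx τ ⟨by linarith [hτ.1], by linarith [hτ.2]⟩)
  have hmem : ∀ τ ∈ Icc s t, τ ∈ Ioo t0 (f x) := fun τ hτ =>
    ⟨by linarith [hτ.1], by linarith [hτ.2]⟩
  constructor
  · have hd1 : ∀ τ ∈ Icc s t, HasDerivAt (fun t => (Psi (t, x)).2.1)
        (fderiv ℝ Psi (τ, x) e1).2.1 τ := fun τ hτ => (hd τ hτ).snd.fst
    apply (convex_Icc s t).image_sub_le_mul_sub_of_deriv_le
      (f := fun t => (Psi (t, x)).2.1) (fun τ hτ => (hd1 τ hτ).continuousAt.continuousWithinAt)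
      (fun τ hτ => (hd1 τ (interior_subset hτ)).differentiableAt.differentiableWithinAt)
      (fun τ hτ => by
        rw [(hd1 τ (interior_subset hτ)).deriv]
        exact (hM τ (hmem τ (interior_subset hτ))).1)
      s ⟨le_refl _, hst⟩ t ⟨hst, le_refl _⟩ hst
  · have hd1 : ∀ τ ∈ Icc s t, HasDerivAt (fun t => (Psi (t, x)).2.2.1)
        (fderiv ℝ Psi (τ, x) e1).2.2.1 τ := fun τ hτ => (hd τ hτ).snd.snd.fst
    apply (convex_Icc s t).image_sub_le_mul_sub_of_deriv_le
      (f := fun t => (Psi (t, x)).2.2.1) (fun τ hτ => (hd1 τ hτ).continuousAt.continuousWithinAt)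
      (fun τ hτ => (hd1 τ (interior_subset hτ)).differentiableAt.differentiableWithinAt)
      (fun τ hτ => by
        rw [(hd1 τ (interior_subset hτ)).deriv]
        exact (hM τ (hmem τ (interior_subset hτ))).2)
      s ⟨le_refl _, hst⟩ t ⟨hst, le_refl _⟩ hst

/-- if a line exits at the corner `(v, u) = (0, 0)` with bounded frame components, then
`-v, -u ≤ M (f x - t)` -/
lemma corner_line (h : PreHyp K G Psi V U C R cv cw cu t0 r f) {x : P3}
    (hx : x ∈ Metric.ball (0 : P3) r) {M : ℝ} (hM0 : 0 ≤ M)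
    (hM : ∀ t ∈ Ioo t0 (f x), (fderiv ℝ Psi (t, x) e1).2.1 ≤ M ∧
      (fderiv ℝ Psi (t, x) e1).2.2.1 ≤ M)
    (hlim : ∀ ε > 0, ∃ t1 < f x, ∀ t ∈ Ioo t1 (f x), t0 < t →
      |(Psi (t, x)).2.1| < ε ∧ |(Psi (t, x)).2.2.1| < ε) {s : ℝ} (hs : s ∈ Ioo t0 (f x)) :
    -(Psi (s, x)).2.1 ≤ M * (f x - s) ∧ -(Psi (s, x)).2.2.1 ≤ M * (f x - s) := by
  have key : ∀ ε > 0, -(Psi (s, x)).2.1 ≤ M * (f x - s) + ε ∧
      -(Psi (s, x)).2.2.1 ≤ M * (f x - s) + ε := by
    intro ε hε
    obtain ⟨t1, ht1, ht1'⟩ := hlim ε hε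
    set t := (max s t1 + f x) / 2 with ht
    have hmax : max s t1 < f x := max_lt hs.2 ht1
    have hst : s ≤ t := by have := le_max_left s t1; linarith only [ht, hmax, this]
    have htf : t < f x := by linarith only [ht, hmax]
    have ht1t : t1 < t := by have := le_max_right s t1; linarith only [ht, htf, this]
    obtain ⟨k1, k2⟩ := h.line_lip hx hM hs.1 hst htf
    obtain ⟨l1, l2⟩ := ht1' t ⟨ht1t, htf⟩ (lt_of_lt_of_le hs.1 hst)
    have m1 := (abs_lt.mp l1).1
    have m2 := (abs_lt.mp l2).1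
    have m3 : M * (t - s) ≤ M * (f x - s) := by gcongr
    constructor <;> linarith only [k1, m1, m3, k2, m2]
  constructor
  · exact le_of_forall_pos_le_add fun ε hε => (key ε hε).1
  · exact le_of_forall_pos_le_add fun ε hε => (key ε hε).2

/-- **Corner exclusion.** The vertical lines cannot all exit at the corner. -/
theorem corner (h : PreHyp K G Psi V U C R cv cw cu t0 r f)
    (hu : ∀ y ∈ U, y.2.2.1 < 0)
    (hlim : ∀ x ∈ Metric.ball (0 : P3) r, ∀ ε > 0, ∃ t1 < f x, ∀ t ∈ Ioo t1 (f x), t0 < t →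
      |(Psi (t, x)).2.1| < ε ∧ |(Psi (t, x)).2.2.1| < ε) : False := by
  have hr := h.r_pos
  have hmem0 : ((t0, 0) : P4) ∈ V := h.memV 0 (by simpa only [Metric.mem_ball, dist_self] using hr) t0
      ⟨le_refl _, h.t0f 0 (by simpa only [Metric.mem_ball, dist_self] using hr)⟩
  have hR : 0 ≤ R := (abs_nonneg _).trans (h.U_sub _ (h.maps hmem0)).1
  set bI := volume (Metric.ball (0 : P3) r) with hbI
  have hbI0 : 0 < bI := Metric.isOpen_ball.measure_pos _ ⟨0, by simpa only [Metric.mem_ball, dist_self] using hr⟩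
  have hbIt : bI ≠ ⊤ := measure_ball_lt_top.ne
  obtain ⟨n, hn1, hn⟩ : ∃ n : ℕ, 1 ≤ n ∧ volume (NN Psi t0 r f n) ≤ bI / 2 := by
    have h1 := ENNReal.tendsto_nhds_zero.mp h.tendsto_NN (bI / 2)
      (ENNReal.half_pos hbI0.ne')
    obtain ⟨n, hn⟩ := (h1.and (eventually_ge_atTop 1)).exists
    exact ⟨n, hn.2, hn.1⟩
  set A : Set P3 := Metric.ball (0 : P3) r \ NN Psi t0 r f n with hA
  have hAm : MeasurableSet A := Metric.isOpen_ball.measurableSet.diff h.isOpen_NN.measurableSet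
  have hA0 : volume A ≠ 0 := by
    intro hA0
    have h1 : bI ≤ volume A + volume (NN Psi t0 r f n) := by
      refine (measure_mono ?_).trans (measure_union_le _ _)
      intro x hx
      by_cases hx2 : x ∈ NN Psi t0 r f n
      · exact Or.inr hx2
      · exact Or.inl ⟨hx, hx2⟩
    rw [hA0, zero_add] at h1
    have h2 := h1.trans hn
    exact absurd h2 (not_le.mpr (ENNReal.half_lt_self hbI0.ne' hbIt))
  set p : ℝ → ENNReal := fun v => ENNReal.ofReal (|v| ^ (-(1/2):ℝ)) with hp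
  have hpm : Measurable p := by
    rw [hp]
    exact ((measurable_norm.pow_const _) : Measurable (fun v : ℝ => |v| ^ (-(1/2):ℝ))).ennreal_ofReal
  have hpI : ∫⁻ u in Icc (-R) R, p u ≠ ⊤ := lintegral_rpow_lt hR
  have hpI2 : ∫⁻ v in Ico (-R) 0, p v ≠ ⊤ :=
    ne_top_of_le_ne_top hpI (lintegral_mono_set fun v hv => ⟨hv.1, by linarith only [hR, hv.2]⟩)
  have hvol : volume (Icc (-R) R) ≠ ⊤ := by simp only [Real.volume_Icc, sub_neg_eq_add, ne_eq, ENNReal.ofReal_ne_top, not_false_eq_true]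
  have up := h.push_prod hpm hpm
  have hfin : ∫⁻ z in DD t0 r f, p (Psi z).2.1 * p (Psi z).2.2.1 ≠ ⊤ := by
    refine ne_top_of_le_ne_top ?_ up
    exact ENNReal.mul_ne_top ENNReal.ofReal_ne_top (ENNReal.mul_ne_top hvol
      (ENNReal.mul_ne_top hpI2 (ENNReal.mul_ne_top hpI hvol)))
  apply hfin
  have haem : AEMeasurable (fun z => p (Psi z).2.1 * p (Psi z).2.2.1)
      (volume.restrict (DD t0 r f)) := (hpm.comp_aemeasurable h.aem_Psi.snd.fst).mul
    (hpm.comp_aemeasurable h.aem_Psi.snd.snd.fst)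
  rw [h.lintegral_DD haem, eq_top_iff]
  have hMpos : (0:ℝ) < n := by exact_mod_cast hn1
  have hAsub : A ⊆ Metric.ball (0 : P3) r := fun x hx => hx.1
  calc (⊤ : ENNReal) = ∫⁻ x in A, (⊤ : ENNReal) := by
        rw [lintegral_const, Measure.restrict_apply MeasurableSet.univ, univ_inter,
          ENNReal.top_mul hA0]
    _ ≤ ∫⁻ x in A, ∫⁻ t in Ioo t0 (f x), p (Psi (t, x)).2.1 * p (Psi (t, x)).2.2.1 := by
        apply setLIntegral_mono' hAm
        intro x hx
        rw [← lintegral_inv_top (h.t0f x hx.1) hMpos]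
        apply setLIntegral_mono' measurableSet_Ioo
        intro t ht
        have hb : ∀ t ∈ Ioo t0 (f x), (fderiv ℝ Psi (t, x) e1).2.1 ≤ n ∧
            (fderiv ℝ Psi (t, x) e1).2.2.1 ≤ n := by
          intro t ht
          obtain ⟨k1, k2⟩ := not_NN (z := (t, x)) ⟨hx.1, ht.1, ht.2⟩ hx.2
          constructor <;> linarith only [hMpos, k1, k2]
        obtain ⟨k1, k2⟩ := h.corner_line hx.1 hMpos.le hb (hlim x hx.1) ht
        have hV : ((t, x) : P4) ∈ V := h.memV x hx.1 t ⟨ht.1.le, ht.2⟩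
        have hv : (Psi (t, x)).2.1 < 0 := (h.U_sub _ (h.maps hV)).2.2.1
        have hu' : (Psi (t, x)).2.2.1 < 0 := hu _ (h.maps hV)
        rw [hp]
        simp only
        rw [← ENNReal.ofReal_mul (by positivity)]
        apply ENNReal.ofReal_le_ofReal
        have hft : 0 < f x - t := by linarith [ht.2]
        have e : 1 / ((n:ℝ) * (f x - t)) = (n * (f x - t)) ^ (-(1/2):ℝ) * (n * (f x - t)) ^ (-(1/2):ℝ) := by
          rw [← Real.rpow_add (by positivity)]
          norm_num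
          rw [Real.rpow_neg_one]
          field_simp
        rw [e, abs_of_neg hv, abs_of_neg hu']
        have r1 : (n * (f x - t)) ^ (-(1/2):ℝ) ≤ (-(Psi (t, x)).2.1) ^ (-(1/2):ℝ) :=
          Real.rpow_le_rpow_of_nonpos (by linarith only [hv]) k1 (by norm_num)
        have r2 : (n * (f x - t)) ^ (-(1/2):ℝ) ≤ (-(Psi (t, x)).2.2.1) ^ (-(1/2):ℝ) :=
          Real.rpow_le_rpow_of_nonpos (by linarith only [hu']) k2 (by norm_num)
        exact mul_le_mul r1 r2 (by positivity) (Real.rpow_nonneg (by linarith only [hv]) _)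
    _ ≤ _ := lintegral_mono_set hAsub

end PreHyp

end Vale.Agent.P354w
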