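import Vale.Agent.P354w.Line

set_option maxSynthPendingDepth 3

open Set MeasureTheory

namespace Vale.Agent.P354w

/-- cutoff: `1` on `(-∞, 1]`, `0` on `[2, ∞)`. -/
noncomputable def eta (s : ℝ) : ℝ := Real.smoothTransition (2 - s)

lemma eta_nonneg (s : ℝ) : 0 ≤ eta s := Real.smoothTransition.nonneg _
lemma eta_le_one (s : ℝ) : eta s ≤ 1 := Real.smoothTransition.le_one _
lemma eta_one {s : ℝ} (h : s ≤ 1) : eta s = 1 := Real.smoothTransition.one_of_one_le (by linarith only [h])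
lemma eta_zero {s : ℝ} (h : 2 ≤ s) : eta s = 0 := Real.smoothTransition.zero_of_nonpos (by linarith only [h])
lemma eta_contDiff {n : WithTop ℕ∞} (hn : n ≤ (⊤ : ℕ∞)) : ContDiff ℝ n eta := by
  have h1 : ContDiff ℝ (⊤ : ℕ∞) Real.smoothTransition := Real.smoothTransition.contDiff
  exact ((h1.comp (contDiff_const.sub contDiff_id)).of_le hn)

lemma eta_diff (s : ℝ) : HasDerivAt eta (deriv eta s) s :=
  ((eta_contDiff (n := 1) (by norm_num)).differentiable (by norm_num) s).hasDerivAt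

lemma deriv_eta_zero_left {s : ℝ} (h : s < 1) : deriv eta s = 0 := by
  have : eta =ᶠ[nhds s] fun _ => (1:ℝ) := by
    filter_upwards [Iio_mem_nhds h] with y hy
    exact eta_one (le_of_lt hy)
  rw [this.deriv_eq]; simp only [deriv_const']

lemma deriv_eta_zero_right {s : ℝ} (h : 2 < s) : deriv eta s = 0 := by
  have : eta =ᶠ[nhds s] fun _ => (0:ℝ) := by
    filter_upwards [Ioi_mem_nhds h] with y hy
    exact eta_zero (le_of_lt hy)
  rw [this.deriv_eq]; simp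

lemma exists_eta_bound : ∃ B : ℝ, 1 ≤ B ∧ ∀ s, |deriv eta s| ≤ B := by
  have hc : Continuous (deriv eta) :=
    (eta_contDiff (n := 1) (by norm_num)).continuous_deriv (by norm_num)
  obtain ⟨B, hB⟩ := (isCompact_Icc (a := (1:ℝ)) (b := 2)).exists_bound_of_continuousOn
    hc.continuousOn
  refine ⟨max B 1, le_max_right _ _, fun s => ?_⟩
  by_cases h1 : s < 1
  · rw [deriv_eta_zero_left h1]; simp only [abs_zero, le_sup_iff, zero_le_one, or_true]
  · by_cases h2 : 2 < s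
    · rw [deriv_eta_zero_right h2]; simp only [abs_zero, le_sup_iff, zero_le_one, or_true]
    · push Not at h1 h2
      have := hB s ⟨h1, h2⟩
      rw [Real.norm_eq_abs] at this
      exact this.trans (le_max_left _ _)

/-- the test function -/
noncomputable def Theta (K : Coef) (Psi : P4 → P4) (hh : P3 → ℝ) (κ : ℝ) (z : P4) : ℝ :=
  hh z.2 * (eta ((fderiv ℝ Psi z e1).2.1 / κ) * (eta ((fderiv ℝ Psi z e1).2.2.1 / κ)
    * K.gF (Psi z) (fderiv ℝ Psi z e1) e1))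

namespace PreHyp

variable {K : Coef} {G : P4 → P4 →L[ℝ] P4 →L[ℝ] ℝ} {Psi : P4 → P4} {V U : Set P4}
    {C R : ℝ} {cv cw cu : ℝ → ℝ} {t0 r : ℝ} {f : P3 → ℝ}

lemma contDiffAt_P (h : PreHyp K G Psi V U C R cv cw cu t0 r f) {z : P4} (hz : z ∈ V) (a : P4) :
    ContDiffAt ℝ 1 (fun z => fderiv ℝ Psi z a) z :=
  (h.iso.contDiffAt_fderiv hz).clm_apply contDiffAt_const

lemma contDiffAt_gF (h : PreHyp K G Psi V U C R cv cw cu t0 r f) {z : P4} (hz : z ∈ V) (a b : P4) :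
    ContDiffAt ℝ 1 (fun z => K.gF (Psi z) (fderiv ℝ Psi z a) b) z := by
  have hP := h.contDiffAt_P hz a
  have hPsi : ContDiffAt ℝ 1 Psi z := (h.iso.contDiffAt hz).of_le (by norm_num)
  have hU : U ∈ nhds (Psi z) := h.openU.mem_nhds (h.maps hz)
  have c1 : ContDiffAt ℝ 1 (fun z => K.om (Psi z)) z := (h.smoothK.om.contDiffAt hU).comp z hPsi
  have c2 : ContDiffAt ℝ 1 (fun z => K.s1 (Psi z)) z := (h.smoothK.s1.contDiffAt hU).comp z hPsi
  have c3 : ContDiffAt ℝ 1 (fun z => K.s2 (Psi z)) z := (h.smoothK.s2.contDiffAt hU).comp z hPsi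
  have cw1 : ContDiffAt ℝ 1 (fun z => K.w1 (Psi z)) z := (h.smoothK.w1.contDiffAt hU).comp z hPsi
  have cw2 : ContDiffAt ℝ 1 (fun z => K.w2 (Psi z)) z := (h.smoothK.w2.contDiffAt hU).comp z hPsi
  have c4 : ContDiffAt ℝ 1 (fun z => K.g11 (Psi z)) z := (h.smoothK.g11.contDiffAt hU).comp z hPsi
  have c5 : ContDiffAt ℝ 1 (fun z => K.g12 (Psi z)) z := (h.smoothK.g12.contDiffAt hU).comp z hPsi
  have c6 : ContDiffAt ℝ 1 (fun z => K.g22 (Psi z)) z := (h.smoothK.g22.contDiffAt hU).comp z hPsi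
  have p1 : ContDiffAt ℝ 1 (fun z => (fderiv ℝ Psi z a).1) z := contDiffAt_fst.comp z hP
  have p2 : ContDiffAt ℝ 1 (fun z => (fderiv ℝ Psi z a).2.1) z :=
    contDiffAt_fst.comp z (contDiffAt_snd.comp z hP)
  have p3 : ContDiffAt ℝ 1 (fun z => (fderiv ℝ Psi z a).2.2.1) z :=
    contDiffAt_fst.comp z (contDiffAt_snd.comp z (contDiffAt_snd.comp z hP))
  have p4 : ContDiffAt ℝ 1 (fun z => (fderiv ℝ Psi z a).2.2.2) z :=
    contDiffAt_snd.comp z (contDiffAt_snd.comp z (contDiffAt_snd.comp z hP))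
  simp only [Coef.gF, Coef.h1, Coef.h2]
  fun_prop

lemma contDiffAt_Theta (h : PreHyp K G Psi V U C R cv cw cu t0 r f) {z : P4} (hz : z ∈ V)
    {hh : P3 → ℝ} (hhs : ContDiff ℝ 1 hh) (κ : ℝ) :
    ContDiffAt ℝ 1 (Theta K Psi hh κ) z := by
  have hP := h.contDiffAt_P hz e1
  have p2 : ContDiffAt ℝ 1 (fun z => (fderiv ℝ Psi z e1).2.1 / κ) z :=
    (contDiffAt_fst.comp z (contDiffAt_snd.comp z hP)).div_const κ
  have p3 : ContDiffAt ℝ 1 (fun z => (fderiv ℝ Psi z e1).2.2.1 / κ) z :=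
    (contDiffAt_fst.comp z (contDiffAt_snd.comp z (contDiffAt_snd.comp z hP))).div_const κ
  have he : ContDiff ℝ 1 eta := eta_contDiff (by norm_num)
  have q2 : ContDiffAt ℝ 1 (fun z => eta ((fderiv ℝ Psi z e1).2.1 / κ)) z :=
    he.contDiffAt.comp z p2
  have q3 : ContDiffAt ℝ 1 (fun z => eta ((fderiv ℝ Psi z e1).2.2.1 / κ)) z :=
    he.contDiffAt.comp z p3
  have q1 : ContDiffAt ℝ 1 (fun z : P4 => hh z.2) z := hhs.contDiffAt.comp z contDiffAt_snd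
  exact q1.mul (q2.mul (q3.mul (h.contDiffAt_gF hz e1 e1)))

lemma fderiv_Theta (h : PreHyp K G Psi V U C R cv cw cu t0 r f) {z : P4} (hz : z ∈ V)
    {hh : P3 → ℝ} (hhs : ContDiff ℝ 1 hh) (κ : ℝ) {Z : P4} (hZ : fderiv ℝ Psi z Z = e1) :
    fderiv ℝ (Theta K Psi hh κ) z Z =
      fderiv ℝ hh z.2 Z.2 * (eta ((fderiv ℝ Psi z e1).2.1 / κ)
          * (eta ((fderiv ℝ Psi z e1).2.2.1 / κ) * K.gF (Psi z) (fderiv ℝ Psi z e1) e1))
      + hh z.2 * ((deriv eta ((fderiv ℝ Psi z e1).2.1 / κ) * ((Sd Psi z Z e1).2.1 / κ))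
          * (eta ((fderiv ℝ Psi z e1).2.2.1 / κ) * K.gF (Psi z) (fderiv ℝ Psi z e1) e1))
      + hh z.2 * (eta ((fderiv ℝ Psi z e1).2.1 / κ)
          * ((deriv eta ((fderiv ℝ Psi z e1).2.2.1 / κ) * ((Sd Psi z Z e1).2.2.1 / κ))
            * K.gF (Psi z) (fderiv ℝ Psi z e1) e1))
      + hh z.2 * (eta ((fderiv ℝ Psi z e1).2.1 / κ) * (eta ((fderiv ℝ Psi z e1).2.2.1 / κ)
          * (K.dgF (Psi z) e1 (fderiv ℝ Psi z e1) e1 + K.gF (Psi z) (Sd Psi z Z e1) e1))) := by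
  have hl : HasDerivAt (fun τ : ℝ => z + τ • Z) Z 0 := by
    simpa using ((hasDerivAt_id (0:ℝ)).smul_const Z).const_add z
  have hz0 : z + (0:ℝ) • Z = z := by simp
  have hT : HasDerivAt (fun τ : ℝ => Theta K Psi hh κ (z + τ • Z))
      (fderiv ℝ (Theta K Psi hh κ) z Z) 0 := by
    have h1 : HasFDerivAt (Theta K Psi hh κ) (fderiv ℝ (Theta K Psi hh κ) z) (z + (0:ℝ) • Z) := by
      rw [hz0]; exact ((h.contDiffAt_Theta hz hhs κ).differentiableAt (by norm_num)).hasFDerivAt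
    exact h1.comp_hasDerivAt (0:ℝ) hl
  have hX : HasDerivAt (fun τ : ℝ => Psi (z + τ • Z)) (fderiv ℝ Psi z Z) 0 := by
    have h1 : HasFDerivAt Psi (fderiv ℝ Psi z) (z + (0:ℝ) • Z) := by
      rw [hz0]; exact h.iso.hasFDerivAt hz
    exact h1.comp_hasDerivAt (0:ℝ) hl
  have hD : HasDerivAt (fun τ : ℝ => fderiv ℝ Psi (z + τ • Z)) (fderiv ℝ (fderiv ℝ Psi) z Z) 0 := by
    have h1 : HasFDerivAt (fderiv ℝ Psi) (fderiv ℝ (fderiv ℝ Psi) z) (z + (0:ℝ) • Z) := by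
      rw [hz0]; exact h.iso.hasFDerivAt_fderiv hz
    exact h1.comp_hasDerivAt (0:ℝ) hl
  have hA : HasDerivAt (fun τ : ℝ => fderiv ℝ Psi (z + τ • Z) e1) (Sd Psi z Z e1) 0 := by
    have := hD.clm_apply (hasDerivAt_const (0:ℝ) e1)
    simpa only [Sd, zero_smul, add_zero, map_zero] using this
  have hK0 : K.DiffAt (Psi (z + (0:ℝ) • Z)) := by rw [hz0]; exact h.iso.diffK z hz
  have hG := Coef.hasDerivAt_gF K (X := fun τ : ℝ => Psi (z + τ • Z))
    (A := fun τ : ℝ => fderiv ℝ Psi (z + τ • Z) e1) (B := fun _ : ℝ => e1)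
    hK0 hX hA (hasDerivAt_const _ _)
  have hhd : HasDerivAt (fun τ : ℝ => hh (z + τ • Z).2) (fderiv ℝ hh z.2 Z.2) 0 := by
    have h1 : HasFDerivAt hh (fderiv ℝ hh z.2) (z + (0:ℝ) • Z).2 := by
      rw [hz0]; exact (hhs.differentiable (by norm_num) z.2).hasFDerivAt
    exact h1.comp_hasDerivAt (0:ℝ) hl.snd
  have hb : HasDerivAt (fun τ : ℝ => (fderiv ℝ Psi (z + τ • Z) e1).2.1 / κ)
      ((Sd Psi z Z e1).2.1 / κ) 0 := (HasDerivAt.div_const hA.snd.fst κ)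
  have ha : HasDerivAt (fun τ : ℝ => (fderiv ℝ Psi (z + τ • Z) e1).2.2.1 / κ)
      ((Sd Psi z Z e1).2.2.1 / κ) 0 := (HasDerivAt.div_const hA.snd.snd.fst κ)
  have heb : HasDerivAt (fun τ : ℝ => eta ((fderiv ℝ Psi (z + τ • Z) e1).2.1 / κ))
      (deriv eta ((fderiv ℝ Psi z e1).2.1 / κ) * ((Sd Psi z Z e1).2.1 / κ)) 0 := by
    have := (eta_diff ((fderiv ℝ Psi (z + (0:ℝ) • Z) e1).2.1 / κ)).comp (0:ℝ) hb
    simpa only [Function.comp_def, zero_smul, add_zero] using this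
  have hea : HasDerivAt (fun τ : ℝ => eta ((fderiv ℝ Psi (z + τ • Z) e1).2.2.1 / κ))
      (deriv eta ((fderiv ℝ Psi z e1).2.2.1 / κ) * ((Sd Psi z Z e1).2.2.1 / κ)) 0 := by
    have := (eta_diff ((fderiv ℝ Psi (z + (0:ℝ) • Z) e1).2.2.1 / κ)).comp (0:ℝ) ha
    simpa only [Function.comp_def, zero_smul, add_zero] using this
  have hR := hhd.mul (heb.mul (hea.mul hG))
  have := hT.unique hR
  rw [this]
  have hgF0 : K.gF (Psi z) (fderiv ℝ Psi z e1) 0 = 0 := by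
    simp only [Coef.gF, Prod.snd_zero, Prod.fst_zero, mul_zero, add_zero, Coef.h1, sub_self, Coef.h2]
  simp only [hz0, hZ, hgF0, add_zero, Pi.mul_apply]
  ring

end PreHyp

end Vale.Agent.P354w
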