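import Vale.Agent.P354w.Inv

set_option maxSynthPendingDepth 3

open Set MeasureTheory Filter

namespace Vale.Agent.P354w

theorem haarP2 : (volume : Measure (ℝ × ℝ)).IsAddHaarMeasure :=
  inferInstanceAs ((volume : Measure ℝ).prod (volume : Measure ℝ)).IsAddHaarMeasure
theorem haarP3 : (volume : Measure P3).IsAddHaarMeasure :=
  haveI := haarP2
  inferInstanceAs ((volume : Measure ℝ).prod (volume : Measure (ℝ × ℝ))).IsAddHaarMeasure
theorem haarP4 : (volume : Measure P4).IsAddHaarMeasure :=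
  haveI := haarP3
  inferInstanceAs ((volume : Measure ℝ).prod (volume : Measure P3)).IsAddHaarMeasure

namespace CoreHyp

open PreHyp

variable {K : Coef} {G : P4 → P4 →L[ℝ] P4 →L[ℝ] ℝ} {Psi : P4 → P4} {V U : Set P4}
    {C R : ℝ} {cv cw cu : ℝ → ℝ} {t0 r : ℝ} {f : P3 → ℝ}

lemma mem_DD_of_KK {r' v2 vlo : ℝ} (hr' : r' < r)
    (hvlo : ∀ x : P3, ‖x‖ ≤ r' → (Psi (t0, x)).2.1 ≤ vlo) {z : P4} (hz : z ∈ KK Psi t0 r' f v2)
    (h1 : vlo < (Psi z).2.1) : z ∈ DD t0 r f := by
  obtain ⟨k1, k2, k3, k4⟩ := hz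
  refine ⟨?_, ?_, k3⟩
  · rw [mem_ball_zero_iff]; exact lt_of_le_of_lt k1 hr'
  · rcases lt_or_eq_of_le k2 with hlt | heq
    · exact hlt
    · exfalso
      have := hvlo z.2 k1
      rw [heq] at this
      have h3 : (Psi z).2.1 ≤ vlo := this
      linarith only [h1, this]

lemma integral_line (h : CoreHyp K G Psi V U C R cv cw cu t0 r f) {hh : P3 → ℝ}
    (hhs : ContDiff ℝ 1 hh) {κ : ℝ} {r' v3 vlo : ℝ} (hr' : r' < r) (hv3 : v3 < 0)
    (hhr : ∀ x, r' < ‖x‖ → hh x = 0)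
    (hvlo : ∀ x : P3, ‖x‖ ≤ r' → (Psi (t0, x)).2.1 ≤ vlo) {y : P3} (h1 : vlo < y.1)
    (h2 : y.1 < v3) :
    ∫ θ : ℝ, fderiv ℝ (That K Psi V t0 r f hh κ) (θ, y) e1 = 0 := by
  have hcd : ∀ θ : ℝ, ContDiffAt ℝ 1 (That K Psi V t0 r f hh κ) (θ, y) := fun θ =>
    h.contDiffAt_That hhs hr' hv3 hhr hvlo (y := (θ, y)) h1 h2
  have hl : ∀ θ : ℝ, HasDerivAt (fun θ : ℝ => ((θ, y) : P4)) e1 θ := fun θ =>
    (hasDerivAt_id θ).prodMk (hasDerivAt_const θ y)
  have hlc : Continuous (fun θ : ℝ => ((θ, y) : P4)) := by fun_prop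
  have hder : ∀ θ : ℝ, HasDerivAt (fun θ : ℝ => That K Psi V t0 r f hh κ (θ, y))
      (fderiv ℝ (That K Psi V t0 r f hh κ) (θ, y) e1) θ := fun θ =>
    (((hcd θ).differentiableAt (by norm_num)).hasFDerivAt).comp_hasDerivAt θ (hl θ)
  have hK := h.isCompact_image_KK hr' hv3 (r' := r')
  have hKf : IsCompact (Prod.fst '' (Psi '' KK Psi t0 r' f v3)) := hK.image continuous_fst
  have hnot : ∀ θ : ℝ, θ ∉ Prod.fst '' (Psi '' KK Psi t0 r' f v3) →
      ((θ, y) : P4) ∉ Psi '' KK Psi t0 r' f v3 := by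
    intro θ hθ hm
    exact hθ ⟨(θ, y), hm, rfl⟩
  apply integral_eq_zero_of_hasDerivAt_of_integrable hder
  · apply Continuous.integrable_of_hasCompactSupport
    · rw [continuous_iff_continuousAt]
      intro θ
      have h3 : ContDiffAt ℝ 0 (fderiv ℝ (That K Psi V t0 r f hh κ)) (θ, y) :=
        (hcd θ).fderiv_right (by norm_num)
      have h4 : ContinuousAt (fun θ : ℝ => fderiv ℝ (That K Psi V t0 r f hh κ) (θ, y)) θ :=
        ContinuousAt.comp (g := fderiv ℝ (That K Psi V t0 r f hh κ)) (f := fun θ : ℝ => ((θ, y) : P4))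
          h3.continuousAt hlc.continuousAt
      exact h4.clm_apply continuousAt_const
    · apply HasCompactSupport.intro hKf
      intro θ hθ
      rw [h.fderiv_That_zero hr' hv3 hhr (hnot θ hθ) h2]
      rfl
  · apply Continuous.integrable_of_hasCompactSupport
    · rw [continuous_iff_continuousAt]
      intro θ
      exact (hder θ).continuousAt
    · apply HasCompactSupport.intro hKf
      intro θ hθ
      exact h.That_zero_of hhr (hnot θ hθ) (le_of_lt h2)

lemma integral_id (h : CoreHyp K G Psi V U C R cv cw cu t0 r f) {hh : P3 → ℝ}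
    (hhs : ContDiff ℝ 1 hh) (κ : ℝ) {r' v1 v2 vlo : ℝ} (hr' : r' < r) (hv2 : v2 < 0)
    (hlo : vlo < v1) (hhr : ∀ x, r' < ‖x‖ → hh x = 0)
    (hvlo : ∀ x : P3, ‖x‖ ≤ r' → (Psi (t0, x)).2.1 ≤ vlo) {k : ℝ → ℝ} (hk : Measurable k)
    {m : ℝ} (hkm : ∀ v, |k v| ≤ m) (hks : ∀ v, v ∉ Icc v1 v2 → k v = 0) :
    IntegrableOn (fun z => |(fderiv ℝ Psi z).det| * (k (Psi z).2.1 *
      fderiv ℝ (Theta K Psi hh κ) z (Zf Psi V z))) (DD t0 r f) ∧
    ∫ z in DD t0 r f, |(fderiv ℝ Psi z).det| * (k (Psi z).2.1 *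
      fderiv ℝ (Theta K Psi hh κ) z (Zf Psi V z)) = 0 := by
  have hv23 : v2 < v2 / 2 := by linarith only [hv2]
  have hv3 : v2 / 2 < 0 := by linarith only [hv2]
  set F : P4 → ℝ := fun y => k y.2.1 * fderiv ℝ (That K Psi V t0 r f hh κ) y e1 with hF
  have hK := h.isCompact_image_KK hr' hv3 (r' := r')
  set K2 : Set P4 := (Psi '' KK Psi t0 r' f (v2/2)) ∩ {y : P4 | y.2.1 ∈ Icc v1 v2} with hK2
  have hc21 : Continuous (fun y : P4 => y.2.1) := continuous_fst.comp continuous_snd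
  have hK2c : IsCompact K2 := hK.inter_right (isClosed_Icc.preimage hc21)
  have hsupp : Function.support F ⊆ K2 := by
    intro y hy
    rw [Function.mem_support] at hy
    have hky : k y.2.1 ≠ 0 := fun h0 => hy (by rw [hF]; simp only; rw [h0, zero_mul])
    have hdy : fderiv ℝ (That K Psi V t0 r f hh κ) y e1 ≠ 0 := fun h0 =>
      hy (by rw [hF]; simp only; rw [h0, mul_zero])
    have hv : y.2.1 ∈ Icc v1 v2 := by
      by_contra hn
      exact hky (hks _ hn)
    refine ⟨?_, hv⟩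
    by_contra hn
    apply hdy
    rw [h.fderiv_That_zero hr' hv3 hhr hn (lt_of_le_of_lt hv.2 hv23)]
    rfl
  have hcontD : ContinuousOn (fun y => fderiv ℝ (That K Psi V t0 r f hh κ) y e1) K2 := by
    rintro y ⟨_, hv⟩
    have hcd : ContDiffAt ℝ 1 (That K Psi V t0 r f hh κ) y :=
      h.contDiffAt_That hhs hr' hv3 hhr hvlo (lt_of_lt_of_le hlo hv.1) (lt_of_le_of_lt hv.2 hv23)
    have h3 : ContDiffAt ℝ 0 (fderiv ℝ (That K Psi V t0 r f hh κ)) y :=
      hcd.fderiv_right (by norm_num)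
    exact (h3.continuousAt.clm_apply continuousAt_const).continuousWithinAt
  have hFint : Integrable F := by
    rw [← integrableOn_iff_integrable_of_support_subset hsupp]
    exact Integrable.bdd_mul (c := m) (hcontD.integrableOn_compact hK2c)
      ((hk.comp hc21.measurable).aestronglyMeasurable) (ae_of_all _ fun y => hkm _)
  have hF0 : ∫ y, F y = 0 := by
    have hFint' : Integrable F ((volume : Measure ℝ).prod (volume : Measure P3)) := hFint
    have := integral_prod_symm F hFint'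
    rw [Measure.volume_eq_prod, this]
    rw [integral_eq_zero_of_ae]
    apply ae_of_all
    intro y
    simp only [hF, Pi.zero_apply]
    rw [integral_const_mul]
    by_cases hv : y.1 ∈ Icc v1 v2
    · rw [h.integral_line hhs hr' hv3 hhr hvlo (lt_of_lt_of_le hlo hv.1)
        (lt_of_le_of_lt hv.2 hv23), mul_zero]
    · rw [hks _ hv, zero_mul]
  have hsuppD : Function.support F ⊆ Psi '' DD t0 r f := by
    intro y hy
    obtain ⟨⟨z, hz, rfl⟩, hv⟩ := hsupp hy
    exact ⟨z, mem_DD_of_KK hr' hvlo hz (lt_of_lt_of_le hlo hv.1), rfl⟩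
  have hDm : MeasurableSet (DD t0 r f) := h.openD.measurableSet
  have hfd : ∀ z ∈ DD t0 r f, HasFDerivWithinAt Psi (fderiv ℝ Psi z) (DD t0 r f) z :=
    fun z hz => (h.iso.hasFDerivAt (h.DD_sub hz)).hasFDerivWithinAt
  have hinj : InjOn Psi (DD t0 r f) := h.inj.mono h.DD_sub
  have hcongr : ∀ z ∈ DD t0 r f, |(fderiv ℝ Psi z).det| • F (Psi z) =
      |(fderiv ℝ Psi z).det| * (k (Psi z).2.1 *
      fderiv ℝ (Theta K Psi hh κ) z (Zf Psi V z)) := by
    intro z hz
    rw [hF, smul_eq_mul]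
    simp only
    rw [h.fderiv_That hhs hz]
  have hi1 : IntegrableOn F (Psi '' DD t0 r f) := hFint.integrableOn
  haveI := haarP4
  rw [integrableOn_image_iff_integrableOn_abs_det_fderiv_smul volume hDm hfd hinj] at hi1
  have hi2 := integral_image_eq_integral_abs_det_fderiv_smul volume hDm hfd hinj F
  rw [setIntegral_eq_integral_of_forall_compl_eq_zero (fun y hy => by
    by_contra hne
    exact hy (hsuppD hne)), hF0] at hi2
  constructor
  · exact hi1.congr_fun hcongr hDm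
  · rw [hi2]
    exact (setIntegral_congr_fun hDm hcongr).symm

end CoreHyp

end Vale.Agent.P354w
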