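import Vale.Agent.P354w.PE2

set_option maxSynthPendingDepth 3

open Set MeasureTheory Filter

namespace Vale.Agent.P354w

namespace PreHyp

variable {K : Coef} {G : P4 → P4 →L[ℝ] P4 →L[ℝ] ℝ} {Psi : P4 → P4} {V U : Set P4}
    {C R : ℝ} {cv cw cu : ℝ → ℝ} {t0 r : ℝ} {f : P3 → ℝ}

lemma strict (h : PreHyp K G Psi V U C R cv cw cu t0 r f) {z : P4} (hz : z ∈ V) :
    HasStrictFDerivAt Psi (h.Aeq hz : P4 →L[ℝ] P4) z := by
  rw [h.Aeq_coe hz]
  exact (h.iso.contDiffAt hz).hasStrictFDerivAt (by norm_num)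

lemma map_nhds (h : PreHyp K G Psi V U C R cv cw cu t0 r f) {z : P4} (hz : z ∈ V) :
    Filter.map Psi (nhds z) = nhds (Psi z) :=
  (h.strict hz).map_nhds_eq_of_equiv

lemma isOpen_image (h : PreHyp K G Psi V U C R cv cw cu t0 r f) {W : Set P4} (hW : IsOpen W)
    (hWV : W ⊆ V) : IsOpen (Psi '' W) := by
  rw [isOpen_iff_mem_nhds]
  rintro y ⟨z, hz, rfl⟩
  rw [← h.map_nhds (hWV hz)]
  exact image_mem_map (hW.mem_nhds hz)

/-- the inverse of `Psi` -/
noncomputable def Phi (Psi : P4 → P4) (V : Set P4) : P4 → P4 := Function.invFunOn Psi V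

lemma Phi_left (h : PreHyp K G Psi V U C R cv cw cu t0 r f) {z : P4} (hz : z ∈ V) :
    Phi Psi V (Psi z) = z := h.inj.leftInvOn_invFunOn hz

lemma Phi_eventuallyEq (h : PreHyp K G Psi V U C R cv cw cu t0 r f) {z : P4} (hz : z ∈ V) :
    Phi Psi V =ᶠ[nhds (Psi z)] HasStrictFDerivAt.localInverse Psi (h.Aeq hz) z (h.strict hz) := by
  have h1 := (h.strict hz).eventually_right_inverse
  have h2 := (h.strict hz).localInverse_continuousAt
  have h3 : V ∈ nhds (HasStrictFDerivAt.localInverse Psi (h.Aeq hz) z (h.strict hz) (Psi z)) := by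
    rw [(h.strict hz).localInverse_apply_image]
    exact h.iso.isOpen.mem_nhds hz
  filter_upwards [h1, h2 h3] with y hy1 hy2
  rw [← h.Phi_left hy2, hy1]

lemma hasFDerivAt_Phi (h : PreHyp K G Psi V U C R cv cw cu t0 r f) {z : P4} (hz : z ∈ V) :
    HasFDerivAt (Phi Psi V) ((h.Aeq hz).symm : P4 →L[ℝ] P4) (Psi z) :=
  ((h.strict hz).to_localInverse.hasFDerivAt).congr_of_eventuallyEq (h.Phi_eventuallyEq hz)

lemma contDiffAt_Phi (h : PreHyp K G Psi V U C R cv cw cu t0 r f) {z : P4} (hz : z ∈ V) :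
    ContDiffAt ℝ 1 (Phi Psi V) (Psi z) := by
  have h1 : ContDiffAt ℝ 1 Psi z := (h.iso.contDiffAt hz).of_le (by norm_num)
  have h2 : HasFDerivAt Psi (h.Aeq hz : P4 →L[ℝ] P4) z := (h.strict hz).hasFDerivAt
  have h3 := h1.to_localInverse h2 (by norm_num)
  exact h3.congr_of_eventuallyEq (h.Phi_eventuallyEq hz)

/-- the vector field `DPhi e1` seen on the exotic side -/
noncomputable def Zf (Psi : P4 → P4) (V : Set P4) (z : P4) : P4 :=
  fderiv ℝ (Phi Psi V) (Psi z) e1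

lemma Zf_spec (h : PreHyp K G Psi V U C R cv cw cu t0 r f) {z : P4} (hz : z ∈ V) :
    fderiv ℝ Psi z (Zf Psi V z) = e1 := by
  rw [Zf, (h.hasFDerivAt_Phi hz).fderiv, ← h.Aeq_apply hz]
  simp

lemma DD_sub (h : PreHyp K G Psi V U C R cv cw cu t0 r f) : DD t0 r f ⊆ V := by
  rintro ⟨t, x⟩ ⟨h1, h2, h3⟩
  exact h.memV x h1 t ⟨h2.le, h3⟩

end PreHyp

namespace CoreHyp

open PreHyp

variable {K : Coef} {G : P4 → P4 →L[ℝ] P4 →L[ℝ] ℝ} {Psi : P4 → P4} {V U : Set P4}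
    {C R : ℝ} {cv cw cu : ℝ → ℝ} {t0 r : ℝ} {f : P3 → ℝ}

/-- the test function transplanted to the standard side -/
noncomputable def That (K : Coef) (Psi : P4 → P4) (V : Set P4) (t0 r : ℝ) (f : P3 → ℝ)
    (hh : P3 → ℝ) (κ : ℝ) : P4 → ℝ :=
  (Psi '' DD t0 r f).indicator (fun y => Theta K Psi hh κ (Phi Psi V y))

/-- the compact set carrying the support -/
def KK (Psi : P4 → P4) (t0 r' : ℝ) (f : P3 → ℝ) (v2 : ℝ) : Set P4 :=
  {z : P4 | ‖z.2‖ ≤ r' ∧ t0 ≤ z.1 ∧ z.1 < f z.2 ∧ (Psi z).2.1 ≤ v2}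

lemma KK_sub (h : CoreHyp K G Psi V U C R cv cw cu t0 r f) {r' v2 : ℝ} (hr' : r' < r) :
    KK Psi t0 r' f v2 ⊆ V := by
  rintro ⟨t, x⟩ ⟨h1, h2, h3, _⟩
  have hx : x ∈ Metric.ball (0 : P3) r := by
    rw [mem_ball_zero_iff]; exact lt_of_le_of_lt h1 hr'
  exact h.memV x hx t ⟨h2, h3⟩

lemma isCompact_image_KK (h : CoreHyp K G Psi V U C R cv cw cu t0 r f) {r' v2 : ℝ} (hr' : r' < r)
    (hv2 : v2 < 0) : IsCompact (Psi '' KK Psi t0 r' f v2) :=
  (h.cpt r' hr' v2 hv2).image_of_continuousOn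
    (h.iso.smooth.continuousOn.mono (h.KK_sub hr'))

lemma That_eq (h : CoreHyp K G Psi V U C R cv cw cu t0 r f) {hh : P3 → ℝ} {κ : ℝ} {z : P4}
    (hz : z ∈ DD t0 r f) : That K Psi V t0 r f hh κ (Psi z) = Theta K Psi hh κ z := by
  rw [That, indicator_of_mem (mem_image_of_mem _ hz), h.Phi_left (h.DD_sub hz)]

lemma That_zero_of (h : CoreHyp K G Psi V U C R cv cw cu t0 r f) {hh : P3 → ℝ} {κ : ℝ} {r' v2 : ℝ}
    (hhr : ∀ x, r' < ‖x‖ → hh x = 0) {y : P4} (hy : y ∉ Psi '' KK Psi t0 r' f v2)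
    (hyv : y.2.1 ≤ v2) : That K Psi V t0 r f hh κ y = 0 := by
  by_cases hD : y ∈ Psi '' DD t0 r f
  · obtain ⟨z, hz, rfl⟩ := hD
    rw [h.That_eq hz, Theta]
    have : r' < ‖z.2‖ := by
      by_contra hle
      push Not at hle
      exact hy ⟨z, ⟨hle, hz.2.1.le, hz.2.2, hyv⟩, rfl⟩
    rw [hhr _ this, zero_mul]
  · rw [That, indicator_of_notMem hD]

/-- on the slab `vlo < v < v2`, the transplanted test function is `C^1` -/
lemma contDiffAt_That (h : CoreHyp K G Psi V U C R cv cw cu t0 r f) {hh : P3 → ℝ}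
    (hhs : ContDiff ℝ 1 hh) {κ : ℝ} {r' v2 vlo : ℝ} (hr' : r' < r) (hv2 : v2 < 0)
    (hhr : ∀ x, r' < ‖x‖ → hh x = 0)
    (hvlo : ∀ x : P3, ‖x‖ ≤ r' → (Psi (t0, x)).2.1 ≤ vlo) {y : P4} (h1 : vlo < y.2.1)
    (h2 : y.2.1 < v2) : ContDiffAt ℝ 1 (That K Psi V t0 r f hh κ) y := by
  by_cases hy : y ∈ Psi '' DD t0 r f
  · obtain ⟨z, hz, rfl⟩ := hy
    have hzV := h.DD_sub hz
    have hc : ContDiffAt ℝ 1 (fun y => Theta K Psi hh κ (Phi Psi V y)) (Psi z) := by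
      have e : Phi Psi V (Psi z) = z := h.Phi_left hzV
      have := h.contDiffAt_Theta hzV hhs κ
      rw [← e] at this
      exact this.comp (Psi z) (h.contDiffAt_Phi hzV)
    apply hc.congr_of_eventuallyEq
    filter_upwards [(h.isOpen_image h.openD h.DD_sub).mem_nhds (mem_image_of_mem Psi hz)]
      with y hy
    rw [That, indicator_of_mem hy]
  · have hyK : y ∉ Psi '' KK Psi t0 r' f v2 := by
      rintro ⟨z, ⟨k1, k2, k3, k4⟩, rfl⟩
      apply hy
      refine ⟨z, ⟨?_, ?_, k3⟩, rfl⟩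
      · rw [mem_ball_zero_iff]; exact lt_of_le_of_lt k1 hr'
      · rcases lt_or_eq_of_le k2 with hlt | heq
        · exact hlt
        · exfalso
          have := hvlo z.2 k1
          rw [heq] at this
          have h3 : (Psi z).2.1 ≤ vlo := this
          linarith
    have hev : That K Psi V t0 r f hh κ =ᶠ[nhds y] fun _ => (0:ℝ) := by
      have o1 : IsOpen (Psi '' KK Psi t0 r' f v2)ᶜ := (h.isCompact_image_KK hr' hv2).isClosed.isOpen_compl
      have o2 : IsOpen {y : P4 | y.2.1 < v2} :=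
        isOpen_lt (continuous_fst.comp continuous_snd) continuous_const
      filter_upwards [o1.mem_nhds hyK, o2.mem_nhds h2] with y' k1 k2
      exact h.That_zero_of hhr k1 (le_of_lt k2)
    exact contDiffAt_const.congr_of_eventuallyEq hev

/-- outside the image of `KK` the derivative vanishes -/
lemma fderiv_That_zero (h : CoreHyp K G Psi V U C R cv cw cu t0 r f) {hh : P3 → ℝ}
    {κ : ℝ} {r' v2 : ℝ} (hr' : r' < r) (hv2 : v2 < 0)
    (hhr : ∀ x, r' < ‖x‖ → hh x = 0) {y : P4} (hy : y ∉ Psi '' KK Psi t0 r' f v2)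
    (h2 : y.2.1 < v2) : fderiv ℝ (That K Psi V t0 r f hh κ) y = 0 := by
  have hev : That K Psi V t0 r f hh κ =ᶠ[nhds y] fun _ => (0:ℝ) := by
    have o1 : IsOpen (Psi '' KK Psi t0 r' f v2)ᶜ := (h.isCompact_image_KK hr' hv2).isClosed.isOpen_compl
    have o2 : IsOpen {y : P4 | y.2.1 < v2} :=
      isOpen_lt (continuous_fst.comp continuous_snd) continuous_const
    filter_upwards [o1.mem_nhds hy, o2.mem_nhds h2] with y' k1 k2
    exact h.That_zero_of hhr k1 (le_of_lt k2)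
  rw [hev.fderiv_eq]
  simp

/-- inside the image, the derivative is computed on the exotic side -/
lemma fderiv_That (h : CoreHyp K G Psi V U C R cv cw cu t0 r f) {hh : P3 → ℝ}
    (hhs : ContDiff ℝ 1 hh) {κ : ℝ} {z : P4} (hz : z ∈ DD t0 r f) :
    fderiv ℝ (That K Psi V t0 r f hh κ) (Psi z) e1 = fderiv ℝ (Theta K Psi hh κ) z (Zf Psi V z) := by
  have hzV := h.DD_sub hz
  have hev : That K Psi V t0 r f hh κ =ᶠ[nhds (Psi z)]
      (fun y => Theta K Psi hh κ (Phi Psi V y)) := by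
    filter_upwards [(h.isOpen_image h.openD h.DD_sub).mem_nhds (mem_image_of_mem Psi hz)]
      with y hy
    rw [That, indicator_of_mem hy]
  rw [hev.fderiv_eq]
  have e : Phi Psi V (Psi z) = z := h.Phi_left hzV
  have h1 : HasFDerivAt (Theta K Psi hh κ) (fderiv ℝ (Theta K Psi hh κ) z) (Phi Psi V (Psi z)) := by
    rw [e]; exact ((h.contDiffAt_Theta hzV hhs κ).differentiableAt (by norm_num)).hasFDerivAt
  have h2 := h.hasFDerivAt_Phi hzV
  have h3 := h1.comp (Psi z) h2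
  have h4 : fderiv ℝ (fun y => Theta K Psi hh κ (Phi Psi V y)) (Psi z)
      = (fderiv ℝ (Theta K Psi hh κ) z).comp ((h.Aeq hzV).symm : P4 →L[ℝ] P4) := h3.fderiv
  rw [h4, Zf, h2.fderiv]
  rfl

end CoreHyp

end Vale.Agent.P354w
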