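import Vale.Agent.P354w.CoreHyp

set_option maxSynthPendingDepth 3

open Set MeasureTheory

namespace Vale.Agent.P354w

/-- substitution along a strictly increasing function -/
lemma subst_eq {φ φ' : ℝ → ℝ} {s : Set ℝ} (hs : MeasurableSet s) (hconn : s.OrdConnected)
    (hφ : ∀ t ∈ s, HasDerivAt φ (φ' t) t) (hpos : ∀ t ∈ s, 0 < φ' t) (F : ℝ → ENNReal) :
    ∫⁻ t in s, ENNReal.ofReal (φ' t) * F (φ t) = ∫⁻ y in φ '' s, F y := by
  have hmono : StrictMonoOn φ s := by
    apply strictMonoOn_of_deriv_pos (convex_iff_ordConnected.mpr hconn)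
    · intro t ht
      exact (hφ t ht).continuousAt.continuousWithinAt
    · intro t ht
      rw [(hφ t (interior_subset ht)).deriv]
      exact hpos t (interior_subset ht)
  rw [lintegral_image_eq_lintegral_abs_deriv_mul hs (fun t ht => (hφ t ht).hasDerivWithinAt)
    hmono.injOn]
  apply setLIntegral_congr_fun hs
  intro t ht
  simp only [abs_of_pos (hpos t ht)]

lemma subst_le {φ φ' : ℝ → ℝ} {s S : Set ℝ} (hs : MeasurableSet s) (hconn : s.OrdConnected)
    (hφ : ∀ t ∈ s, HasDerivAt φ (φ' t) t) (hpos : ∀ t ∈ s, 0 < φ' t)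
    (hmap : MapsTo φ s S) (F : ℝ → ENNReal) :
    ∫⁻ t in s, ENNReal.ofReal (φ' t) * F (φ t) ≤ ∫⁻ y in S, F y := by
  rw [subst_eq hs hconn hφ hpos]
  exact lintegral_mono_set hmap.image_subset

/-- logarithmic Gronwall in `lintegral` form. -/
lemma log_bound {q q' : ℝ → ℝ} {a b : ℝ} (hab : a ≤ b) (hq : ∀ t ∈ Icc a b, HasDerivAt q (q' t) t)
    (hq'c : ContinuousOn q' (Icc a b)) (hpos : ∀ t ∈ Icc a b, 0 < q t) {W : ℝ → ENNReal}
    (hW : ∀ t ∈ Icc a b, ENNReal.ofReal (|q' t| / q t) ≤ W t) :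
    ENNReal.ofReal |Real.log (q b) - Real.log (q a)| ≤ ∫⁻ t in Icc a b, W t := by
  have hlog : ∀ t ∈ Icc a b, HasDerivAt (fun t => Real.log (q t)) (q' t / q t) t := by
    intro t ht
    exact (hq t ht).log (hpos t ht).ne'
  have hqc : ContinuousOn q (Icc a b) := fun t ht => (hq t ht).continuousAt.continuousWithinAt
  have hcont : ContinuousOn (fun t => q' t / q t) (Icc a b) :=
    hq'c.div hqc (fun t ht => (hpos t ht).ne')
  have hint : IntervalIntegrable (fun t => q' t / q t) volume a b := by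
    apply ContinuousOn.intervalIntegrable
    rwa [uIcc_of_le hab]
  have heq := intervalIntegral.integral_eq_sub_of_hasDerivAt
    (f := fun t => Real.log (q t)) (f' := fun t => q' t / q t) (a := a) (b := b)
    (by rw [uIcc_of_le hab]; exact hlog) hint
  rw [← heq, intervalIntegral.integral_of_le hab]
  have h1 := enorm_integral_le_lintegral_enorm (μ := volume.restrict (Ioc a b))
    (fun t => q' t / q t)
  have h2 : ENNReal.ofReal |∫ t in Ioc a b, q' t / q t| = ‖∫ t in Ioc a b, q' t / q t‖ₑ := by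
    rw [← Real.norm_eq_abs, ofReal_norm]
  rw [h2]
  refine h1.trans ?_
  calc ∫⁻ t in Ioc a b, ‖q' t / q t‖ₑ ≤ ∫⁻ t in Icc a b, ‖q' t / q t‖ₑ :=
        lintegral_mono_set Ioc_subset_Icc_self
    _ ≤ ∫⁻ t in Icc a b, W t := by
      apply setLIntegral_mono' measurableSet_Icc
      intro t ht
      refine le_trans (le_of_eq ?_) (hW t ht)
      rw [← ofReal_norm, Real.norm_eq_abs, abs_div, abs_of_pos (hpos t ht)]

namespace PreHyp

variable {K : Coef} {G : P4 → P4 →L[ℝ] P4 →L[ℝ] ℝ} {Psi : P4 → P4} {V U : Set P4}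
    {C R : ℝ} {cv cw cu : ℝ → ℝ} {t0 r : ℝ} {f : P3 → ℝ}

/-- derivative of the curve `t ↦ Psi (t, x)` -/
lemma hasDerivAt_line (h : PreHyp K G Psi V U C R cv cw cu t0 r f) {t : ℝ} {x : P3}
    (hz : (t, x) ∈ V) : HasDerivAt (fun t => Psi (t, x)) (fderiv ℝ Psi (t, x) e1) t := by
  have hl : HasDerivAt (fun t : ℝ => ((t, x) : P4)) e1 t := by
    have := (hasDerivAt_id t).prodMk (hasDerivAt_const t x)
    exact this
  exact (h.iso.hasFDerivAt hz).comp_hasDerivAt t hl

lemma hasDerivAt_line2 (h : PreHyp K G Psi V U C R cv cw cu t0 r f) {t : ℝ} {x : P3}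
    (hz : (t, x) ∈ V) : HasDerivAt (fun t => fderiv ℝ Psi (t, x) e1) (Sd Psi (t, x) e1 e1) t := by
  have hl : HasDerivAt (fun t : ℝ => ((t, x) : P4)) e1 t := by
    have := (hasDerivAt_id t).prodMk (hasDerivAt_const t x)
    exact this
  have h1 := (h.iso.hasFDerivAt_fderiv hz).comp_hasDerivAt t hl
  have h2 := h1.clm_apply (hasDerivAt_const t e1)
  simpa [Sd] using h2

lemma continuousOn_Sd (h : PreHyp K G Psi V U C R cv cw cu t0 r f) (a b : P4) :
    ContinuousOn (fun z => Sd Psi z a b) V := by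
  intro z hz
  have h1 : ContDiffAt ℝ 1 (fderiv ℝ Psi) z := h.iso.contDiffAt_fderiv hz
  have h2 : ContDiffAt ℝ 0 (fderiv ℝ (fderiv ℝ Psi)) z := h1.fderiv_right (by norm_num)
  have h3 : ContinuousAt (fderiv ℝ (fderiv ℝ Psi)) z := h2.continuousAt
  have h4 : ContinuousAt (fun z => fderiv ℝ (fderiv ℝ Psi) z a b) z :=
    (h3.clm_apply continuousAt_const).clm_apply continuousAt_const
  exact h4.continuousWithinAt

/-- Along an exotic vertical line with integrable `|DG|`, the frame components stay bounded. -/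
lemma line_bound (h : PreHyp K G Psi V U C R cv cw cu t0 r f) {x : P3}
    (hx : x ∈ Metric.ball (0 : P3) r)
    (hn : ∫⁻ t in Ico t0 (f x), ‖fderiv ℝ G (t, x)‖ₑ ≠ ⊤) :
    ∃ M : ℝ, ∀ t ∈ Ico t0 (f x),
      |Real.log (fderiv ℝ Psi (t, x) e1).2.1 - Real.log (fderiv ℝ Psi (t0, x) e1).2.1| ≤ M ∧
      |Real.log (fderiv ℝ Psi (t, x) e1).2.2.1 - Real.log (fderiv ℝ Psi (t0, x) e1).2.2.1| ≤ M := by
  classical
  have hC : 1 ≤ C := by
    have : (t0, x) ∈ V := h.memV x hx t0 ⟨le_refl _, h.t0f x hx⟩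
    exact (h.pt this).bd.one_le
  set n := ∫⁻ t in Ico t0 (f x), ‖fderiv ℝ G (t, x)‖ₑ with hndef
  set Iv := ∫⁻ v in Ico (-R) 0, ENNReal.ofReal (cv v) with hIv
  set Iu := ∫⁻ u in Icc (-R) R, ENNReal.ofReal (cu u) with hIu
  set Iw := ∫⁻ v in Ico (-R) 0, ENNReal.ofReal (cw v) with hIw
  set T : ENNReal := ENNReal.ofReal (100 * C ^ 5) * (n + Iv + Iw + Iu + volume (Icc (-R) R)
    + volume (Ico (-R) (0:ℝ))) with hT
  have hTfin : T ≠ ⊤ := by
    apply ENNReal.mul_ne_top ENNReal.ofReal_ne_top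
    have hvol1 : volume (Icc (-R) R) ≠ ⊤ := by simp [Real.volume_Icc]
    have hvol2 : volume (Ico (-R) (0:ℝ)) ≠ ⊤ := by simp [Real.volume_Ico]
    exact ENNReal.add_ne_top.mpr ⟨ENNReal.add_ne_top.mpr ⟨ENNReal.add_ne_top.mpr
      ⟨ENNReal.add_ne_top.mpr ⟨ENNReal.add_ne_top.mpr ⟨hn, h.cv_int⟩, h.cw_int⟩, h.cu_int⟩,
      hvol1⟩, hvol2⟩
  refine ⟨T.toReal, fun t ht => ?_⟩
  have hsub : ∀ s ∈ Icc t0 t, (s, x) ∈ V := fun s hs =>
    h.memV x hx s ⟨hs.1, lt_of_le_of_lt hs.2 ht.2⟩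
  have hline : ContinuousOn (fun s : ℝ => ((s, x) : P4)) (Icc t0 t) := by fun_prop
  have hmapsV : MapsTo (fun s : ℝ => ((s, x) : P4)) (Icc t0 t) V := hsub
  -- the common majorant
  set W : ℝ → ENNReal := fun s => ENNReal.ofReal (100 * C ^ 5) * (‖fderiv ℝ G (s, x)‖ₑ
    + ENNReal.ofReal (fderiv ℝ Psi (s, x) e1).2.1 * ENNReal.ofReal (cv (Psi (s, x)).2.1)
    + ENNReal.ofReal (fderiv ℝ Psi (s, x) e1).2.1 * ENNReal.ofReal (cw (Psi (s, x)).2.1)
    + ENNReal.ofReal (fderiv ℝ Psi (s, x) e1).2.2.1 * ENNReal.ofReal (cu (Psi (s, x)).2.2.1)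
    + ENNReal.ofReal (fderiv ℝ Psi (s, x) e1).2.2.1 * 1
    + ENNReal.ofReal (fderiv ℝ Psi (s, x) e1).2.1 * 1) with hWdef
  have hv : ∀ s ∈ Icc t0 t, HasDerivAt (fun s => (Psi (s, x)).2.1) (fderiv ℝ Psi (s, x) e1).2.1 s :=
    fun s hs => (h.hasDerivAt_line (hsub s hs)).snd.fst
  have hu : ∀ s ∈ Icc t0 t, HasDerivAt (fun s => (Psi (s, x)).2.2.1)
      (fderiv ℝ Psi (s, x) e1).2.2.1 s :=
    fun s hs => (h.hasDerivAt_line (hsub s hs)).snd.snd.fst
  have hposv : ∀ s ∈ Icc t0 t, 0 < (fderiv ℝ Psi (s, x) e1).2.1 := fun s hs => h.pos _ (hsub s hs)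
  have hposu : ∀ s ∈ Icc t0 t, 0 < (fderiv ℝ Psi (s, x) e1).2.2.1 :=
    fun s hs => (h.pt (hsub s hs)).sq_le.2.1
  have hmv : MapsTo (fun s => (Psi (s, x)).2.1) (Icc t0 t) (Ico (-R) 0) := by
    intro s hs
    obtain ⟨_, h1, h2, _, _⟩ := h.U_sub _ (h.maps (hsub s hs))
    exact ⟨h1, h2⟩
  have hmu : MapsTo (fun s => (Psi (s, x)).2.2.1) (Icc t0 t) (Icc (-R) R) := by
    intro s hs
    obtain ⟨_, _, _, h3, _⟩ := h.U_sub _ (h.maps (hsub s hs))
    exact abs_le.mp h3
  have i1 : ∫⁻ s in Icc t0 t, ‖fderiv ℝ G (s, x)‖ₑ ≤ n := by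
    apply lintegral_mono_set
    intro s hs
    exact ⟨hs.1, lt_of_le_of_lt hs.2 ht.2⟩
  have i2 := subst_le (φ := fun s => (Psi (s, x)).2.1) measurableSet_Icc ordConnected_Icc hv hposv
    hmv (fun v => ENNReal.ofReal (cv v))
  have i2w := subst_le (φ := fun s => (Psi (s, x)).2.1) measurableSet_Icc ordConnected_Icc hv hposv
    hmv (fun v => ENNReal.ofReal (cw v))
  have i3 := subst_le (φ := fun s => (Psi (s, x)).2.2.1) measurableSet_Icc ordConnected_Icc hu
    hposu hmu (fun v => ENNReal.ofReal (cu v))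
  have i4 := subst_le (φ := fun s => (Psi (s, x)).2.2.1) measurableSet_Icc ordConnected_Icc hu
    hposu hmu (fun v => (1 : ENNReal))
  have i5 := subst_le (φ := fun s => (Psi (s, x)).2.1) measurableSet_Icc ordConnected_Icc hv hposv
    hmv (fun v => (1 : ENNReal))
  simp only [lintegral_const, one_mul, Measure.restrict_apply MeasurableSet.univ, univ_inter]
    at i4 i5
  have hcontb : ContinuousOn (fun s : ℝ => (fderiv ℝ Psi (s, x) e1).2.1) (Icc t0 t) := by
    intro s hs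
    exact ((h.hasDerivAt_line2 (hsub s hs)).continuousAt.snd.fst).continuousWithinAt
  have hconta : ContinuousOn (fun s : ℝ => (fderiv ℝ Psi (s, x) e1).2.2.1) (Icc t0 t) := by
    intro s hs
    exact ((h.hasDerivAt_line2 (hsub s hs)).continuousAt.snd.snd.fst).continuousWithinAt
  have hPsi : ContinuousOn (fun s : ℝ => Psi (s, x)) (Icc t0 t) := by
    intro s hs
    exact (h.hasDerivAt_line (hsub s hs)).continuousAt.continuousWithinAt
  have hmeasline : Measurable (fun s : ℝ => ((s, x) : P4)) := by fun_prop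
  have m1 : AEMeasurable (fun s : ℝ => ‖fderiv ℝ G (s, x)‖ₑ) (volume.restrict (Icc t0 t)) :=
    ((measurable_fderiv ℝ G).comp hmeasline).enorm.aemeasurable
  have m2 : AEMeasurable (fun s : ℝ => ENNReal.ofReal (fderiv ℝ Psi (s, x) e1).2.1)
      (volume.restrict (Icc t0 t)) :=
    (hcontb.aemeasurable measurableSet_Icc).ennreal_ofReal
  have m3 : AEMeasurable (fun s : ℝ => ENNReal.ofReal (fderiv ℝ Psi (s, x) e1).2.2.1)
      (volume.restrict (Icc t0 t)) :=
    (hconta.aemeasurable measurableSet_Icc).ennreal_ofReal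
  have mP : AEMeasurable (fun s : ℝ => Psi (s, x)) (volume.restrict (Icc t0 t)) :=
    hPsi.aemeasurable measurableSet_Icc
  have m4 : AEMeasurable (fun s : ℝ => ENNReal.ofReal (cv (Psi (s, x)).2.1))
      (volume.restrict (Icc t0 t)) :=
    (h.cv_meas.comp_aemeasurable mP.snd.fst).ennreal_ofReal
  have m4w : AEMeasurable (fun s : ℝ => ENNReal.ofReal (cw (Psi (s, x)).2.1))
      (volume.restrict (Icc t0 t)) :=
    (h.cw_meas.comp_aemeasurable mP.snd.fst).ennreal_ofReal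
  have m5 : AEMeasurable (fun s : ℝ => ENNReal.ofReal (cu (Psi (s, x)).2.2.1))
      (volume.restrict (Icc t0 t)) :=
    (h.cu_meas.comp_aemeasurable mP.snd.snd.fst).ennreal_ofReal
  have hWle : ∫⁻ s in Icc t0 t, W s ≤ T := by
    rw [hWdef, hT]
    rw [lintegral_const_mul'' _ (by
      exact (((((m1.add (m2.mul m4)).add (m2.mul m4w)).add (m3.mul m5)).add
        (m3.mul aemeasurable_const)).add (m2.mul aemeasurable_const)))]
    gcongr
    rw [lintegral_add_left' (by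
      exact ((((m1.add (m2.mul m4)).add (m2.mul m4w)).add (m3.mul m5)).add
        (m3.mul aemeasurable_const)))]
    rw [lintegral_add_left' (by exact (((m1.add (m2.mul m4)).add (m2.mul m4w)).add (m3.mul m5)))]
    rw [lintegral_add_left' (by exact ((m1.add (m2.mul m4)).add (m2.mul m4w)))]
    rw [lintegral_add_left' (by exact (m1.add (m2.mul m4)))]
    rw [lintegral_add_left' m1]
    gcongr
  have hC5 : 0 ≤ C ^ 5 := by positivity
  have key : ∀ s ∈ Icc t0 t, ∀ q' q : ℝ, 0 < q → |q'| ≤ 100 * C ^ 5 * (q * (‖fderiv ℝ G (s, x)‖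
      + cv (Psi (s, x)).2.1 * (fderiv ℝ Psi (s, x) e1).2.1
      + cw (Psi (s, x)).2.1 * (fderiv ℝ Psi (s, x) e1).2.1
      + cu (Psi (s, x)).2.2.1 * (fderiv ℝ Psi (s, x) e1).2.2.1
      + (fderiv ℝ Psi (s, x) e1).2.2.1 + (fderiv ℝ Psi (s, x) e1).2.1)) →
      ENNReal.ofReal (|q'| / q) ≤ W s := by
    intro s hs q' q hq hle
    have hb := hposv s hs
    have ha := hposu s hs
    have hcv := (h.pt (hsub s hs)).bd.cv0
    have hcw := (h.pt (hsub s hs)).bd.cw0
    have hcu := (h.pt (hsub s hs)).bd.cu0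
    have h1 : |q'| / q ≤ 100 * C ^ 5 * (‖fderiv ℝ G (s, x)‖
      + cv (Psi (s, x)).2.1 * (fderiv ℝ Psi (s, x) e1).2.1
      + cw (Psi (s, x)).2.1 * (fderiv ℝ Psi (s, x) e1).2.1
      + cu (Psi (s, x)).2.2.1 * (fderiv ℝ Psi (s, x) e1).2.2.1
      + (fderiv ℝ Psi (s, x) e1).2.2.1 + (fderiv ℝ Psi (s, x) e1).2.1) := by
      rw [div_le_iff₀ hq]
      linarith
    refine (ENNReal.ofReal_le_ofReal h1).trans ?_
    rw [hWdef]
    simp only [mul_one]
    rw [ENNReal.ofReal_mul (by positivity), ENNReal.ofReal_add (by positivity) hb.le,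
      ENNReal.ofReal_add (by positivity) ha.le, ENNReal.ofReal_add (by positivity) (by positivity),
      ENNReal.ofReal_add (by positivity) (by positivity),
      ENNReal.ofReal_add (by positivity) (by positivity), ENNReal.ofReal_mul hcv,
      ENNReal.ofReal_mul hcw, ENNReal.ofReal_mul hcu, ofReal_norm,
      mul_comm (ENNReal.ofReal (cv _)), mul_comm (ENNReal.ofReal (cw _)),
      mul_comm (ENNReal.ofReal (cu _))]
  have hsdc : ContinuousOn (fun s : ℝ => Sd Psi (s, x) e1 e1) (Icc t0 t) :=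
    (h.continuousOn_Sd e1 e1).comp hline hmapsV
  constructor
  · have h1 := log_bound (q := fun s => (fderiv ℝ Psi (s, x) e1).2.1)
      (q' := fun s => (Sd Psi (s, x) e1 e1).2.1) (W := W) ht.1
      (fun s hs => (h.hasDerivAt_line2 (hsub s hs)).snd.fst)
      (hsdc.snd.fst) hposv (by
        intro s hs
        obtain ⟨N, hN⟩ := h.exists_pre (hsub s hs) (e3 K (Psi (s, x)))
        have h2 := (h.pt (hsub s hs)).Sv_TT hN
        refine key s hs _ _ (hposv s hs) (h2.trans ?_)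
        have hb := hposv s hs
        have ha := hposu s hs
        have hcv := (h.pt (hsub s hs)).bd.cv0
        have : (0:ℝ) ≤ C ^ 5 * ((fderiv ℝ Psi (s, x) e1).2.1 *
          (cv (Psi (s, x)).2.1 * (fderiv ℝ Psi (s, x) e1).2.1)) := by positivity
        linarith)
    have h2 := h1.trans hWle
    rwa [ENNReal.ofReal_le_iff_le_toReal hTfin] at h2
  · have h1 := log_bound (q := fun s => (fderiv ℝ Psi (s, x) e1).2.2.1)
      (q' := fun s => (Sd Psi (s, x) e1 e1).2.2.1) (W := W) ht.1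
      (fun s hs => (h.hasDerivAt_line2 (hsub s hs)).snd.snd.fst)
      (hsdc.snd.snd.fst) hposu (by
        intro s hs
        obtain ⟨N, hN⟩ := h.exists_pre (hsub s hs) (e4 K (Psi (s, x)))
        have h2 := (h.pt (hsub s hs)).Su_TT hN
        refine key s hs _ _ (hposu s hs) (h2.trans ?_)
        have hb := hposv s hs
        have ha := hposu s hs
        have hcw := (h.pt (hsub s hs)).bd.cw0
        have : (0:ℝ) ≤ C ^ 5 * ((fderiv ℝ Psi (s, x) e1).2.2.1 *
          (cw (Psi (s, x)).2.1 * (fderiv ℝ Psi (s, x) e1).2.1)) := by positivity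
        linarith)
    have h2 := h1.trans hWle
    rwa [ENNReal.ofReal_le_iff_le_toReal hTfin] at h2

end PreHyp

end Vale.Agent.P354w
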