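import Vale.Agent.P354w.Bad

set_option maxSynthPendingDepth 3

open Set MeasureTheory Filter

namespace Vale.Agent.P354w

/-- the main term -/
noncomputable def gMain (K : Coef) (Psi : P4 → P4) (hh : P3 → ℝ) (κ : ℝ) (k : ℝ → ℝ) (z : P4) : ℝ :=
  |(fderiv ℝ Psi z).det| * (k (Psi z).2.1 * ((1/2) * (fderiv ℝ Psi z e1).2.1
        * fderiv ℝ K.g11 (Psi z) (e4 K (Psi z)) * (hh z.2 * (eta ((fderiv ℝ Psi z e1).2.1 / κ)
          * eta ((fderiv ℝ Psi z e1).2.2.1 / κ)))))

namespace CoreHyp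

open PreHyp

variable {K : Coef} {G : P4 → P4 →L[ℝ] P4 →L[ℝ] ℝ} {Psi : P4 → P4} {V U : Set P4}
    {C R : ℝ} {cv cw cu : ℝ → ℝ} {t0 r : ℝ} {f : P3 → ℝ}

lemma aem_gMain (h : CoreHyp K G Psi V U C R cv cw cu t0 r f) {hh : P3 → ℝ} (hhs : ContDiff ℝ 1 hh)
    (κ : ℝ) {k : ℝ → ℝ} (hk : Measurable k) :
    AEStronglyMeasurable (gMain K Psi hh κ k) (volume.restrict (DD t0 r f)) := by
  have he : Measurable eta := (eta_contDiff (n := 0) (by norm_num)).continuous.measurable
  have hg : AEMeasurable (fun z => fderiv ℝ K.g11 (Psi z) (e4 K (Psi z)))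
      (volume.restrict (DD t0 r f)) := by
    have e : (fun z => fderiv ℝ K.g11 (Psi z) (e4 K (Psi z))) = fun z =>
        K.s1 (Psi z) * fderiv ℝ K.g11 (Psi z) e1 + 1 * fderiv ℝ K.g11 (Psi z) ev
          + 0 * fderiv ℝ K.g11 (Psi z) eu + K.s2 (Psi z) * fderiv ℝ K.g11 (Psi z) e2 := by
      funext z
      exact clm_decomp (fderiv ℝ K.g11 (Psi z)) (e4 K (Psi z))
    rw [e]
    have q : ∀ a : P4, AEMeasurable (fun z => fderiv ℝ K.g11 (Psi z) a)
        (volume.restrict (DD t0 r f)) := fun a =>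
      (measurable_fderiv_apply_const ℝ K.g11 a).comp_aemeasurable h.aem_Psi
    have hmaps : MapsTo Psi (DD t0 r f) U := fun z hz => h.maps (h.DD_sub hz)
    have hcP : ContinuousOn Psi (DD t0 r f) := h.iso.smooth.continuousOn.mono h.DD_sub
    have q1 : AEMeasurable (fun z => K.s1 (Psi z)) (volume.restrict (DD t0 r f)) :=
      ContinuousOn.aemeasurable (h.smoothK.s1.continuousOn.comp hcP hmaps) h.measDD
    have q2 : AEMeasurable (fun z => K.s2 (Psi z)) (volume.restrict (DD t0 r f)) :=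
      ContinuousOn.aemeasurable (h.smoothK.s2.continuousOn.comp hcP hmaps) h.measDD
    exact (((q1.mul (q e1)).add ((q ev).const_mul 1)).add ((q eu).const_mul 0)).add
      (q2.mul (q e2))
  have hz2 : Measurable (fun z : P4 => hh z.2) := hhs.continuous.measurable.comp measurable_snd
  apply AEMeasurable.aestronglyMeasurable
  apply h.aem_det.mul
  apply (hk.comp_aemeasurable h.aem_Psi.snd.fst).mul
  apply ((h.aem_b.const_mul (1/2)).mul hg).mul
  apply (hz2.aemeasurable).mul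
  exact (he.comp_aemeasurable (h.aem_b.div_const κ)).mul
    (he.comp_aemeasurable (h.aem_a.div_const κ))

lemma main_ineq (h : CoreHyp K G Psi V U C R cv cw cu t0 r f) {S : Set ℝ} {δ : ℝ} (hδ : 0 < δ)
    {σ : ℝ} (hσ : |σ| = 1)
    (hlow : ∀ y ∈ U, y.2.1 ∈ S → δ * cv y.2.1 ≤ σ * fderiv ℝ K.g11 y (e4 K y))
    {hh : P3 → ℝ} (hhs : ContDiff ℝ 1 hh)
    (hh0 : ∀ x, 0 ≤ hh x) (hh1 : ∀ x, hh x ≤ 1) {hb : ℝ} (hhb : ∀ x, ‖fderiv ℝ hh x‖ ≤ hb)
    (hh_in : ∀ x, ‖x‖ ≤ r / 4 → hh x = 1) (hh_out : ∀ x, r / 2 < ‖x‖ → hh x = 0)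
    {B : ℝ} (hB : 1 ≤ B) (hBeta : ∀ s, |deriv eta s| ≤ B) {κ : ℝ} (hκ : 1 ≤ κ)
    {v1 v2 vlo : ℝ} (hv2 : v2 < 0) (hlo : vlo < v1)
    (hvlo : ∀ x : P3, ‖x‖ ≤ r / 2 → (Psi (t0, x)).2.1 ≤ vlo)
    {k : ℝ → ℝ} (hk : Measurable k) (hk0 : ∀ v, 0 ≤ k v) {m : ℝ} (hkm : ∀ v, k v ≤ m)
    (hks : ∀ v, v ∉ S ∩ Icc v1 v2 → k v = 0) :
    ENNReal.ofReal (δ / (2 * C)) * (volume (Metric.closedBall (0:P3) (r/4) \ NN Psi t0 r f κ)
        * ∫⁻ v, ENNReal.ofReal (k v * cv v)) ≤
      ENNReal.ofReal (8 * C ^ 5 * B) * (volume (Metric.closedBall (0:P3) (r/2) ∩ NN Psi t0 r f κ)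
        * ∫⁻ v, ENNReal.ofReal (k v * cv v))
      + ENNReal.ofReal (C * Ck C B hb κ) * ∫⁻ z in DD t0 r f, ENNReal.ofReal (k (Psi z).2.1)
        * (1 + ENNReal.ofReal (cu (Psi z).2.2.1) + ‖fderiv ℝ G z‖ₑ) := by
  have hr := h.r_pos
  have hC : 1 ≤ C := by
    have : ((t0, 0) : P4) ∈ V := h.memV 0 (by simpa only [Metric.mem_ball, dist_self] using hr) t0
      ⟨le_refl _, h.t0f 0 (by simpa only [Metric.mem_ball, dist_self] using hr)⟩
    exact (h.pt this).bd.one_le
  have hC0 : 0 < C := by linarith only [hC]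
  have hhb0 : 0 ≤ hb := (norm_nonneg _).trans (hhb 0)
  have hCk : 0 ≤ Ck C B hb κ := by unfold Ck; (clear * - hB hκ hC hhb0; positivity)
  have hκ0 : 0 < κ := by linarith only [hκ]
  set q : ℝ → ENNReal := fun v => ENNReal.ofReal (k v * cv v) with hq
  have hqm : Measurable q := (hk.mul h.cv_meas).ennreal_ofReal
  have hks' : ∀ v, v ∉ Icc v1 v2 → k v = 0 := fun v hv => hks v fun h2 => hv h2.2
  have hq0 : ∀ v, v ∉ Icc v1 v2 → q v = 0 := by
    intro v hv
    rw [hq]
    simp [hks' v hv]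
  set A1 : Set P3 := Metric.closedBall (0:P3) (r/4) \ NN Psi t0 r f κ with hA1
  set A2 : Set P3 := Metric.closedBall (0:P3) (r/2) ∩ NN Psi t0 r f κ with hA2
  have hA1m : MeasurableSet A1 := Metric.isClosed_closedBall.measurableSet.diff
    h.isOpen_NN.measurableSet
  have hA2m : MeasurableSet A2 := Metric.isClosed_closedBall.measurableSet.inter
    h.isOpen_NN.measurableSet
  have hA1r : ∀ x ∈ A1, ‖x‖ ≤ r/2 := by
    intro x hx
    have := hx.1
    rw [mem_closedBall_zero_iff] at this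
    linarith only [hr, this]
  have hA2r : ∀ x ∈ A2, ‖x‖ ≤ r/2 := by
    intro x hx
    have := hx.1
    rwa [mem_closedBall_zero_iff] at this
  have hr2 : r / 2 < r := by linarith only [hr]
  have T1 := h.tonelli_eq hqm hr2 hv2 hlo hvlo hq0 hA1m hA1r
  have T2 := h.tonelli_eq hqm hr2 hv2 hlo hvlo hq0 hA2m hA2r
  rw [← T1, ← T2]
  obtain ⟨hXi, hX0⟩ := h.integral_id hhs κ hr2 hv2 hlo hh_out hvlo hk
    (fun v => by rw [abs_of_nonneg (hk0 v)]; exact hkm v) hks'
  -- lower bound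
  have low : ENNReal.ofReal (δ / (2 * C)) * ∫⁻ z in DD t0 r f,
      A1.indicator (fun _ => (1:ENNReal)) z.2 *
      (ENNReal.ofReal (fderiv ℝ Psi z e1).2.1 * q (Psi z).2.1) ≤
      ∫⁻ z in DD t0 r f, ENNReal.ofReal (σ * gMain K Psi hh κ k z) := by
    rw [← lintegral_const_mul' _ _ ENNReal.ofReal_ne_top]
    apply setLIntegral_mono' h.measDD
    intro z hz
    have hzV := h.DD_sub hz
    have hbp : 0 < (fderiv ℝ Psi z e1).2.1 := h.pos z hzV
    by_cases hzA : z.2 ∈ A1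
    · rw [indicator_of_mem hzA, one_mul, hq]
      simp only
      rw [← ENNReal.ofReal_mul hbp.le, ← ENNReal.ofReal_mul (by (clear * - hδ hC; positivity))]
      apply ENNReal.ofReal_le_ofReal
      obtain ⟨n1, n2⟩ := not_NN hz hzA.2
      have e1' : eta ((fderiv ℝ Psi z e1).2.1 / κ) = 1 := by
        apply eta_one
        rw [div_le_one hκ0]; linarith only [hbp, n1]
      have e2' : eta ((fderiv ℝ Psi z e1).2.2.1 / κ) = 1 := by
        apply eta_one
        rw [div_le_one hκ0]; linarith only [hbp, n1, n2]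
      have e3' : hh z.2 = 1 := by
        apply hh_in
        have := hzA.1
        rwa [mem_closedBall_zero_iff] at this
      rw [gMain, e1', e2', e3']
      have hkk : k (Psi z).2.1 * (δ * cv (Psi z).2.1)
          ≤ k (Psi z).2.1 * (σ * fderiv ℝ K.g11 (Psi z) (e4 K (Psi z))) := by
        by_cases hs : (Psi z).2.1 ∈ S ∩ Icc v1 v2
        · exact mul_le_mul_of_nonneg_left (hlow _ (h.maps hzV) hs.1) (hk0 _)
        · rw [hks _ hs, zero_mul, zero_mul]
      have hdet : 1 / C ≤ |(fderiv ℝ Psi z).det| := by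
        rw [div_le_iff₀ hC0, mul_comm]
        exact h.det_lo z hzV
      have hnn : 0 ≤ k (Psi z).2.1 * (δ * cv (Psi z).2.1) :=
        mul_nonneg (hk0 _) (mul_nonneg hδ.le (h.pt hzV).bd.cv0)
      calc δ / (2 * C) * ((fderiv ℝ Psi z e1).2.1 * (k (Psi z).2.1 * cv (Psi z).2.1))
          = (1 / C) * ((1/2) * (fderiv ℝ Psi z e1).2.1 * (k (Psi z).2.1 * (δ * cv (Psi z).2.1))) := by
            field_simp
        _ ≤ |(fderiv ℝ Psi z).det| * ((1/2) * (fderiv ℝ Psi z e1).2.1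
            * (k (Psi z).2.1 * (σ * fderiv ℝ K.g11 (Psi z) (e4 K (Psi z))))) := by
            apply mul_le_mul hdet _ (by (clear * - hbp hnn; positivity)) (abs_nonneg _)
            apply mul_le_mul_of_nonneg_left hkk (by (clear * - hbp; positivity))
        _ = _ := by ring
    · rw [indicator_of_notMem hzA, zero_mul, mul_zero]
      exact bot_le
  -- the integral inequality
  have mid : ∫⁻ z in DD t0 r f, ENNReal.ofReal (σ * gMain K Psi hh κ k z) ≤
      ∫⁻ z in DD t0 r f, (ENNReal.ofReal (8 * C ^ 5 * B) *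
        (A2.indicator (fun _ => (1:ENNReal)) z.2 *
        (ENNReal.ofReal (fderiv ℝ Psi z e1).2.1 * q (Psi z).2.1))
      + ENNReal.ofReal (C * Ck C B hb κ) * (ENNReal.ofReal (k (Psi z).2.1)
        * (1 + ENNReal.ofReal (cu (Psi z).2.2.1) + ‖fderiv ℝ G z‖ₑ))) := by
    have hXi' := hXi.const_mul σ
    have hX0' : ∫ z in DD t0 r f, σ * (|(fderiv ℝ Psi z).det| * (k (Psi z).2.1 *
        fderiv ℝ (Theta K Psi hh κ) z (Zf Psi V z))) = 0 := by
      rw [integral_const_mul, hX0, mul_zero]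
    refine lintegral_le_of_integral_zero hXi' hX0' ((h.aem_gMain hhs κ hk).const_mul σ) ?_ ?_
    · rw [ae_restrict_iff' h.measDD]
      apply ae_of_all
      intro z hz
      have hzV := h.DD_sub hz
      have hbp : 0 < (fderiv ℝ Psi z e1).2.1 := h.pos z hzV
      rw [gMain]
      have hkk : 0 ≤ k (Psi z).2.1 * (σ * fderiv ℝ K.g11 (Psi z) (e4 K (Psi z))) := by
        by_cases hs : (Psi z).2.1 ∈ S ∩ Icc v1 v2
        · exact mul_nonneg (hk0 _) (le_trans (mul_nonneg hδ.le (h.pt hzV).bd.cv0)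
            (hlow _ (h.maps hzV) hs.1))
        · rw [hks _ hs, zero_mul]
      have e : σ * (|(fderiv ℝ Psi z).det| * (k (Psi z).2.1 * ((1/2) * (fderiv ℝ Psi z e1).2.1
        * fderiv ℝ K.g11 (Psi z) (e4 K (Psi z)) * (hh z.2 * (eta ((fderiv ℝ Psi z e1).2.1 / κ)
          * eta ((fderiv ℝ Psi z e1).2.2.1 / κ))))))
          = |(fderiv ℝ Psi z).det| * ((k (Psi z).2.1 * (σ * fderiv ℝ K.g11 (Psi z) (e4 K (Psi z)))) * ((1/2)
          * (fderiv ℝ Psi z e1).2.1 * (hh z.2 * (eta ((fderiv ℝ Psi z e1).2.1 / κ)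
          * eta ((fderiv ℝ Psi z e1).2.2.1 / κ))))) := by ring
      rw [e]
      have e1' := eta_nonneg ((fderiv ℝ Psi z e1).2.1 / κ)
      have e2' := eta_nonneg ((fderiv ℝ Psi z e1).2.2.1 / κ)
      have e3' := hh0 z.2
      (clear * - hbp hkk e1' e2' e3'; positivity)
    · rw [ae_restrict_iff' h.measDD]
      apply ae_of_all
      intro z hz
      have hzV := h.DD_sub hz
      have hbp : 0 < (fderiv ℝ Psi z e1).2.1 := h.pos z hzV
      have hPE := h.pointwise hhs hh0 hh1 hhb hB hBeta hκ hzV (h.Zf_spec hzV)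
      have hcv := (h.pt hzV).bd.cv0
      have hcu := (h.pt hzV).bd.cu0
      have hd := h.det_hi z hzV
      have hd0 := abs_nonneg (fderiv ℝ Psi z).det
      have hkz := hk0 (Psi z).2.1
      have heb0 := eta_nonneg ((fderiv ℝ Psi z e1).2.1 / κ)
      have heb1 := eta_le_one ((fderiv ℝ Psi z e1).2.1 / κ)
      have hL := norm_nonneg (fderiv ℝ G z)
      rw [gMain]
      have e : σ * (|(fderiv ℝ Psi z).det| * (k (Psi z).2.1 *
            fderiv ℝ (Theta K Psi hh κ) z (Zf Psi V z))) +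
          σ * (|(fderiv ℝ Psi z).det| * (k (Psi z).2.1 * ((1/2) * (fderiv ℝ Psi z e1).2.1
            * fderiv ℝ K.g11 (Psi z) (e4 K (Psi z)) * (hh z.2 * (eta ((fderiv ℝ Psi z e1).2.1 / κ)
              * eta ((fderiv ℝ Psi z e1).2.2.1 / κ))))))
          = σ * (|(fderiv ℝ Psi z).det| * (k (Psi z).2.1 * (fderiv ℝ (Theta K Psi hh κ) z
            (Zf Psi V z) + (1/2) * (fderiv ℝ Psi z e1).2.1
            * fderiv ℝ K.g11 (Psi z) (e4 K (Psi z)) * (hh z.2 * (eta ((fderiv ℝ Psi z e1).2.1 / κ)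
              * eta ((fderiv ℝ Psi z e1).2.2.1 / κ)))))) := by ring
      rw [e, ← ofReal_norm, Real.norm_eq_abs, abs_mul, hσ, one_mul, abs_mul, abs_abs, abs_mul,
        abs_of_nonneg hkz]
      -- the indicator estimate
      have hind : ENNReal.ofReal ((hh z.2 * eta ((fderiv ℝ Psi z e1).2.1 / κ))
        * (if κ ≤ (fderiv ℝ Psi z e1).2.2.1 then 1 else 0))
          ≤ A2.indicator (fun _ => (1:ENNReal)) z.2 := by
        by_cases hzA : z.2 ∈ A2
        · rw [indicator_of_mem hzA, ← ENNReal.ofReal_one]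
          apply ENNReal.ofReal_le_ofReal
          have hif : (if κ ≤ (fderiv ℝ Psi z e1).2.2.1 then (1:ℝ) else 0) ≤ 1 := by
            split_ifs <;> norm_num
          have hif0 : (0:ℝ) ≤ (if κ ≤ (fderiv ℝ Psi z e1).2.2.1 then (1:ℝ) else 0) := by
            split_ifs <;> norm_num
          have : hh z.2 * eta ((fderiv ℝ Psi z e1).2.1 / κ) ≤ 1 :=
            mul_le_one₀ (hh1 z.2) heb0 heb1
          exact mul_le_one₀ this hif0 hif
        · rw [indicator_of_notMem hzA]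
          have : (hh z.2 * eta ((fderiv ℝ Psi z e1).2.1 / κ))
              * (if κ ≤ (fderiv ℝ Psi z e1).2.2.1 then (1:ℝ) else 0) = 0 := by
            by_cases hn : ‖z.2‖ ≤ r / 2
            · have hNN : z.2 ∉ NN Psi t0 r f κ := by
                intro hmem
                exact hzA ⟨by rwa [mem_closedBall_zero_iff], hmem⟩
              obtain ⟨_, n2⟩ := not_NN hz hNN
              have : ¬ κ ≤ (fderiv ℝ Psi z e1).2.2.1 := by
                intro hle
                linarith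
              rw [if_neg this, mul_zero]
            · push Not at hn
              rw [hh_out _ hn, zero_mul, zero_mul]
          rw [this, ENNReal.ofReal_zero]
      set I : ℝ := (if κ ≤ (fderiv ℝ Psi z e1).2.2.1 then (1:ℝ) else 0) with hI
      have hI0 : 0 ≤ I := by rw [hI]; split_ifs <;> norm_num
      have step : |(fderiv ℝ Psi z).det| * (k (Psi z).2.1 *
          |fderiv ℝ (Theta K Psi hh κ) z (Zf Psi V z)
            + (1/2) * (fderiv ℝ Psi z e1).2.1
            * fderiv ℝ K.g11 (Psi z) (e4 K (Psi z)) * (hh z.2 * (eta ((fderiv ℝ Psi z e1).2.1 / κ)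
              * eta ((fderiv ℝ Psi z e1).2.2.1 / κ)))|) ≤
          8 * C ^ 5 * B * (((hh z.2 * eta ((fderiv ℝ Psi z e1).2.1 / κ)) * I) *
            ((fderiv ℝ Psi z e1).2.1 * (k (Psi z).2.1 * cv (Psi z).2.1)))
          + C * Ck C B hb κ * (k (Psi z).2.1 * (1 + cu (Psi z).2.2.1 + ‖fderiv ℝ G z‖)) := by
        calc _ ≤ C * (k (Psi z).2.1 * (8 * C ^ 4 * B * (cv (Psi z).2.1 * (fderiv ℝ Psi z e1).2.1
        * (hh z.2 * eta ((fderiv ℝ Psi z e1).2.1 / κ)) * I)
              + Ck C B hb κ * (1 + cu (Psi z).2.2.1 + ‖fderiv ℝ G z‖))) := by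
              apply mul_le_mul hd _ (by (clear * - hkz; positivity)) hC0.le
              exact mul_le_mul_of_nonneg_left hPE hkz
          _ = _ := by ring
      refine (ENNReal.ofReal_le_ofReal step).trans ?_
      have hhz := hh0 z.2
      rw [ENNReal.ofReal_add (by (clear * - hB hC hbp hcv hkz heb0 hhz; positivity)) (by (clear * - hC hCk hcu hkz; positivity)),
        ENNReal.ofReal_mul (p := 8 * C ^ 5 * B) (by (clear * - hB hC; positivity)),
        ENNReal.ofReal_mul (p := hh z.2 * eta ((fderiv ℝ Psi z e1).2.1 / κ) * I) (by (clear * - heb0 hhz; positivity)),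
        ENNReal.ofReal_mul hbp.le, ENNReal.ofReal_mul (p := C * Ck C B hb κ) (by (clear * - hC hCk; positivity)),
        ENNReal.ofReal_mul (q := cv (Psi z).2.1) hkz,
        ENNReal.ofReal_mul (q := 1 + cu (Psi z).2.2.1 + ‖fderiv ℝ G z‖) hkz,
        ENNReal.ofReal_add (by (clear * - hcu; positivity)) hL,
        ENNReal.ofReal_add zero_le_one hcu, ENNReal.ofReal_one, ofReal_norm]
      gcongr
      rw [hq]
      simp only
      rw [ENNReal.ofReal_mul hkz]
  refine (low.trans mid).trans (le_of_eq ?_)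
  rw [lintegral_add_left', lintegral_const_mul' _ _ ENNReal.ofReal_ne_top,
    lintegral_const_mul' _ _ ENNReal.ofReal_ne_top]
  apply AEMeasurable.const_mul
  apply AEMeasurable.mul
  · exact ((measurable_const.indicator hA2m).comp measurable_snd).aemeasurable
  · exact h.aem_b.ennreal_ofReal.mul (hqm.comp_aemeasurable h.aem_Psi.snd.fst)

end CoreHyp

end Vale.Agent.P354w
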