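import Vale.Agent.P354w.IntId

set_option maxSynthPendingDepth 3

open Set MeasureTheory Filter

namespace Vale.Agent.P354w

lemma lintegral_le_of_integral_zero {α : Type*} [MeasurableSpace α] {μ : Measure α}
    {X g : α → ℝ} {E : α → ENNReal}
    (hX : Integrable X μ) (h0 : ∫ x, X x ∂μ = 0) (hg : AEStronglyMeasurable g μ)
    (hg0 : ∀ᵐ x ∂μ, 0 ≤ g x) (hE : ∀ᵐ x ∂μ, ‖X x + g x‖ₑ ≤ E x) :
    ∫⁻ x, ENNReal.ofReal (g x) ∂μ ≤ ∫⁻ x, E x ∂μ := by
  by_cases hfin : ∫⁻ x, E x ∂μ = ⊤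
  · rw [hfin]; exact le_top
  have hXg : Integrable (fun x => X x + g x) μ :=
    ⟨hX.aestronglyMeasurable.add hg,
      lt_of_le_of_lt (lintegral_mono_ae hE) (lt_top_iff_ne_top.mpr hfin)⟩
  have hgi : Integrable g μ := by
    have := hXg.sub hX
    refine this.congr (ae_of_all _ fun x => ?_)
    simp
  have e1 : ∫ x, (X x + g x) ∂μ = ∫ x, g x ∂μ := by
    rw [integral_add hX hgi, h0, zero_add]
  rw [← ofReal_integral_eq_lintegral_ofReal hgi hg0, ← e1]
  calc ENNReal.ofReal (∫ x, (X x + g x) ∂μ) ≤ ‖∫ x, (X x + g x) ∂μ‖ₑ := by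
        rw [← ofReal_norm]
        exact ENNReal.ofReal_le_ofReal (le_abs_self _)
    _ ≤ ∫⁻ x, ‖X x + g x‖ₑ ∂μ := enorm_integral_le_lintegral_enorm _
    _ ≤ _ := lintegral_mono_ae hE

namespace PreHyp

variable {K : Coef} {G : P4 → P4 →L[ℝ] P4 →L[ℝ] ℝ} {Psi : P4 → P4} {V U : Set P4}
    {C R : ℝ} {cv cw cu : ℝ → ℝ} {t0 r : ℝ} {f : P3 → ℝ}

lemma measDD (h : PreHyp K G Psi V U C R cv cw cu t0 r f) : MeasurableSet (DD t0 r f) :=
  h.openD.measurableSet

lemma lintegral_DD (h : PreHyp K G Psi V U C R cv cw cu t0 r f) {F : P4 → ENNReal}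
    (hF : AEMeasurable F (volume.restrict (DD t0 r f))) :
    ∫⁻ z in DD t0 r f, F z
      = ∫⁻ x in Metric.ball (0 : P3) r, ∫⁻ t in Ioo t0 (f x), F (t, x) := by
  rw [← lintegral_indicator h.measDD]
  have hF' : AEMeasurable ((DD t0 r f).indicator F) ((volume : Measure ℝ).prod
      (volume : Measure P3)) := (aemeasurable_indicator_iff h.measDD).mpr hF
  rw [Measure.volume_eq_prod, lintegral_prod_symm _ hF',
    ← lintegral_indicator (Metric.isOpen_ball.measurableSet)]
  apply lintegral_congr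
  intro x
  by_cases hx : x ∈ Metric.ball (0 : P3) r
  · rw [indicator_of_mem hx, ← lintegral_indicator measurableSet_Ioo]
    apply lintegral_congr
    intro t
    by_cases ht : t ∈ Ioo t0 (f x)
    · rw [indicator_of_mem ht, indicator_of_mem (show ((t, x) : P4) ∈ DD t0 r f from
        ⟨hx, ht.1, ht.2⟩)]
    · rw [indicator_of_notMem ht, indicator_of_notMem]
      rintro ⟨_, h1, h2⟩
      exact ht ⟨h1, h2⟩
  · rw [indicator_of_notMem hx]
    have : (fun t => (DD t0 r f).indicator F (t, x)) = fun _ => 0 := by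
      funext t
      rw [indicator_of_notMem]
      rintro ⟨h1, _⟩
      exact hx h1
    rw [this, lintegral_zero]

lemma aem_b (h : PreHyp K G Psi V U C R cv cw cu t0 r f) :
    AEMeasurable (fun z => (fderiv ℝ Psi z e1).2.1) (volume.restrict (DD t0 r f)) := by
  have : ContinuousOn (fun z => fderiv ℝ Psi z e1) (DD t0 r f) := fun z hz =>
    ((h.contDiffAt_P (h.DD_sub hz) e1).continuousAt).continuousWithinAt
  exact (this.snd.fst).aemeasurable h.measDD

lemma aem_a (h : PreHyp K G Psi V U C R cv cw cu t0 r f) :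
    AEMeasurable (fun z => (fderiv ℝ Psi z e1).2.2.1) (volume.restrict (DD t0 r f)) := by
  have : ContinuousOn (fun z => fderiv ℝ Psi z e1) (DD t0 r f) := fun z hz =>
    ((h.contDiffAt_P (h.DD_sub hz) e1).continuousAt).continuousWithinAt
  exact (this.snd.snd.fst).aemeasurable h.measDD

lemma aem_Psi (h : PreHyp K G Psi V U C R cv cw cu t0 r f) :
    AEMeasurable Psi (volume.restrict (DD t0 r f)) :=
  (h.iso.smooth.continuousOn.mono h.DD_sub).aemeasurable h.measDD

lemma aem_det (_h : PreHyp K G Psi V U C R cv cw cu t0 r f) :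
    AEMeasurable (fun z => |(fderiv ℝ Psi z).det|) (volume.restrict (DD t0 r f)) := by
  have : Continuous (fun A : P4 →L[ℝ] P4 => |A.det|) := by
    have := ContinuousLinearMap.continuous_det (𝕜 := ℝ) (E := P4)
    exact this.abs
  exact (this.measurable.comp (measurable_fderiv ℝ Psi)).aemeasurable

/-- push forward bound -/
lemma push_le (h : PreHyp K G Psi V U C R cv cw cu t0 r f) (q : P4 → ENNReal) :
    ∫⁻ z in DD t0 r f, q (Psi z) ≤ ENNReal.ofReal C * ∫⁻ y in U, q y := by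
  have := haarP4
  have hfd : ∀ z ∈ DD t0 r f, HasFDerivWithinAt Psi (fderiv ℝ Psi z) (DD t0 r f) z :=
    fun z hz => (h.iso.hasFDerivAt (h.DD_sub hz)).hasFDerivWithinAt
  have hinj : InjOn Psi (DD t0 r f) := h.inj.mono h.DD_sub
  have e := lintegral_image_eq_lintegral_abs_det_fderiv_mul volume h.measDD hfd hinj q
  have hsub : Psi '' DD t0 r f ⊆ U := by
    rintro _ ⟨z, hz, rfl⟩
    exact h.maps (h.DD_sub hz)
  calc ∫⁻ z in DD t0 r f, q (Psi z)
      ≤ ∫⁻ z in DD t0 r f, ENNReal.ofReal C * (ENNReal.ofReal |(fderiv ℝ Psi z).det| * q (Psi z)) := by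
        apply setLIntegral_mono' h.measDD
        intro z hz
        have h1 := h.det_lo z (h.DD_sub hz)
        have hC : 0 ≤ C := by
          have := (h.pt (h.DD_sub hz)).bd.one_le
          linarith
        rw [← mul_assoc, ← ENNReal.ofReal_mul hC]
        calc q (Psi z) = 1 * q (Psi z) := (one_mul _).symm
          _ ≤ _ := by
            gcongr
            rw [← ENNReal.ofReal_one]
            exact ENNReal.ofReal_le_ofReal h1
    _ = ENNReal.ofReal C * ∫⁻ z in DD t0 r f, ENNReal.ofReal |(fderiv ℝ Psi z).det| * q (Psi z) := by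
        rw [lintegral_const_mul' _ _ ENNReal.ofReal_ne_top]
    _ = ENNReal.ofReal C * ∫⁻ y in Psi '' DD t0 r f, q y := by rw [e]
    _ ≤ _ := by
        gcongr

/-- push forward bound for products -/
lemma push_prod (h : PreHyp K G Psi V U C R cv cw cu t0 r f) {p s : ℝ → ENNReal}
    (hp : Measurable p) (hs : Measurable s) :
    ∫⁻ z in DD t0 r f, p (Psi z).2.1 * s (Psi z).2.2.1 ≤ ENNReal.ofReal C *
      (volume (Icc (-R) R) * ((∫⁻ v in Ico (-R) 0, p v) * ((∫⁻ u in Icc (-R) R, s u)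
        * volume (Icc (-R) R)))) := by
  refine (h.push_le (fun y => p y.2.1 * s y.2.2.1)).trans ?_
  gcongr
  have hsub : U ⊆ Icc (-R) R ×ˢ (Ico (-R) (0:ℝ) ×ˢ (Icc (-R) R ×ˢ Icc (-R) R)) := by
    intro y hy
    obtain ⟨k1, k2, k3, k4, k5⟩ := h.U_sub y hy
    exact ⟨abs_le.mp k1, ⟨k2, k3⟩, abs_le.mp k4, abs_le.mp k5⟩
  refine (lintegral_mono_set hsub).trans (le_of_eq ?_)
  rw [Measure.volume_eq_prod, ← Measure.prod_restrict]
  have e2 : (volume : Measure P3).restrict (Ico (-R) (0:ℝ) ×ˢ (Icc (-R) R ×ˢ Icc (-R) R))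
      = (volume.restrict (Ico (-R) (0:ℝ))).prod ((volume : Measure (ℝ × ℝ)).restrict
        (Icc (-R) R ×ˢ Icc (-R) R)) := by
    rw [Measure.volume_eq_prod, Measure.prod_restrict]
  have e3 : (volume : Measure (ℝ × ℝ)).restrict (Icc (-R) R ×ˢ Icc (-R) R)
      = (volume.restrict (Icc (-R) R)).prod (volume.restrict (Icc (-R) R)) := by
    rw [Measure.volume_eq_prod, Measure.prod_restrict]
  rw [e2, e3]
  have m0 : Measurable (fun y : P3 => p y.1 * s y.2.1) := by fun_prop
  have m1 : Measurable (fun y : ℝ × ℝ => s y.1) := by fun_prop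
  rw [lintegral_prod _ (by
    have : Measurable (fun y : P4 => p y.2.1 * s y.2.2.1) := by fun_prop
    exact this.aemeasurable)]
  simp only [lintegral_const, Measure.restrict_apply MeasurableSet.univ, univ_inter]
  rw [lintegral_prod _ m0.aemeasurable]
  simp only
  have : ∀ x : ℝ, ∫⁻ y : ℝ × ℝ, p x * s y.1 ∂((volume.restrict (Icc (-R) R)).prod
      (volume.restrict (Icc (-R) R))) = p x * ((∫⁻ u in Icc (-R) R, s u)
        * volume (Icc (-R) R)) := by
    intro x
    rw [lintegral_const_mul _ m1, lintegral_prod _ m1.aemeasurable]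
    simp only [lintegral_const, Measure.restrict_apply MeasurableSet.univ, univ_inter]
    rw [lintegral_mul_const _ hs]
  simp only [this]
  rw [lintegral_mul_const _ hp]
  ring

end PreHyp

namespace CoreHyp

open PreHyp

variable {K : Coef} {G : P4 → P4 →L[ℝ] P4 →L[ℝ] ℝ} {Psi : P4 → P4} {V U : Set P4}
    {C R : ℝ} {cv cw cu : ℝ → ℝ} {t0 r : ℝ} {f : P3 → ℝ}

/-- substitution along the vertical lines -/
lemma line_eq (h : CoreHyp K G Psi V U C R cv cw cu t0 r f) {x : P3}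
    (hx : x ∈ Metric.ball (0 : P3) r) {q : ℝ → ENNReal} {v1 v2 : ℝ} (hv2 : v2 < 0)
    (h1 : (Psi (t0, x)).2.1 < v1) (hq : ∀ v, v ∉ Icc v1 v2 → q v = 0) :
    ∫⁻ t in Ioo t0 (f x), ENNReal.ofReal (fderiv ℝ Psi (t, x) e1).2.1 * q (Psi (t, x)).2.1
      = ∫⁻ v, q v := by
  have hsub : ∀ s ∈ Ico t0 (f x), (s, x) ∈ V := fun s hs => h.memV x hx s hs
  have hv : ∀ s ∈ Ico t0 (f x), HasDerivAt (fun s => (Psi (s, x)).2.1)
      (fderiv ℝ Psi (s, x) e1).2.1 s := fun s hs => (h.hasDerivAt_line (hsub s hs)).snd.fst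
  have hIoo : Ioo t0 (f x) ⊆ Ico t0 (f x) := Ioo_subset_Ico_self
  rw [subst_eq (φ := fun s => (Psi (s, x)).2.1) measurableSet_Ioo ordConnected_Ioo
    (fun s hs => hv s (hIoo hs)) (fun s hs => h.pos _ (hsub s (hIoo hs))) q]
  have himg : Icc v1 v2 ⊆ (fun s => (Psi (s, x)).2.1) '' Ioo t0 (f x) := by
    intro y hy
    obtain ⟨t, ht, htv⟩ := h.exit x hx v2 hv2
    have hcont : ContinuousOn (fun s => (Psi (s, x)).2.1) (Icc t0 t) := by
      intro s hs
      exact (hv s ⟨hs.1, lt_of_le_of_lt hs.2 ht.2⟩).continuousAt.continuousWithinAt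
    obtain ⟨s, hs, hsy⟩ := intermediate_value_Ioo ht.1 hcont
      (show y ∈ Ioo (Psi (t0, x)).2.1 (Psi (t, x)).2.1 from
        ⟨lt_of_lt_of_le h1 hy.1, lt_of_le_of_lt hy.2 htv⟩)
    exact ⟨s, ⟨hs.1, hs.2.trans ht.2⟩, hsy⟩
  apply le_antisymm
  · exact setLIntegral_le_lintegral _ _
  · have : ∫⁻ v, q v = ∫⁻ v in Icc v1 v2, q v := by
      rw [← lintegral_indicator measurableSet_Icc]
      apply lintegral_congr
      intro v
      by_cases hv : v ∈ Icc v1 v2
      · rw [indicator_of_mem hv]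
      · rw [indicator_of_notMem hv, hq v hv]
    rw [this]
    exact lintegral_mono_set himg

/-- the key Tonelli computation -/
lemma tonelli_eq (h : CoreHyp K G Psi V U C R cv cw cu t0 r f) {q : ℝ → ENNReal}
    (hqm : Measurable q) {v1 v2 vlo r' : ℝ} (hr' : r' < r) (hv2 : v2 < 0) (hlo : vlo < v1)
    (hvlo : ∀ x : P3, ‖x‖ ≤ r' → (Psi (t0, x)).2.1 ≤ vlo)
    (hq : ∀ v, v ∉ Icc v1 v2 → q v = 0) {A : Set P3} (hA : MeasurableSet A)
    (hAr : ∀ x ∈ A, ‖x‖ ≤ r') :
    ∫⁻ z in DD t0 r f, A.indicator (fun _ => (1:ENNReal)) z.2 *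
      (ENNReal.ofReal (fderiv ℝ Psi z e1).2.1 * q (Psi z).2.1) = volume A * ∫⁻ v, q v := by
  rw [h.lintegral_DD]
  · have hAb : A ⊆ Metric.ball (0 : P3) r := by
      intro x hx
      rw [mem_ball_zero_iff]
      exact lt_of_le_of_lt (hAr x hx) hr'
    have : ∀ x ∈ Metric.ball (0 : P3) r, ∫⁻ t in Ioo t0 (f x),
        A.indicator (fun _ => (1:ENNReal)) x *
      (ENNReal.ofReal (fderiv ℝ Psi (t, x) e1).2.1 * q (Psi (t, x)).2.1)
      = A.indicator (fun _ => ∫⁻ v, q v) x := by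
      intro x hx
      by_cases hxA : x ∈ A
      · simp only [indicator_of_mem hxA, one_mul]
        exact h.line_eq hx hv2 (lt_of_le_of_lt (hvlo x (hAr x hxA)) hlo) hq
      · simp only [indicator_of_notMem hxA, zero_mul, lintegral_zero]
    rw [setLIntegral_congr_fun Metric.isOpen_ball.measurableSet this]
    rw [lintegral_indicator hA, Measure.restrict_restrict hA, inter_eq_self_of_subset_left hAb,
      lintegral_const, mul_comm]
    simp
  · refine AEMeasurable.mul ?_ (h.aem_b.ennreal_ofReal.mul (hqm.comp_aemeasurable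
      h.aem_Psi.snd.fst))
    exact ((measurable_const.indicator hA).comp measurable_snd).aemeasurable

end CoreHyp

end Vale.Agent.P354w
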