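import Vale.Agent.P354w.Cut

set_option maxSynthPendingDepth 3

open Set MeasureTheory

namespace Vale.Agent.P354w

lemma pe_y {C a b x1 x2 : ℝ} (hx : x1 ^ 2 + x2 ^ 2 ≤ 2 * C ^ 2 * (a * b)) :
    (|x1| + |x2|) ^ 2 ≤ 4 * C ^ 2 * (a * b) := by
  have h1 : |x1| ^ 2 = x1 ^ 2 := sq_abs x1
  have h2 : |x2| ^ 2 = x2 ^ 2 := sq_abs x2
  linarith only [hx, h1, h2, sq_nonneg (|x1| - |x2|)]

lemma pe_bounds {C κ a b y X Zn : ℝ} (hC : 1 ≤ C) (hκ : 1 ≤ κ)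
    (ha : 0 < a) (hbp : 0 < b) (ha2 : a ≤ 2 * κ) (hb2 : b ≤ 2 * κ)
    (hy0 : 0 ≤ y) (hy2 : y ^ 2 ≤ 4 * C ^ 2 * (a * b))
    (hX : |X| ≤ C * y) (hZ0 : 0 ≤ Zn) (hZ : Zn ^ 2 ≤ C ^ 2 + C * X ^ 2) :
    1 ≤ 9 * C ^ 3 * κ ∧ a ≤ 9 * C ^ 3 * κ ∧ b ≤ 9 * C ^ 3 * κ ∧ |X| ≤ 9 * C ^ 3 * κ ∧
      Zn ≤ 9 * C ^ 3 * κ := by
  have hC0 : 0 < C := by linarith only [hC]
  have hκ0 : 0 < κ := by linarith only [hκ]
  have hC3 : 1 ≤ C ^ 3 := one_le_pow₀ hC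
  have hC32 : C ^ 2 ≤ C ^ 3 := pow_le_pow_right₀ hC (by norm_num)
  have hCκ : κ ≤ C ^ 3 * κ := le_mul_of_one_le_left hκ0.le hC3
  have hab : a * b ≤ 4 * κ ^ 2 := by
    have := mul_le_mul ha2 hb2 hbp.le (by linarith only [hκ])
    linarith only [this]
  have hyM : y ≤ 4 * C * κ := by
    apply abs_le_of_sq_le_sq' _ (by positivity) |>.2
    calc y ^ 2 ≤ 4 * C ^ 2 * (a * b) := hy2
      _ ≤ 4 * C ^ 2 * (4 * κ ^ 2) := by gcongr
      _ = (4 * C * κ) ^ 2 := by ring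
  have hXM' : |X| ≤ 4 * C ^ 2 * κ := by
    calc |X| ≤ C * y := hX
      _ ≤ C * (4 * C * κ) := by gcongr
      _ = _ := by ring
  refine ⟨by linarith only [hκ, hCκ], by linarith only [hκ, ha2, hCκ], by linarith only [hκ, hb2, hCκ], ?_, ?_⟩
  · refine hXM'.trans ?_
    calc 4 * C ^ 2 * κ ≤ 9 * C ^ 3 * κ := by
          gcongr
          norm_num
      _ = _ := rfl
  · apply abs_le_of_sq_le_sq' _ (by positivity) |>.2
    have hX2 : X ^ 2 ≤ (4 * C ^ 2 * κ) ^ 2 := by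
      rw [← sq_abs X]; exact pow_le_pow_left₀ (abs_nonneg X) hXM' 2
    calc Zn ^ 2 ≤ C ^ 2 + C * X ^ 2 := hZ
      _ ≤ C ^ 2 + C * (4 * C ^ 2 * κ) ^ 2 := by gcongr
      _ = C ^ 2 * 1 + 16 * C ^ 5 * κ ^ 2 := by ring
      _ ≤ C ^ 6 * κ ^ 2 + 16 * C ^ 6 * κ ^ 2 := by
        have e1 : C ^ 2 ≤ C ^ 6 := pow_le_pow_right₀ hC (by norm_num)
        have e2 : C ^ 5 ≤ C ^ 6 := pow_le_pow_right₀ hC (by norm_num)
        have e3 : 1 ≤ κ ^ 2 := one_le_pow₀ hκ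
        gcongr
      _ = 17 * (C ^ 6 * κ ^ 2) := by ring
      _ ≤ 81 * (C ^ 6 * κ ^ 2) := by
        gcongr
        norm_num
      _ = (9 * C ^ 3 * κ) ^ 2 := by ring

lemma abs_div_le {q κ : ℝ} (hκ : 1 ≤ κ) : |q / κ| ≤ |q| := by
  rw [abs_div, abs_of_pos (by linarith : 0 < κ)]
  exact div_le_self (abs_nonneg q) hκ

lemma pe_T1 {M hb H' eb ea X Zn cu L : ℝ} (hcu : 0 ≤ cu) (hL : 0 ≤ L) (hM : 1 ≤ M)
    (hXM : |X| ≤ M) (hZM : Zn ≤ M) (hhb : 0 ≤ hb) (hH' : |H'| ≤ hb * Zn)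
    (heb : |eb| ≤ 1) (hea : |ea| ≤ 1) :
    |H' * (eb * (ea * X))| ≤ hb * M ^ 2 * (1 + cu + L) := by
  have h1 : |H'| ≤ hb * M := hH'.trans (by gcongr)
  have h2 := aux_mul2 h1 (aux_mul2 heb (aux_mul2 hea hXM))
  refine h2.trans ?_
  calc hb * M * (1 * (1 * M)) = hb * M ^ 2 * 1 := by ring
    _ ≤ _ := by gcongr; linarith only [hcu, hL]

lemma pe_T2 {C B κ M H db Sv eb ea X Zn cu L a b : ℝ} (hC : 1 ≤ C) (hB : 1 ≤ B) (hκ : 1 ≤ κ)
    (hcu : 0 ≤ cu) (hL : 0 ≤ L) (hM : 1 ≤ M) (ha : 0 < a) (hb : 0 < b) (haM : a ≤ M) (hbM : b ≤ M)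
    (hXM : |X| ≤ M) (hZM : Zn ≤ M) (hZ0 : 0 ≤ Zn) (hH : |H| ≤ 1)
    (hdb : |db| ≤ B) (hea : |ea| ≤ 1)
    (hSv : |Sv| ≤ 10 * C ^ 4 * (L * Zn * b + cu * (a + b) + (a + b))) :
    |H * ((db * (Sv / κ)) * (ea * X))| ≤ 20 * C ^ 4 * B * M ^ 3 * (1 + cu + L) := by
  have hC0 : 0 < C := by linarith only [hC]
  have hC34 : C ^ 3 ≤ C ^ 4 := pow_le_pow_right₀ hC (by norm_num)
  have hM12 : M ≤ M ^ 2 := le_self_pow₀ hM (by norm_num)
  have hSvM : |Sv| ≤ 20 * C ^ 4 * M ^ 2 * (1 + cu + L) := by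
    refine hSv.trans ?_
    have e1 : L * Zn * b ≤ L * M ^ 2 := by
      calc L * Zn * b = L * (Zn * b) := by ring
        _ ≤ L * (M * M) := by gcongr
        _ = _ := by ring
    have e2 : cu * (a + b) ≤ cu * (2 * M ^ 2) := by
      apply mul_le_mul_of_nonneg_left _ hcu; linarith only [haM, hbM, hM12]
    have e4 : L * Zn * b + cu * (a + b) + (a + b) ≤ 2 * M ^ 2 * (1 + cu + L) := by
      have : 0 ≤ M ^ 2 * L := by positivity
      linarith only [haM, hbM, hM12, e1, e2, this]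
    calc 10 * C ^ 4 * (L * Zn * b + cu * (a + b) + (a + b))
        ≤ 10 * C ^ 4 * (2 * M ^ 2 * (1 + cu + L)) := by gcongr
      _ = _ := by ring
  have h2 := aux_mul2 hH (aux_mul2 (aux_mul2 hdb ((abs_div_le hκ).trans hSvM))
      (aux_mul2 hea hXM))
  refine h2.trans ?_
  have hS : 0 ≤ 1 + cu + L := by linarith only [hcu, hL]
  calc 1 * (B * (20 * C ^ 4 * M ^ 2 * (1 + cu + L)) * (1 * M))
      = 20 * C ^ 4 * B * M ^ 3 * (1 + cu + L) := by ring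
    _ ≤ _ := le_refl _

lemma pe_T4 {C B M H eb ea XZ gv Zn cu L a b : ℝ} (hC : 1 ≤ C) (hB : 1 ≤ B)
    (hcu : 0 ≤ cu) (hL : 0 ≤ L) (hM : 1 ≤ M) (ha : 0 < a) (hb : 0 < b) (haM : a ≤ M) (hbM : b ≤ M)
    (hZM : Zn ≤ M) (hZ0 : 0 ≤ Zn) (hH : |H| ≤ 1)
    (heb : |eb| ≤ 1) (hea : |ea| ≤ 1)
    (hXZ : |XZ + (1/2) * b * gv| ≤ 10 * C ^ 2 * (L * Zn ^ 2 + cu * a + a + b)) :
    |H * (eb * (ea * XZ)) + (1/2) * b * gv * (H * (eb * ea))|
      ≤ 20 * C ^ 4 * B * M ^ 3 * (1 + cu + L) := by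
  have hC0 : 0 < C := by linarith only [hC]
  have hC24 : C ^ 2 ≤ C ^ 4 := pow_le_pow_right₀ hC (by norm_num)
  have hM12 : M ≤ M ^ 2 := le_self_pow₀ hM (by norm_num)
  have hM23 : M ^ 2 ≤ M ^ 3 := pow_le_pow_right₀ hM (by norm_num)
  have e : H * (eb * (ea * XZ)) + (1/2) * b * gv * (H * (eb * ea))
      = H * (eb * (ea * (XZ + (1/2) * b * gv))) := by ring
  rw [e]
  have h2 := aux_mul2 hH (aux_mul2 heb (aux_mul2 hea hXZ))
  refine h2.trans ?_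
  have e1 : L * Zn ^ 2 ≤ L * M ^ 2 := by gcongr
  have e2 : cu * a ≤ cu * M ^ 2 := by
    apply mul_le_mul_of_nonneg_left _ hcu; linarith only [haM, hM12]
  have e4 : L * Zn ^ 2 + cu * a + a + b ≤ 2 * M ^ 2 * (1 + cu + L) := by
    have : 0 ≤ M ^ 2 * L := by positivity
    have : 0 ≤ M ^ 2 * cu := by positivity
    linarith
  have hS : 0 ≤ 1 + cu + L := by linarith only [hcu, hL]
  calc 1 * (1 * (1 * (10 * C ^ 2 * (L * Zn ^ 2 + cu * a + a + b))))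
      = 10 * C ^ 2 * (L * Zn ^ 2 + cu * a + a + b) := by ring
    _ ≤ 10 * C ^ 2 * (2 * M ^ 2 * (1 + cu + L)) := by gcongr
    _ = 20 * C ^ 2 * 1 * M ^ 2 * (1 + cu + L) := by ring
    _ ≤ 20 * C ^ 4 * B * M ^ 3 * (1 + cu + L) := by gcongr

lemma pe_T3 {C B κ M H da Su eb X Zn cv cu L a b y : ℝ} (hC : 1 ≤ C) (hB : 1 ≤ B) (hκ : 1 ≤ κ)
    (hcv : 0 ≤ cv) (hcu : 0 ≤ cu) (hL : 0 ≤ L) (hM : 1 ≤ M) (ha : 0 < a) (hb : 0 < b)
    (haM : a ≤ M) (hbM : b ≤ M) (ha2 : a ≤ 2 * κ)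
    (hXM : |X| ≤ M) (hZM : Zn ≤ M) (hZ0 : 0 ≤ Zn) (hH0 : 0 ≤ H) (hH1 : H ≤ 1)
    (heb0 : 0 ≤ eb) (heb1 : eb ≤ 1)
    (hy0 : 0 ≤ y) (hy2 : y ^ 2 ≤ 4 * C ^ 2 * (a * b)) (hX : |X| ≤ C * y)
    (hda : |da| ≤ B) (hda0 : a < κ → da = 0)
    (hSu : |Su| ≤ 40 * C ^ 4 * (L * Zn * a + a + b) + C * (cv * y)) :
    |H * (eb * ((da * (Su / κ)) * X))| ≤ 400 * C ^ 4 * B * M ^ 3 * (1 + cu + L)
      + 8 * C ^ 4 * B * (cv * b * (H * eb) * (if κ ≤ a then 1 else 0)) := by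
  have hC0 : 0 < C := by linarith
  have hκ0 : 0 < κ := by linarith only [hκ]
  have hM12 : M ≤ M ^ 2 := le_self_pow₀ hM (by norm_num)
  have hS : 0 ≤ 1 + cu + L := by linarith only [hcu, hL]
  by_cases hka : κ ≤ a
  · rw [if_pos hka]
    have h1 : |Su| ≤ 80 * C ^ 4 * M ^ 2 * (1 + cu + L) + C * (cv * y) := by
      refine hSu.trans ?_
      have e1 : L * Zn * a ≤ L * M ^ 2 := by
        calc L * Zn * a = L * (Zn * a) := by ring
          _ ≤ L * (M * M) := by gcongr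
          _ = _ := by ring
      have e4 : L * Zn * a + a + b ≤ 2 * M ^ 2 * (1 + cu + L) := by
        have : 0 ≤ M ^ 2 * L := by positivity
        have : 0 ≤ M ^ 2 * cu := by positivity
        linarith
      have : 40 * C ^ 4 * (L * Zn * a + a + b) ≤ 80 * C ^ 4 * M ^ 2 * (1 + cu + L) := by
        calc 40 * C ^ 4 * (L * Zn * a + a + b) ≤ 40 * C ^ 4 * (2 * M ^ 2 * (1 + cu + L)) := by
              gcongr
          _ = _ := by ring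
      linarith only [this]
    have e0 : |H * (eb * ((da * (Su / κ)) * X))| = H * eb * (|da| * (|Su| / κ) * |X|) := by
      rw [abs_mul, abs_mul, abs_mul, abs_mul, abs_div, abs_of_nonneg hH0, abs_of_nonneg heb0,
        abs_of_pos hκ0]
      ring
    rw [e0]
    have hHeb : H * eb ≤ 1 := by
      calc H * eb ≤ 1 * 1 := by gcongr
        _ = 1 := by ring
    have hHeb0 : 0 ≤ H * eb := by positivity
    have hd0 := abs_nonneg da
    have s1 : |Su| / κ ≤ 80 * C ^ 4 * M ^ 2 * (1 + cu + L) + C * (cv * y) / κ := by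
      calc |Su| / κ ≤ (80 * C ^ 4 * M ^ 2 * (1 + cu + L) + C * (cv * y)) / κ := by gcongr
        _ = 80 * C ^ 4 * M ^ 2 * (1 + cu + L) / κ + C * (cv * y) / κ := by ring
        _ ≤ _ := by
          gcongr
          exact div_le_self (by positivity) hκ
    have e5 : |da| * (|Su| / κ) * |X| ≤ B * (80 * C ^ 4 * M ^ 2 * (1 + cu + L)) * M
        + B * (C * (cv * y) / κ) * (C * y) := by
      calc |da| * (|Su| / κ) * |X|
          ≤ B * (80 * C ^ 4 * M ^ 2 * (1 + cu + L) + C * (cv * y) / κ) * |X| := by gcongr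
        _ = B * (80 * C ^ 4 * M ^ 2 * (1 + cu + L)) * |X| + B * (C * (cv * y) / κ) * |X| := by
          ring
        _ ≤ _ := by gcongr
    have e6 : B * (C * (cv * y) / κ) * (C * y) ≤ 8 * C ^ 4 * B * (cv * b) := by
      calc B * (C * (cv * y) / κ) * (C * y) = B * C ^ 2 * cv * (y ^ 2 / κ) := by ring
        _ ≤ B * C ^ 2 * cv * (4 * C ^ 2 * (a * b) / κ) := by gcongr
        _ = B * C ^ 4 * cv * b * (4 * (a / κ)) := by ring
        _ ≤ B * C ^ 4 * cv * b * (4 * 2) := by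
          gcongr
          rw [div_le_iff₀ hκ0]; linarith only [ha2]
        _ = _ := by ring
    have e7 : |da| * (|Su| / κ) * |X| ≤ B * (80 * C ^ 4 * M ^ 2 * (1 + cu + L)) * M
        + 8 * C ^ 4 * B * (cv * b) := by linarith only [e5, e6]
    calc H * eb * (|da| * (|Su| / κ) * |X|)
        ≤ H * eb * (B * (80 * C ^ 4 * M ^ 2 * (1 + cu + L)) * M + 8 * C ^ 4 * B * (cv * b)) := by
          gcongr
      _ = H * eb * (80 * C ^ 4 * B * M ^ 3 * (1 + cu + L))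
          + 8 * C ^ 4 * B * (cv * b * (H * eb) * 1) := by ring
      _ ≤ 1 * (400 * C ^ 4 * B * M ^ 3 * (1 + cu + L))
          + 8 * C ^ 4 * B * (cv * b * (H * eb) * 1) := by
          gcongr
          norm_num
      _ = _ := by ring
  · push Not at hka
    rw [hda0 hka]
    simp only [zero_mul, mul_zero, abs_zero]
    positivity

/-- Real-number part of the pointwise estimate. -/
lemma pe_alg {C B κ cv cu L a b x1 x2 X Zn hb H' H eb ea db da Sv Su XZ gv : ℝ}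
    (hC : 1 ≤ C) (hB : 1 ≤ B) (hκ : 1 ≤ κ) (hcv : 0 ≤ cv) (hcu : 0 ≤ cu) (hL : 0 ≤ L)
    (ha : 0 < a) (hbp : 0 < b) (ha2 : a ≤ 2 * κ) (hb2 : b ≤ 2 * κ)
    (hx : x1 ^ 2 + x2 ^ 2 ≤ 2 * C ^ 2 * (a * b))
    (hX : |X| ≤ C * (|x1| + |x2|)) (hZ0 : 0 ≤ Zn) (hZ : Zn ^ 2 ≤ C ^ 2 + C * X ^ 2)
    (hhb : 0 ≤ hb) (hH' : |H'| ≤ hb * Zn) (hH0 : 0 ≤ H) (hH1 : H ≤ 1)
    (heb0 : 0 ≤ eb) (heb1 : eb ≤ 1) (hea0 : 0 ≤ ea) (hea1 : ea ≤ 1)
    (hdb : |db| ≤ B) (hda : |da| ≤ B) (hda0 : a < κ → da = 0)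
    (hSv : |Sv| ≤ 10 * C ^ 4 * (L * Zn * b + cu * (a + b) + (a + b)))
    (hSu : |Su| ≤ 40 * C ^ 4 * (L * Zn * a + a + b) + C * (cv * (|x1| + |x2|)))
    (hXZ : |XZ + (1/2) * b * gv| ≤ 10 * C ^ 2 * (L * Zn ^ 2 + cu * a + a + b)) :
    |(H' * (eb * (ea * X)) + H * ((db * (Sv / κ)) * (ea * X)) + H * (eb * ((da * (Su / κ)) * X))
      + H * (eb * (ea * XZ))) + (1/2) * b * gv * (H * (eb * ea))|
    ≤ 8 * C ^ 4 * B * (cv * b * (H * eb) * (if κ ≤ a then 1 else 0))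
      + (hb * (9 * C ^ 3 * κ) ^ 2 + 500 * C ^ 4 * B * (9 * C ^ 3 * κ) ^ 3) * (1 + cu + L) := by
  have hy2 := pe_y hx
  have hy0 : 0 ≤ |x1| + |x2| := by positivity
  obtain ⟨hM, haM, hbM, hXM, hZM⟩ := pe_bounds hC hκ ha hbp ha2 hb2 hy0 hy2 hX hZ0 hZ
  have habsH : |H| ≤ 1 := by rw [abs_of_nonneg hH0]; exact hH1
  have habseb : |eb| ≤ 1 := by rw [abs_of_nonneg heb0]; exact heb1
  have habsea : |ea| ≤ 1 := by rw [abs_of_nonneg hea0]; exact hea1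
  have T1 := pe_T1 hcu hL hM hXM hZM hhb hH' habseb habsea
  have T2 := pe_T2 (db := db) hC hB hκ hcu hL hM ha hbp haM hbM hXM hZM hZ0 habsH hdb habsea hSv
    (eb := eb)
  have T3 := pe_T3 hC hB hκ hcv hcu hL hM ha hbp haM hbM ha2 hXM hZM hZ0 hH0 hH1 heb0 heb1 hy0
    hy2 hX hda hda0 hSu
  have T4 := pe_T4 hC hB hcu hL hM ha hbp haM hbM hZM hZ0 habsH habseb habsea hXZ
  have e : (H' * (eb * (ea * X)) + H * ((db * (Sv / κ)) * (ea * X))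
      + H * (eb * ((da * (Su / κ)) * X)) + H * (eb * (ea * XZ))) + (1/2) * b * gv * (H * (eb * ea))
      = H' * (eb * (ea * X)) + H * ((db * (Sv / κ)) * (ea * X))
        + H * (eb * ((da * (Su / κ)) * X))
        + (H * (eb * (ea * XZ)) + (1/2) * b * gv * (H * (eb * ea))) := by ring
  rw [e]
  have hfin := (abs_add_le (H' * (eb * (ea * X)) + H * ((db * (Sv / κ)) * (ea * X))
        + H * (eb * ((da * (Su / κ)) * X)))
        (H * (eb * (ea * XZ)) + (1/2) * b * gv * (H * (eb * ea))))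
  have hfin2 := abs_add_le (H' * (eb * (ea * X)) + H * ((db * (Sv / κ)) * (ea * X)))
    (H * (eb * ((da * (Su / κ)) * X)))
  have hfin3 := abs_add_le (H' * (eb * (ea * X))) (H * ((db * (Sv / κ)) * (ea * X)))
  have hC0 : 0 < C := by linarith only [hC]
  have hB0 : 0 < B := by linarith only [hB]
  have hκ0 : 0 < κ := by linarith only [hκ]
  have hq : 0 ≤ C ^ 4 * B * (9 * C ^ 3 * κ) ^ 3 * (1 + cu + L) := by positivity
  generalize 9 * C ^ 3 * κ = M at *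
  have eR : (hb * M ^ 2 + 500 * C ^ 4 * B * M ^ 3) * (1 + cu + L)
     = hb * M ^ 2 * (1 + cu + L) + 500 * (C ^ 4 * B * M ^ 3 * (1 + cu + L)) := by ring
  rw [eR]
  have T2' : |H * ((db * (Sv / κ)) * (ea * X))| ≤ 20 * (C ^ 4 * B * M ^ 3 * (1 + cu + L)) := by
    refine T2.trans (le_of_eq (by ring))
  have T3' : |H * (eb * ((da * (Su / κ)) * X))| ≤ 400 * (C ^ 4 * B * M ^ 3 * (1 + cu + L))
      + 8 * C ^ 4 * B * (cv * b * (H * eb) * (if κ ≤ a then 1 else 0)) := by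
    refine T3.trans (le_of_eq (by ring))
  have T4' : |H * (eb * (ea * XZ)) + (1/2) * b * gv * (H * (eb * ea))|
      ≤ 20 * (C ^ 4 * B * M ^ 3 * (1 + cu + L)) := by
    refine T4.trans (le_of_eq (by ring))
  clear T2 T3 T4 eR e
  generalize C ^ 4 * B * M ^ 3 * (1 + cu + L) = Q at *
  linarith only [hfin, hfin2, hfin3, T1, hq, T2', T3', T4']

end Vale.Agent.P354w
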