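import Vale.Agent.P354w.PointGeom

set_option maxSynthPendingDepth 3

namespace Vale.Agent.P354w

variable {K : Coef} {G : P4 → P4 →L[ℝ] P4 →L[ℝ] ℝ} {Psi : P4 → P4} {V : Set P4}

namespace PtHyp

variable {z : P4} {C cv cw cu : ℝ}

lemma comb_betaZ (K : Coef) (x P : P4) :
    K.dgF x e1 P (e3 K x) + K.dgF x P e1 (e3 K x) - K.dgF x (e3 K x) e1 P =
    - (fderiv ℝ K.om x e1 * P.2.1)
      - (K.g11 x * K.h1 x P * fderiv ℝ K.w1 x e1
        + K.g12 x * (K.h1 x P * fderiv ℝ K.w2 x e1 + K.h2 x P * fderiv ℝ K.w1 x e1)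
        + K.g22 x * K.h2 x P * fderiv ℝ K.w2 x e1)
      - (fderiv ℝ K.g11 x (e3 K x) * K.h1 x P + fderiv ℝ K.g12 x (e3 K x) * K.h2 x P)
      + (K.g11 x * (P.2.1 * (fderiv ℝ K.s1 x (e3 K x) - fderiv ℝ K.w1 x (e4 K x))
          - (K.h1 x P * fderiv ℝ K.w1 x e1 + K.h2 x P * fderiv ℝ K.w1 x e2))
        + K.g12 x * (P.2.1 * (fderiv ℝ K.s2 x (e3 K x) - fderiv ℝ K.w2 x (e4 K x))
          - (K.h1 x P * fderiv ℝ K.w2 x e1 + K.h2 x P * fderiv ℝ K.w2 x e2))) := by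
  have hw1 := clm_decomp' K x (fderiv ℝ K.w1 x) P
  have hw2 := clm_decomp' K x (fderiv ℝ K.w2 x) P
  have k1 : K.h1 x (e3 K x) = 0 := by simp [Coef.h1, e3]
  have k2 : K.h2 x (e3 K x) = 0 := by simp [Coef.h2, e3]
  have k3 : K.h1 x e1 = 1 := by simp only [Coef.h1, e1, mul_zero, sub_zero]
  have k4 : K.h2 x e1 = 0 := by simp [Coef.h2, e1]
  simp only [Coef.dgF, Coef.d1, Coef.d2, k1, k2, k3, k4,
    show (e3 K x : P4).2.1 = 0 from rfl, show (e3 K x : P4).2.2.1 = 1 from rfl,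
    show (e1 : P4).2.1 = 0 from rfl, show (e1 : P4).2.2.1 = 0 from rfl]
  rw [hw1, hw2]
  ring

lemma comb_alphaZ (K : Coef) (x P : P4) :
    K.dgF x e1 P (e4 K x) + K.dgF x P e1 (e4 K x) - K.dgF x (e4 K x) e1 P =
    - (fderiv ℝ K.om x e1 * P.2.2.1)
      - (K.g11 x * K.h1 x P * fderiv ℝ K.s1 x e1
        + K.g12 x * (K.h1 x P * fderiv ℝ K.s2 x e1 + K.h2 x P * fderiv ℝ K.s1 x e1)
        + K.g22 x * K.h2 x P * fderiv ℝ K.s2 x e1)
      - (fderiv ℝ K.g11 x (e4 K x) * K.h1 x P + fderiv ℝ K.g12 x (e4 K x) * K.h2 x P)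
      + (K.g11 x * (P.2.2.1 * (-(fderiv ℝ K.s1 x (e3 K x) - fderiv ℝ K.w1 x (e4 K x)))
          - (K.h1 x P * fderiv ℝ K.s1 x e1 + K.h2 x P * fderiv ℝ K.s1 x e2))
        + K.g12 x * (P.2.2.1 * (-(fderiv ℝ K.s2 x (e3 K x) - fderiv ℝ K.w2 x (e4 K x)))
          - (K.h1 x P * fderiv ℝ K.s2 x e1 + K.h2 x P * fderiv ℝ K.s2 x e2))) := by
  have hs1 := clm_decomp' K x (fderiv ℝ K.s1 x) P
  have hs2 := clm_decomp' K x (fderiv ℝ K.s2 x) P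
  have k1 : K.h1 x (e4 K x) = 0 := by simp [Coef.h1, e4]
  have k2 : K.h2 x (e4 K x) = 0 := by simp [Coef.h2, e4]
  have k3 : K.h1 x e1 = 1 := by simp [Coef.h1, e1]
  have k4 : K.h2 x e1 = 0 := by simp only [Coef.h2, e1, mul_zero, sub_self]
  simp only [Coef.dgF, Coef.d1, Coef.d2, k1, k2, k3, k4,
    show (e4 K x : P4).2.1 = 1 from rfl, show (e4 K x : P4).2.2.1 = 0 from rfl,
    show (e1 : P4).2.1 = 0 from rfl, show (e1 : P4).2.2.1 = 0 from rfl]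
  rw [hs1, hs2]
  ring

lemma dgF_e1_P_e1 (K : Coef) (x P : P4) :
    K.dgF x e1 P e1 = fderiv ℝ K.g11 x e1 * K.h1 x P + fderiv ℝ K.g12 x e1 * K.h2 x P
      - P.2.1 * (K.g11 x * fderiv ℝ K.s1 x e1 + K.g12 x * fderiv ℝ K.s2 x e1)
      - P.2.2.1 * (K.g11 x * fderiv ℝ K.w1 x e1 + K.g12 x * fderiv ℝ K.w2 x e1) := by
  have k3 : K.h1 x e1 = 1 := by simp only [Coef.h1, e1, mul_zero, sub_zero]
  have k4 : K.h2 x e1 = 0 := by simp only [Coef.h2, e1, mul_zero, sub_self]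
  simp only [Coef.dgF, Coef.d1, Coef.d2, k3, k4,
    show (e1 : P4).2.1 = 0 from rfl, show (e1 : P4).2.2.1 = 0 from rfl]
  ring

lemma dgF_P_e1_e1 (K : Coef) (x P : P4) :
    K.dgF x P e1 e1 = fderiv ℝ K.g11 x P := by
  have k3 : K.h1 x e1 = 1 := by simp [Coef.h1, e1]
  have k4 : K.h2 x e1 = 0 := by simp [Coef.h2, e1]
  simp only [Coef.dgF, Coef.d1, Coef.d2, k3, k4,
    show (e1 : P4).2.1 = 0 from rfl, show (e1 : P4).2.2.1 = 0 from rfl]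
  ring

lemma dgF_symm (K : Coef) (x h a b : P4) : K.dgF x h a b = K.dgF x h b a := by
  simp only [Coef.dgF]; ring

lemma DG_symm (h : PtHyp K G Psi V z C cv cw cu) (a b c : P4) :
    fderiv ℝ G z a b c = fderiv ℝ G z a c b := by
  rw [h.iso.deriv_iso h.mem b c a, h.iso.deriv_iso h.mem c b a, dgF_symm,
    K.gF_symm _ (Sd Psi z a b), K.gF_symm _ (Sd Psi z a c)]
  ring

/-- the `beta` equation -/
lemma Sv_TT (h : PtHyp K G Psi V z C cv cw cu) {N : P4} (hN : fderiv ℝ Psi z N = e3 K (Psi z)) :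
    |(Sd Psi z e1 e1).2.1| ≤ 100 * C ^ 5 * ((PP Psi z).2.1 * (‖fderiv ℝ G z‖
      + cw * (PP Psi z).2.1 + cu * (PP Psi z).2.2.1 + (PP Psi z).2.2.1 + (PP Psi z).2.1)) := by
  have hC := h.bd.one_le
  have hb : 0 < (PP Psi z).2.1 := h.pos
  have ha : 0 < (PP Psi z).2.2.1 := h.sq_le.2.1
  have ht := h.iso.transf h.mem e1 e1 N
  rw [hN, K.gF_symm, gF_e3] at ht
  have hcomb := comb_beta K (Psi z) (PP Psi z)
  have halg := alg_q (C := C) (c4 := cw) (c3 := cu) (a := (PP Psi z).2.2.1)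
    (b := (PP Psi z).2.1) hC h.bd.cw0 h.bd.cu0 ha.le hb.le h.abs_h_le.1 h.abs_h_le.2
    h.sq_le.1 h.bd.g11 h.bd.g12 h.bd.g22 h.bd.om_4 h.bd.om_1 h.bd.om_2
    h.bd.g11_3 h.bd.g12_3 h.bd.g22_3 h.bd.t1 h.bd.t2 h.bd.w1_1 h.bd.w1_2 h.bd.w2_1 h.bd.w2_2
  rw [← hcomb] at halg
  have hL := norm_nonneg (fderiv ℝ G z)
  set L := ‖fderiv ℝ G z‖ with hLdef
  have hNn := h.norm_N hN
  have d1 : |fderiv ℝ G z e1 e1 N| ≤ L * (C ^ 2 * (PP Psi z).2.1) := by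
    have := DG_le G z e1 e1 N
    rw [norm_e1, mul_one, mul_one] at this
    exact this.trans (by gcongr)
  have d2 : |fderiv ℝ G z N e1 e1| ≤ L * (C ^ 2 * (PP Psi z).2.1) := by
    have := DG_le G z N e1 e1
    rw [norm_e1, mul_one, mul_one] at this
    exact this.trans (by gcongr)
  have hom := h.om_pos
  have homlo := h.bd.om_lo
  set E := cw * (PP Psi z).2.1 + cu * (PP Psi z).2.2.1 + (PP Psi z).2.2.1 + (PP Psi z).2.1 with hE
  have hE0 : 0 ≤ E := by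
    have := h.bd.cw0
    have := h.bd.cu0
    positivity
  have hmain : 2 * K.om (Psi z) * |(Sd Psi z e1 e1).2.1|
      ≤ 3 * (L * (C ^ 2 * (PP Psi z).2.1)) + 60 * C ^ 4 * ((PP Psi z).2.1 * E) := by
    have e : 2 * K.om (Psi z) * |(Sd Psi z e1 e1).2.1|
        = |2 * (-K.om (Psi z) * (Sd Psi z e1 e1).2.1)| := by
      rw [abs_mul, abs_mul, abs_neg, abs_of_pos hom, abs_of_pos (by norm_num : (0:ℝ) < 2)]; ring
    rw [e, ht]
    have e2 : fderiv ℝ G z e1 e1 N + fderiv ℝ G z e1 e1 N - fderiv ℝ G z N e1 e1 -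
        (K.dgF (Psi z) (PP Psi z) (PP Psi z) (e3 K (Psi z))
          + K.dgF (Psi z) (PP Psi z) (PP Psi z) (e3 K (Psi z))
          - K.dgF (Psi z) (e3 K (Psi z)) (PP Psi z) (PP Psi z))
        = 2 * fderiv ℝ G z e1 e1 N - fderiv ℝ G z N e1 e1 -
         (2 * K.dgF (Psi z) (PP Psi z) (PP Psi z) (e3 K (Psi z))
          - K.dgF (Psi z) (e3 K (Psi z)) (PP Psi z) (PP Psi z)) := by
      ring
    rw [e2]
    rw [abs_le] at d1 d2 halg ⊢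
    constructor <;> linarith only [d1.1, d2.2, halg.2, d1.2, d2.1, halg.1]
  have hS0 := abs_nonneg (Sd Psi z e1 e1).2.1
  have hfin : |(Sd Psi z e1 e1).2.1| ≤ C * (3 * (L * (C ^ 2 * (PP Psi z).2.1))
      + 60 * C ^ 4 * ((PP Psi z).2.1 * E)) := by
    calc |(Sd Psi z e1 e1).2.1| = 1 * |(Sd Psi z e1 e1).2.1| := by ring
      _ ≤ (C * K.om (Psi z)) * |(Sd Psi z e1 e1).2.1| := by gcongr
      _ ≤ C * (2 * K.om (Psi z) * |(Sd Psi z e1 e1).2.1|) := by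
        linarith only [mul_nonneg (mul_nonneg (by linarith : (0:ℝ) ≤ C) hom.le) hS0]
      _ ≤ _ := by gcongr
  calc |(Sd Psi z e1 e1).2.1| ≤ _ := hfin
    _ = 3 * C ^ 3 * ((PP Psi z).2.1 * L) + 60 * C ^ 5 * ((PP Psi z).2.1 * E) := by ring
    _ ≤ 100 * C ^ 5 * ((PP Psi z).2.1 * L) + 100 * C ^ 5 * ((PP Psi z).2.1 * E) := by
      have c1 : C ^ 3 ≤ C ^ 5 := pow_le_pow_right₀ hC (by norm_num)
      have c3 : 0 ≤ C ^ 5 := by positivity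
      gcongr
      · norm_num
      · norm_num
    _ = _ := by rw [hE]; ring

/-- the `alpha` equation -/
lemma Su_TT (h : PtHyp K G Psi V z C cv cw cu) {N : P4} (hN : fderiv ℝ Psi z N = e4 K (Psi z)) :
    |(Sd Psi z e1 e1).2.2.1| ≤ 100 * C ^ 5 * ((PP Psi z).2.2.1 * (‖fderiv ℝ G z‖
      + cv * (PP Psi z).2.1 + cu * (PP Psi z).2.2.1 + (PP Psi z).2.2.1 + (PP Psi z).2.1)) := by
  have hC := h.bd.one_le
  have hb : 0 < (PP Psi z).2.1 := h.pos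
  have ha : 0 < (PP Psi z).2.2.1 := h.sq_le.2.1
  have ht := h.iso.transf h.mem e1 e1 N
  rw [hN, K.gF_symm, gF_e4] at ht
  have hcomb := comb_alpha K (Psi z) (PP Psi z)
  have hx1 := h.abs_h_le.1
  have hx2 := h.abs_h_le.2
  rw [add_comm (PP Psi z).2.2.1] at hx1 hx2
  have hsq := h.sq_le.1
  rw [mul_comm (PP Psi z).2.2.1] at hsq
  have ht1 : |(-(fderiv ℝ K.s1 (Psi z) (e3 K (Psi z)) - fderiv ℝ K.w1 (Psi z) (e4 K (Psi z))))| ≤ C := by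
    rw [abs_neg]; exact h.bd.t1
  have ht2 : |(-(fderiv ℝ K.s2 (Psi z) (e3 K (Psi z)) - fderiv ℝ K.w2 (Psi z) (e4 K (Psi z))))| ≤ C := by
    rw [abs_neg]; exact h.bd.t2
  have halg := alg_q (C := C) (c4 := cu) (c3 := cv) (a := (PP Psi z).2.1)
    (b := (PP Psi z).2.2.1) hC h.bd.cu0 h.bd.cv0 hb.le ha.le hx1 hx2
    hsq h.bd.g11 h.bd.g12 h.bd.g22 h.bd.om_3 h.bd.om_1 h.bd.om_2
    h.bd.g11_4 h.bd.g12_4 h.bd.g22_4 ht1 ht2 h.bd.s1_1 h.bd.s1_2 h.bd.s2_1 h.bd.s2_2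
  rw [← hcomb] at halg
  have hL := norm_nonneg (fderiv ℝ G z)
  set L := ‖fderiv ℝ G z‖ with hLdef
  have hNn := h.norm_N' hN
  have d1 : |fderiv ℝ G z e1 e1 N| ≤ L * (C ^ 2 * (PP Psi z).2.2.1) := by
    have := DG_le G z e1 e1 N
    rw [norm_e1, mul_one, mul_one] at this
    exact this.trans (by gcongr)
  have d2 : |fderiv ℝ G z N e1 e1| ≤ L * (C ^ 2 * (PP Psi z).2.2.1) := by
    have := DG_le G z N e1 e1
    rw [norm_e1, mul_one, mul_one] at this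
    exact this.trans (by gcongr)
  have hom := h.om_pos
  have homlo := h.bd.om_lo
  set E := cu * (PP Psi z).2.2.1 + cv * (PP Psi z).2.1 + (PP Psi z).2.1 + (PP Psi z).2.2.1 with hE
  have hE0 : 0 ≤ E := by
    have := h.bd.cv0
    have := h.bd.cu0
    positivity
  have hmain : 2 * K.om (Psi z) * |(Sd Psi z e1 e1).2.2.1|
      ≤ 3 * (L * (C ^ 2 * (PP Psi z).2.2.1)) + 60 * C ^ 4 * ((PP Psi z).2.2.1 * E) := by
    have e : 2 * K.om (Psi z) * |(Sd Psi z e1 e1).2.2.1|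
        = |2 * (-K.om (Psi z) * (Sd Psi z e1 e1).2.2.1)| := by
      rw [abs_mul, abs_mul, abs_neg, abs_of_pos hom, abs_of_pos (by norm_num1 : (0:ℝ) < 2)]; ring
    rw [e, ht]
    have e2 : fderiv ℝ G z e1 e1 N + fderiv ℝ G z e1 e1 N - fderiv ℝ G z N e1 e1 -
        (K.dgF (Psi z) (PP Psi z) (PP Psi z) (e4 K (Psi z))
          + K.dgF (Psi z) (PP Psi z) (PP Psi z) (e4 K (Psi z))
          - K.dgF (Psi z) (e4 K (Psi z)) (PP Psi z) (PP Psi z))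
        = 2 * fderiv ℝ G z e1 e1 N - fderiv ℝ G z N e1 e1 -
         (2 * K.dgF (Psi z) (PP Psi z) (PP Psi z) (e4 K (Psi z))
          - K.dgF (Psi z) (e4 K (Psi z)) (PP Psi z) (PP Psi z)) := by
      ring
    rw [e2]
    rw [abs_le] at d1 d2 halg ⊢
    constructor <;> linarith only [d1.1, d2.2, halg.2, d1.2, d2.1, halg.1]
  have hS0 := abs_nonneg (Sd Psi z e1 e1).2.2.1
  have hfin : |(Sd Psi z e1 e1).2.2.1| ≤ C * (3 * (L * (C ^ 2 * (PP Psi z).2.2.1))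
      + 60 * C ^ 4 * ((PP Psi z).2.2.1 * E)) := by
    calc |(Sd Psi z e1 e1).2.2.1| = 1 * |(Sd Psi z e1 e1).2.2.1| := by ring
      _ ≤ (C * K.om (Psi z)) * |(Sd Psi z e1 e1).2.2.1| := by gcongr
      _ ≤ C * (2 * K.om (Psi z) * |(Sd Psi z e1 e1).2.2.1|) := by
        linarith only [mul_nonneg (mul_nonneg (by linarith : (0:ℝ) ≤ C) hom.le) hS0]
      _ ≤ _ := by gcongr
  calc |(Sd Psi z e1 e1).2.2.1| ≤ _ := hfin
    _ = 3 * C ^ 3 * ((PP Psi z).2.2.1 * L) + 60 * C ^ 5 * ((PP Psi z).2.2.1 * E) := by ring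
    _ ≤ 100 * C ^ 5 * ((PP Psi z).2.2.1 * L) + 100 * C ^ 5 * ((PP Psi z).2.2.1 * E) := by
      have c1 : C ^ 3 ≤ C ^ 5 := pow_le_pow_right₀ hC (by norm_num)
      have c3 : 0 ≤ C ^ 5 := by positivity
      gcongr
      · norm_num
      · norm_num
    _ = _ := by rw [hE]; ring

end PtHyp

end Vale.Agent.P354w
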