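import Vale.Agent.P354w.PointEq

set_option maxSynthPendingDepth 3

namespace Vale.Agent.P354w

variable {K : Coef} {G : P4 → P4 →L[ℝ] P4 →L[ℝ] ℝ} {Psi : P4 → P4} {V : Set P4}

namespace PtHyp

variable {z : P4} {C cv cw cu : ℝ}

lemma Sv_Z (h : PtHyp K G Psi V z C cv cw cu) {N Z : P4} (hN : fderiv ℝ Psi z N = e3 K (Psi z))
    (hZ : fderiv ℝ Psi z Z = e1) :
    |(Sd Psi z Z e1).2.1| ≤ 10 * C ^ 4 * (‖fderiv ℝ G z‖ * ‖Z‖ * (PP Psi z).2.1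
      + cu * ((PP Psi z).2.2.1 + (PP Psi z).2.1) + ((PP Psi z).2.2.1 + (PP Psi z).2.1)) := by
  have hC := h.bd.one_le
  have hC0 : 0 < C := by linarith
  have hb : 0 < (PP Psi z).2.1 := h.pos
  have ha : 0 < (PP Psi z).2.2.1 := h.sq_le.2.1
  have ht := h.iso.transf h.mem Z e1 N
  rw [hN, K.gF_symm, gF_e3, hZ] at ht
  have hcomb := comb_betaZ K (Psi z) (PP Psi z)
  have hL := norm_nonneg (fderiv ℝ G z)
  have hZn := norm_nonneg Z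
  have hNn := h.norm_N hN
  obtain ⟨hx1, hx2⟩ := h.abs_h_le
  have hcu := h.bd.cu0
  have d : ∀ p q r : P4, ‖p‖ * ‖q‖ * ‖r‖ ≤ ‖Z‖ * (C ^ 2 * (PP Psi z).2.1) →
      |fderiv ℝ G z p q r| ≤ ‖fderiv ℝ G z‖ * (‖Z‖ * (C ^ 2 * (PP Psi z).2.1)) := by
    intro p q r hpqr
    calc |fderiv ℝ G z p q r| ≤ ‖fderiv ℝ G z‖ * ‖p‖ * ‖q‖ * ‖r‖ := DG_le G z p q r
      _ = ‖fderiv ℝ G z‖ * (‖p‖ * ‖q‖ * ‖r‖) := by ring
      _ ≤ _ := by gcongr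
  have d1 := d Z e1 N (by rw [norm_e1, mul_one]; gcongr)
  have d2 := d e1 Z N (by rw [norm_e1, one_mul]; gcongr)
  have d3 := d N Z e1 (by rw [norm_e1, mul_one, mul_comm]; gcongr)
  have halg := alg_qZ hC ha.le hb.le hx1 hx2 h.bd.g11 h.bd.g12 h.bd.g22
    h.bd.om_1 h.bd.g11_3 h.bd.g12_3 h.bd.t1 h.bd.t2 h.bd.w1_1 h.bd.w1_2 h.bd.w2_1 h.bd.w2_2
  rw [← hcomb] at halg
  have hom := h.om_pos
  have homlo := h.bd.om_lo
  have hcux : cu * (|K.h1 (Psi z) (PP Psi z)| + |K.h2 (Psi z) (PP Psi z)|)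
      ≤ 2 * C * (cu * ((PP Psi z).2.2.1 + (PP Psi z).2.1)) := by
    have : |K.h1 (Psi z) (PP Psi z)| + |K.h2 (Psi z) (PP Psi z)|
      ≤ 2 * C * ((PP Psi z).2.2.1 + (PP Psi z).2.1) := by linarith
    calc _ ≤ cu * (2 * C * ((PP Psi z).2.2.1 + (PP Psi z).2.1)) := by gcongr
      _ = _ := by ring
  have hmain : 2 * K.om (Psi z) * |(Sd Psi z Z e1).2.1|
      ≤ 3 * (‖fderiv ℝ G z‖ * (‖Z‖ * (C ^ 2 * (PP Psi z).2.1)))
        + (15 * (C ^ 3 * ((PP Psi z).2.2.1 + (PP Psi z).2.1))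
          + 2 * C * (cu * ((PP Psi z).2.2.1 + (PP Psi z).2.1))) := by
    have e : 2 * K.om (Psi z) * |(Sd Psi z Z e1).2.1|
        = |2 * (-K.om (Psi z) * (Sd Psi z Z e1).2.1)| := by
      rw [abs_mul, abs_mul, abs_neg, abs_of_pos hom, abs_of_pos (by norm_num : (0:ℝ) < 2)]; ring
    rw [e, ht]
    clear e ht hcomb
    rw [abs_le] at d1 d2 d3 halg ⊢
    obtain ⟨_, _⟩ := d1
    obtain ⟨_, _⟩ := d2
    obtain ⟨_, _⟩ := d3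
    obtain ⟨_, _⟩ := halg
    constructor <;> linarith
  have hS0 := abs_nonneg (Sd Psi z Z e1).2.1
  clear d1 d2 d3 halg hcomb ht d hcux
  generalize ‖fderiv ℝ G z‖ = L at *
  have hfin : 2 * |(Sd Psi z Z e1).2.1| ≤ C * (3 * (L * (‖Z‖ * (C ^ 2 * (PP Psi z).2.1)))
      + (15 * (C ^ 3 * ((PP Psi z).2.2.1 + (PP Psi z).2.1))
          + 2 * C * (cu * ((PP Psi z).2.2.1 + (PP Psi z).2.1)))) := by
    calc 2 * |(Sd Psi z Z e1).2.1| = 1 * (2 * |(Sd Psi z Z e1).2.1|) := by ring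
      _ ≤ (C * K.om (Psi z)) * (2 * |(Sd Psi z Z e1).2.1|) := by gcongr
      _ = C * (2 * K.om (Psi z) * |(Sd Psi z Z e1).2.1|) := by ring
      _ ≤ _ := by gcongr
  calc |(Sd Psi z Z e1).2.1| = (1/2) * (2 * |(Sd Psi z Z e1).2.1|) := by ring
    _ ≤ (1/2) * (C * (3 * (L * (‖Z‖ * (C ^ 2 * (PP Psi z).2.1)))
      + (15 * (C ^ 3 * ((PP Psi z).2.2.1 + (PP Psi z).2.1))
          + 2 * C * (cu * ((PP Psi z).2.2.1 + (PP Psi z).2.1))))) := by gcongr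
    _ = 3/2 * C ^ 3 * (L * ‖Z‖ * (PP Psi z).2.1)
        + 1 * C ^ 2 * (cu * ((PP Psi z).2.2.1 + (PP Psi z).2.1))
        + 15/2 * C ^ 4 * ((PP Psi z).2.2.1 + (PP Psi z).2.1) := by
      ring
    _ ≤ 10 * C ^ 4 * (L * ‖Z‖ * (PP Psi z).2.1)
        + 10 * C ^ 4 * (cu * ((PP Psi z).2.2.1 + (PP Psi z).2.1))
        + 10 * C ^ 4 * ((PP Psi z).2.2.1 + (PP Psi z).2.1) := by
      have c1 : C ^ 3 ≤ C ^ 4 := pow_le_pow_right₀ hC (by norm_num)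
      have c2 : C ^ 2 ≤ C ^ 4 := pow_le_pow_right₀ hC (by norm_num)
      have c3 : 0 ≤ C ^ 4 := by positivity
      gcongr
      · norm_num
      · norm_num
      · norm_num
    _ = _ := by ring

lemma Su_Z (h : PtHyp K G Psi V z C cv cw cu) {N Z : P4} (hN : fderiv ℝ Psi z N = e4 K (Psi z))
    (hZ : fderiv ℝ Psi z Z = e1) :
    |(Sd Psi z Z e1).2.2.1| ≤ 40 * C ^ 4 * (‖fderiv ℝ G z‖ * ‖Z‖ * (PP Psi z).2.2.1
      + (PP Psi z).2.2.1 + (PP Psi z).2.1)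
      + C * (cv * (|K.h1 (Psi z) (PP Psi z)| + |K.h2 (Psi z) (PP Psi z)|)) := by
  have hC := h.bd.one_le
  have hC0 : 0 < C := by linarith
  have hb : 0 < (PP Psi z).2.1 := h.pos
  have ha : 0 < (PP Psi z).2.2.1 := h.sq_le.2.1
  have ht := h.iso.transf h.mem Z e1 N
  rw [hN, K.gF_symm, gF_e4, hZ] at ht
  have hcomb := comb_alphaZ K (Psi z) (PP Psi z)
  have hL := norm_nonneg (fderiv ℝ G z)
  have hZn := norm_nonneg Z
  have hNn := h.norm_N' hN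
  obtain ⟨hx1, hx2⟩ := h.abs_h_le
  rw [add_comm (PP Psi z).2.2.1] at hx1 hx2
  have hcv := h.bd.cv0
  have d : ∀ p q r : P4, ‖p‖ * ‖q‖ * ‖r‖ ≤ ‖Z‖ * (C ^ 2 * (PP Psi z).2.2.1) →
      |fderiv ℝ G z p q r| ≤ ‖fderiv ℝ G z‖ * (‖Z‖ * (C ^ 2 * (PP Psi z).2.2.1)) := by
    intro p q r hpqr
    calc |fderiv ℝ G z p q r| ≤ ‖fderiv ℝ G z‖ * ‖p‖ * ‖q‖ * ‖r‖ := DG_le G z p q r
      _ = ‖fderiv ℝ G z‖ * (‖p‖ * ‖q‖ * ‖r‖) := by ring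
      _ ≤ _ := by gcongr
  have d1 := d Z e1 N (by rw [norm_e1, mul_one]; gcongr)
  have d2 := d e1 Z N (by rw [norm_e1, one_mul]; gcongr)
  have d3 := d N Z e1 (by rw [norm_e1, mul_one, mul_comm]; gcongr)
  have hom := h.om_pos
  have homlo := h.bd.om_lo
  have ht1 : |(-(fderiv ℝ K.s1 (Psi z) (e3 K (Psi z)) - fderiv ℝ K.w1 (Psi z) (e4 K (Psi z))))| ≤ C := by
    rw [abs_neg]; exact h.bd.t1
  have ht2 : |(-(fderiv ℝ K.s2 (Psi z) (e3 K (Psi z)) - fderiv ℝ K.w2 (Psi z) (e4 K (Psi z))))| ≤ C := by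
    rw [abs_neg]; exact h.bd.t2
  have halg := alg_qZ hC hb.le ha.le hx1 hx2 h.bd.g11 h.bd.g12 h.bd.g22
    h.bd.om_1 h.bd.g11_4 h.bd.g12_4 ht1 ht2 h.bd.s1_1 h.bd.s1_2 h.bd.s2_1 h.bd.s2_2
  rw [← hcomb] at halg
  have hmain : 2 * K.om (Psi z) * |(Sd Psi z Z e1).2.2.1|
      ≤ 3 * (‖fderiv ℝ G z‖ * (‖Z‖ * (C ^ 2 * (PP Psi z).2.2.1)))
        + (15 * (C ^ 3 * ((PP Psi z).2.1 + (PP Psi z).2.2.1)) + cv * (|K.h1 (Psi z) (PP Psi z)|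
          + |K.h2 (Psi z) (PP Psi z)|)) := by
    have e : 2 * K.om (Psi z) * |(Sd Psi z Z e1).2.2.1|
        = |2 * (-K.om (Psi z) * (Sd Psi z Z e1).2.2.1)| := by
      rw [abs_mul, abs_mul, abs_neg, abs_of_pos hom, abs_of_pos (by norm_num : (0:ℝ) < 2)]; ring
    rw [e, ht]
    clear e ht hcomb
    rw [abs_le] at d1 d2 d3 halg ⊢
    obtain ⟨_, _⟩ := d1
    obtain ⟨_, _⟩ := d2
    obtain ⟨_, _⟩ := d3
    obtain ⟨_, _⟩ := halg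
    constructor <;> linarith
  have hS0 := abs_nonneg (Sd Psi z Z e1).2.2.1
  have hv0 : 0 ≤ cv * (|K.h1 (Psi z) (PP Psi z)| + |K.h2 (Psi z) (PP Psi z)|) := by positivity
  clear d1 d2 d3 halg hcomb ht d
  generalize |K.h1 (Psi z) (PP Psi z)| + |K.h2 (Psi z) (PP Psi z)| = y at *
  generalize ‖fderiv ℝ G z‖ = L at *
  have hfin : 2 * |(Sd Psi z Z e1).2.2.1| ≤ C * (3 * (L * (‖Z‖ * (C ^ 2 * (PP Psi z).2.2.1)))
      + (15 * (C ^ 3 * ((PP Psi z).2.1 + (PP Psi z).2.2.1)) + cv * y)) := by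
    calc 2 * |(Sd Psi z Z e1).2.2.1| = 1 * (2 * |(Sd Psi z Z e1).2.2.1|) := by ring
      _ ≤ (C * K.om (Psi z)) * (2 * |(Sd Psi z Z e1).2.2.1|) := by gcongr
      _ = C * (2 * K.om (Psi z) * |(Sd Psi z Z e1).2.2.1|) := by ring
      _ ≤ _ := by gcongr
  calc |(Sd Psi z Z e1).2.2.1| ≤ 2 * |(Sd Psi z Z e1).2.2.1| := by linarith
    _ ≤ _ := hfin
    _ = 3 * C ^ 3 * (L * ‖Z‖ * (PP Psi z).2.2.1)
        + 15 * C ^ 4 * ((PP Psi z).2.2.1 + (PP Psi z).2.1) + C * (cv * y) := by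
      ring
    _ ≤ 40 * C ^ 4 * (L * ‖Z‖ * (PP Psi z).2.2.1)
        + 40 * C ^ 4 * ((PP Psi z).2.2.1 + (PP Psi z).2.1) + C * (cv * y) := by
      have c1 : C ^ 3 ≤ C ^ 4 := pow_le_pow_right₀ hC (by norm_num)
      have c3 : 0 ≤ C ^ 4 := by positivity
      gcongr
      · norm_num
      · norm_num
    _ = _ := by ring

/-- derivative of `xi` in direction `Z` -/
lemma xi_Z (h : PtHyp K G Psi V z C cv cw cu) {Z : P4} (hZ : fderiv ℝ Psi z Z = e1) :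
    |(K.dgF (Psi z) e1 (PP Psi z) e1 + K.gF (Psi z) (Sd Psi z Z e1) e1)
      + (1/2) * (PP Psi z).2.1 * fderiv ℝ K.g11 (Psi z) (e4 K (Psi z))|
    ≤ 10 * C ^ 2 * (‖fderiv ℝ G z‖ * ‖Z‖ ^ 2 + cu * (PP Psi z).2.2.1
        + (PP Psi z).2.2.1 + (PP Psi z).2.1) := by
  have hC := h.bd.one_le
  have hC0 : 0 < C := by linarith
  have hb : 0 < (PP Psi z).2.1 := h.pos
  have ha : 0 < (PP Psi z).2.2.1 := h.sq_le.2.1
  have ht := h.iso.transf h.mem Z e1 Z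
  rw [hZ] at ht
  have hL := norm_nonneg (fderiv ℝ G z)
  have hZn := norm_nonneg Z
  obtain ⟨hx1, hx2⟩ := h.abs_h_le
  have hcu := h.bd.cu0
  have d1 : |fderiv ℝ G z e1 Z Z| ≤ ‖fderiv ℝ G z‖ * ‖Z‖ ^ 2 := by
    have := DG_le G z e1 Z Z
    rw [norm_e1, mul_one] at this
    linarith [this, pow_two ‖Z‖]
  rw [h.DG_symm Z e1 Z, dgF_symm K (Psi z) e1 e1 (fderiv ℝ Psi z e1)] at ht
  have hA := dgF_e1_P_e1 K (Psi z) (PP Psi z)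
  have hB := dgF_P_e1_e1 K (Psi z) (PP Psi z)
  have hdec := clm_decomp' K (Psi z) (fderiv ℝ K.g11 (Psi z)) (PP Psi z)
  have b' : |(PP Psi z).2.1| ≤ (PP Psi z).2.1 := (abs_of_pos hb).le
  have a' : |(PP Psi z).2.2.1| ≤ (PP Psi z).2.2.1 := (abs_of_pos ha).le
  have t1 := aux_mul2 h.bd.g11_1 hx1
  have t2 := aux_mul2 h.bd.g12_1 hx2
  have t3 := aux_mul2 b' (aux_mul2 h.bd.g11 h.bd.s1_1)
  have t4 := aux_mul2 b' (aux_mul2 h.bd.g12 h.bd.s2_1)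
  have t3a := aux_mul2 a' (aux_mul2 h.bd.g11 h.bd.w1_1)
  have t4a := aux_mul2 a' (aux_mul2 h.bd.g12 h.bd.w2_1)
  have t5 := aux_mul2 hx1 h.bd.g11_1
  have t6 := aux_mul2 hx2 h.bd.g11_2
  have t7 := aux_mul2 a' h.bd.g11_3
  have e : (K.dgF (Psi z) e1 (PP Psi z) e1 + K.gF (Psi z) (Sd Psi z Z e1) e1)
      + (1/2) * (PP Psi z).2.1 * fderiv ℝ K.g11 (Psi z) (e4 K (Psi z))
      = K.dgF (Psi z) e1 (PP Psi z) e1 + (1/2) * fderiv ℝ G z e1 Z Z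
        - (1/2) * (K.h1 (Psi z) (PP Psi z) * fderiv ℝ K.g11 (Psi z) e1
          + (PP Psi z).2.2.1 * fderiv ℝ K.g11 (Psi z) (e3 K (Psi z))
          + K.h2 (Psi z) (PP Psi z) * fderiv ℝ K.g11 (Psi z) e2) := by
    have : K.dgF (Psi z) (fderiv ℝ Psi z e1) e1 e1 = fderiv ℝ K.g11 (Psi z) (PP Psi z) := hB
    rw [this, hdec] at ht
    linarith
  rw [e, hA, mul_add ((PP Psi z).2.1), mul_add ((PP Psi z).2.2.1)]
  clear e hA hB hdec ht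
  generalize fderiv ℝ K.g11 (Psi z) e1 * K.h1 (Psi z) (PP Psi z) = q1 at *
  generalize fderiv ℝ K.g12 (Psi z) e1 * K.h2 (Psi z) (PP Psi z) = q2 at *
  generalize (PP Psi z).2.1 * (K.g11 (Psi z) * fderiv ℝ K.s1 (Psi z) e1) = q3 at *
  generalize (PP Psi z).2.1 * (K.g12 (Psi z) * fderiv ℝ K.s2 (Psi z) e1) = q4 at *
  generalize (PP Psi z).2.2.1 * (K.g11 (Psi z) * fderiv ℝ K.w1 (Psi z) e1) = q3a at *
  generalize (PP Psi z).2.2.1 * (K.g12 (Psi z) * fderiv ℝ K.w2 (Psi z) e1) = q4a at *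
  generalize K.h1 (Psi z) (PP Psi z) * fderiv ℝ K.g11 (Psi z) e1 = q5 at *
  generalize K.h2 (Psi z) (PP Psi z) * fderiv ℝ K.g11 (Psi z) e2 = q6 at *
  generalize (PP Psi z).2.2.1 * fderiv ℝ K.g11 (Psi z) (e3 K (Psi z)) = q7 at *
  generalize fderiv ℝ G z e1 Z Z = q8 at *
  set a := (PP Psi z).2.2.1 with hadef
  set b := (PP Psi z).2.1 with hbdef
  set Q := ‖fderiv ℝ G z‖ * ‖Z‖ ^ 2 with hQ
  have hQ0 : 0 ≤ Q := by positivity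
  have hR0 : 0 ≤ cu * a := by positivity
  clear_value Q a b
  have m0 : 1 ≤ C ^ 2 := one_le_pow₀ hC
  have m1 : Q ≤ C ^ 2 * Q := le_mul_of_one_le_left hQ0 m0
  have m2 : cu * a ≤ C ^ 2 * (cu * a) := le_mul_of_one_le_left hR0 m0
  have t1' : C * (C * (a + b)) = C ^ 2 * (a + b) := by ring
  have t3' : b * (C * C) = C ^ 2 * b := by ring
  have t3a' : a * (C * C) = C ^ 2 * a := by ring
  have t5' : C * (a + b) * C = C ^ 2 * (a + b) := by ring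
  have t7' : a * cu = cu * a := by ring
  rw [t1'] at t1 t2
  rw [t3'] at t3 t4
  rw [t3a'] at t3a t4a
  rw [t5'] at t5 t6
  rw [t7'] at t7
  have e2 : 10 * C ^ 2 * (Q + cu * a + a + b) = 10 * (C ^ 2 * Q) + 10 * (C ^ 2 * (cu * a))
     + 10 * (C ^ 2 * (a + b)) := by ring
  rw [e2]
  have m3 : C ^ 2 * b ≤ C ^ 2 * (a + b) := by
    apply mul_le_mul_of_nonneg_left _ (by positivity); linarith
  have m3a : C ^ 2 * a ≤ C ^ 2 * (a + b) := by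
    apply mul_le_mul_of_nonneg_left _ (by positivity); linarith
  have m4 : 0 ≤ C ^ 2 * b := by positivity
  have m4a : 0 ≤ C ^ 2 * a := by positivity
  clear * - t1 t2 t3 t4 t3a t4a t5 t6 t7 d1 m1 m2 m3 m4 m3a m4a hQ0 hR0
  generalize C ^ 2 * (a + b) = r1 at *
  generalize C ^ 2 * b = r2 at *
  generalize C ^ 2 * a = r2a at *
  generalize C ^ 2 * Q = r3 at *
  generalize C ^ 2 * (cu * a) = r4 at *
  generalize cu * a = r5 at *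
  rw [abs_le] at t1 t2 t3 t4 t3a t4a t5 t6 t7 d1 ⊢
  obtain ⟨_, _⟩ := t1
  obtain ⟨_, _⟩ := t2
  obtain ⟨_, _⟩ := t3
  obtain ⟨_, _⟩ := t4
  obtain ⟨_, _⟩ := t3a
  obtain ⟨_, _⟩ := t4a
  obtain ⟨_, _⟩ := t5
  obtain ⟨_, _⟩ := t6
  obtain ⟨_, _⟩ := t7
  obtain ⟨_, _⟩ := d1
  constructor <;> linarith

end PtHyp

end Vale.Agent.P354w
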