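import Vale.Agent.P354w.PointEst

set_option maxSynthPendingDepth 3

namespace Vale.Agent.P354w

structure PtHyp (K : Coef) (G : P4 → P4 →L[ℝ] P4 →L[ℝ] ℝ) (Psi : P4 → P4) (V : Set P4)
    (z : P4) (C cv cw cu : ℝ) : Prop where
  iso : Iso K G Psi V
  mem : z ∈ V
  bd : K.Bd (Psi z) C cv cw cu
  cone : ∀ a, ‖a‖ ^ 2 ≤ C * G z a a + C * (G z a e1) ^ 2
  tt : 1 ≤ C * (-(G z e1 e1))
  pos : 0 < (fderiv ℝ Psi z e1).2.1

variable {K : Coef} {G : P4 → P4 →L[ℝ] P4 →L[ℝ] ℝ} {Psi : P4 → P4} {V : Set P4}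

lemma gF_e3 (K : Coef) (x b : P4) : K.gF x (e3 K x) b = - K.om x * b.2.1 := by
  simp only [Coef.gF, e3, zero_mul, one_mul, zero_add, neg_mul, Coef.h1, mul_zero, sub_zero, mul_one, sub_self, add_zero, Coef.h2]

lemma gF_e4 (K : Coef) (x b : P4) : K.gF x (e4 K x) b = - K.om x * b.2.2.1 := by
  simp only [Coef.gF, e4, one_mul, zero_mul, add_zero, neg_mul, Coef.h1, mul_one, sub_self, mul_zero, Coef.h2]

lemma gF_e1 (K : Coef) (x b : P4) :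
    K.gF x e1 b = K.g11 x * K.h1 x b + K.g12 x * K.h2 x b := by
  simp only [Coef.gF, e1, zero_mul, add_zero, mul_zero, Coef.h1, sub_zero, one_mul, zero_add, Coef.h2, sub_self]

namespace PtHyp

variable {z : P4} {C cv cw cu : ℝ}

/-- exotic vertical vector seen from the standard side -/
noncomputable abbrev PP (Psi : P4 → P4) (z : P4) : P4 := fderiv ℝ Psi z e1

lemma norm_form (h : PtHyp K G Psi V z C cv cw cu) :
    G z e1 e1 = -2 * K.om (Psi z) * ((PP Psi z).2.2.1 * (PP Psi z).2.1)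
      + (K.g11 (Psi z) * K.h1 (Psi z) (PP Psi z) ^ 2
        + 2 * K.g12 (Psi z) * K.h1 (Psi z) (PP Psi z) * K.h2 (Psi z) (PP Psi z)
        + K.g22 (Psi z) * K.h2 (Psi z) (PP Psi z) ^ 2) := by
  rw [h.iso.iso z h.mem]
  simp only [Coef.gF]
  ring

lemma om_pos (h : PtHyp K G Psi V z C cv cw cu) : 0 < K.om (Psi z) := by
  have := h.bd.om_lo
  have := h.bd.one_le
  by_contra hcon
  push Not at hcon
  linarith [mul_nonpos_of_nonneg_of_nonpos (by linarith : (0 : ℝ) ≤ C) hcon]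

lemma sq_le (h : PtHyp K G Psi V z C cv cw cu) :
    K.h1 (Psi z) (PP Psi z) ^ 2 + K.h2 (Psi z) (PP Psi z) ^ 2
      ≤ 2 * C ^ 2 * ((PP Psi z).2.2.1 * (PP Psi z).2.1) ∧ 0 < (PP Psi z).2.2.1 ∧
      1 ≤ 2 * C ^ 2 * ((PP Psi z).2.2.1 * (PP Psi z).2.1) := by
  have hC := h.bd.one_le
  have hn := h.norm_form
  have hlo := h.bd.g_lo (K.h1 (Psi z) (PP Psi z)) (K.h2 (Psi z) (PP Psi z))
  have htt := h.tt
  have hom := h.om_pos
  have homhi := h.bd.om_hi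
  have hpos := h.pos
  have hsq : 0 ≤ K.h1 (Psi z) (PP Psi z) ^ 2 + K.h2 (Psi z) (PP Psi z) ^ 2 := by positivity
  set q := K.g11 (Psi z) * K.h1 (Psi z) (PP Psi z) ^ 2
        + 2 * K.g12 (Psi z) * K.h1 (Psi z) (PP Psi z) * K.h2 (Psi z) (PP Psi z)
        + K.g22 (Psi z) * K.h2 (Psi z) (PP Psi z) ^ 2 with hq
  set s := K.h1 (Psi z) (PP Psi z) ^ 2 + K.h2 (Psi z) (PP Psi z) ^ 2 with hs
  set om := K.om (Psi z) with hom'
  set b := (PP Psi z).2.1 with hb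
  set a := (PP Psi z).2.2.1 with ha
  have hpos' : 0 < b := hpos
  clear_value q s om a b
  have hCpos : 0 < C := by linarith only [hC]
  have hq0 : 0 ≤ q := by
    by_contra hcon
    push Not at hcon
    linarith only [hsq, hlo, mul_neg_of_pos_of_neg hCpos hcon]
  have h1 : 1 ≤ C * (2 * om * (a * b) - q) := by
    have : -(G z e1 e1) = 2 * om * (a * b) - q := by rw [hn]; ring
    rw [← this]; exact htt
  have hab : 0 < a * b := by
    by_contra hcon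
    push Not at hcon
    have h2 : om * (a * b) ≤ 0 := mul_nonpos_of_nonneg_of_nonpos hom.le hcon
    linarith only [h1, mul_nonpos_of_nonneg_of_nonpos hCpos.le (by linarith : 2 * om * (a * b) - q ≤ 0)]
  have ha0 : 0 < a := by
    by_contra hcon
    push Not at hcon
    linarith only [hab, mul_nonpos_of_nonpos_of_nonneg hcon hpos'.le]
  have hqle : q ≤ 2 * om * (a * b) := by
    by_contra hc
    push Not at hc
    linarith only [h1, mul_neg_of_pos_of_neg hCpos (by linarith : 2 * om * (a * b) - q < 0)]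
  have h3 : om * (a * b) ≤ C * (a * b) := by
    exact mul_le_mul_of_nonneg_right homhi hab.le
  refine ⟨?_, ha0, ?_⟩
  · calc s ≤ C * q := hlo
      _ ≤ C * (2 * om * (a * b)) := by gcongr
      _ = 2 * C * (om * (a * b)) := by ring
      _ ≤ 2 * C * (C * (a * b)) := by gcongr
      _ = _ := by ring
  · calc (1:ℝ) ≤ C * (2 * om * (a * b) - q) := h1
      _ ≤ C * (2 * om * (a * b)) := by gcongr; linarith only [hq0]
      _ = 2 * C * (om * (a * b)) := by ring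
      _ ≤ 2 * C * (C * (a * b)) := by gcongr
      _ = _ := by ring

lemma abs_h_le (h : PtHyp K G Psi V z C cv cw cu) :
    |K.h1 (Psi z) (PP Psi z)| ≤ C * ((PP Psi z).2.2.1 + (PP Psi z).2.1) ∧
    |K.h2 (Psi z) (PP Psi z)| ≤ C * ((PP Psi z).2.2.1 + (PP Psi z).2.1) := by
  obtain ⟨h1, h2, h3⟩ := h.sq_le
  have hC := h.bd.one_le
  have hpos : 0 < (PP Psi z).2.1 := h.pos
  have key : ∀ x : ℝ, x ^ 2 ≤ 2 * C ^ 2 * ((PP Psi z).2.2.1 * (PP Psi z).2.1) →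
      |x| ≤ C * ((PP Psi z).2.2.1 + (PP Psi z).2.1) := by
    intro x hx
    apply abs_le_of_sq_le_sq _ (by positivity)
    calc x ^ 2 ≤ 2 * C ^ 2 * ((PP Psi z).2.2.1 * (PP Psi z).2.1) := hx
      _ = C ^ 2 * (2 * ((PP Psi z).2.2.1 * (PP Psi z).2.1)) := by ring
      _ ≤ C ^ 2 * ((PP Psi z).2.2.1 + (PP Psi z).2.1) ^ 2 := by
        gcongr
        linarith only [sq_nonneg ((PP Psi z).2.2.1), sq_nonneg ((PP Psi z).2.1)]
      _ = _ := by ring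
  exact ⟨key _ (by linarith only [h1, sq_nonneg (K.h2 (Psi z) (PP Psi z))]),
    key _ (by linarith [sq_nonneg (K.h1 (Psi z) (PP Psi z))])⟩

/-- norm of the preimage of `eu` -/
lemma norm_N (h : PtHyp K G Psi V z C cv cw cu) {N : P4} (hN : fderiv ℝ Psi z N = e3 K (Psi z)) :
    ‖N‖ ≤ C ^ 2 * (PP Psi z).2.1 := by
  have hC := h.bd.one_le
  have hpos : 0 < (PP Psi z).2.1 := h.pos
  have h1 := h.cone N
  rw [h.iso.iso z h.mem, h.iso.iso z h.mem, hN, gF_e3, gF_e3] at h1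
  have : (e3 K (Psi z) : P4).2.1 = 0 := rfl
  rw [this] at h1
  have hom := h.om_pos
  have homhi := h.bd.om_hi
  apply le_of_sq_le_sq _ (by positivity) |> fun x => x
  calc ‖N‖ ^ 2 ≤ C * (-K.om (Psi z) * 0) + C * (-K.om (Psi z) * (PP Psi z).2.1) ^ 2 := h1
    _ = C * (K.om (Psi z) * (PP Psi z).2.1) ^ 2 := by ring
    _ ≤ C * (C * (PP Psi z).2.1) ^ 2 := by gcongr
    _ = C ^ 3 * (PP Psi z).2.1 ^ 2 := by ring
    _ ≤ C ^ 4 * (PP Psi z).2.1 ^ 2 := by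
      gcongr
      norm_num
    _ = _ := by ring

/-- norm of the preimage of `e4` -/
lemma norm_N' (h : PtHyp K G Psi V z C cv cw cu) {N : P4} (hN : fderiv ℝ Psi z N = e4 K (Psi z)) :
    ‖N‖ ≤ C ^ 2 * (PP Psi z).2.2.1 := by
  have hC := h.bd.one_le
  have hpos : 0 < (PP Psi z).2.2.1 := h.sq_le.2.1
  have h1 := h.cone N
  rw [h.iso.iso z h.mem, h.iso.iso z h.mem, hN, gF_e4, gF_e4] at h1
  have : (e4 K (Psi z) : P4).2.2.1 = 0 := rfl
  rw [this] at h1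
  have hom := h.om_pos
  have homhi := h.bd.om_hi
  apply le_of_sq_le_sq _ (by positivity) |> fun x => x
  calc ‖N‖ ^ 2 ≤ C * (-K.om (Psi z) * 0) + C * (-K.om (Psi z) * (PP Psi z).2.2.1) ^ 2 := h1
    _ = C * (K.om (Psi z) * (PP Psi z).2.2.1) ^ 2 := by ring
    _ ≤ C * (C * (PP Psi z).2.2.1) ^ 2 := by gcongr
    _ = C ^ 3 * (PP Psi z).2.2.1 ^ 2 := by ring
    _ ≤ C ^ 4 * (PP Psi z).2.2.1 ^ 2 := by
      gcongr
      norm_num
    _ = _ := by ring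

/-- the scalar `xi = g(T, d_theta1)` -/
noncomputable abbrev xi (K : Coef) (Psi : P4 → P4) (z : P4) : ℝ :=
  K.g11 (Psi z) * K.h1 (Psi z) (PP Psi z) + K.g12 (Psi z) * K.h2 (Psi z) (PP Psi z)

lemma sq_norm_Z (h : PtHyp K G Psi V z C cv cw cu) {Z : P4} (hZ : fderiv ℝ Psi z Z = e1) :
    ‖Z‖ ^ 2 ≤ C ^ 2 + C * (xi K Psi z) ^ 2 := by
  have hC := h.bd.one_le
  have h1 := h.cone Z
  rw [h.iso.iso z h.mem, h.iso.iso z h.mem, hZ, gF_e1, gF_e1] at h1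
  have h11 : K.h1 (Psi z) e1 = 1 := by simp [Coef.h1, e1]
  have h21 : K.h2 (Psi z) e1 = 0 := by simp [Coef.h2, e1]
  rw [h11, h21] at h1
  have := (abs_le.mp h.bd.g11).2
  calc ‖Z‖ ^ 2 ≤ _ := h1
    _ ≤ C * (C * 1 + K.g12 (Psi z) * 0) + C * (xi K Psi z) ^ 2 := by gcongr
    _ = _ := by ring

lemma norm_e1 : ‖(e1 : P4)‖ = 1 := by
  simp only [e1, Prod.norm_def, norm_one, norm_zero, max_self, zero_le_one, sup_of_le_left]

lemma DG_le (G : P4 → P4 →L[ℝ] P4 →L[ℝ] ℝ) (z a b c : P4) :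
    |fderiv ℝ G z a b c| ≤ ‖fderiv ℝ G z‖ * ‖a‖ * ‖b‖ * ‖c‖ := by
  have h1 := (fderiv ℝ G z a b).le_opNorm c
  have h2 := (fderiv ℝ G z a).le_opNorm b
  have h3 := (fderiv ℝ G z).le_opNorm a
  rw [Real.norm_eq_abs] at h1
  calc |fderiv ℝ G z a b c| ≤ ‖fderiv ℝ G z a b‖ * ‖c‖ := h1
    _ ≤ (‖fderiv ℝ G z a‖ * ‖b‖) * ‖c‖ := by gcongr
    _ ≤ (‖fderiv ℝ G z‖ * ‖a‖ * ‖b‖) * ‖c‖ := by gcongr

lemma comb_beta (K : Coef) (x P : P4) :
    2 * K.dgF x P P (e3 K x) - K.dgF x (e3 K x) P P =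
    -2 * (P.2.1 * (P.2.1 * fderiv ℝ K.om x (e4 K x) + K.h1 x P * fderiv ℝ K.om x e1
          + K.h2 x P * fderiv ℝ K.om x e2))
      - (fderiv ℝ K.g11 x (e3 K x) * K.h1 x P ^ 2
        + 2 * fderiv ℝ K.g12 x (e3 K x) * (K.h1 x P * K.h2 x P)
        + fderiv ℝ K.g22 x (e3 K x) * K.h2 x P ^ 2)
      + 2 * (K.g11 x * K.h1 x P * (P.2.1 * (fderiv ℝ K.s1 x (e3 K x) - fderiv ℝ K.w1 x (e4 K x))
          - (K.h1 x P * fderiv ℝ K.w1 x e1 + K.h2 x P * fderiv ℝ K.w1 x e2))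
        + K.g12 x * (K.h1 x P * (P.2.1 * (fderiv ℝ K.s2 x (e3 K x) - fderiv ℝ K.w2 x (e4 K x))
          - (K.h1 x P * fderiv ℝ K.w2 x e1 + K.h2 x P * fderiv ℝ K.w2 x e2))
          + K.h2 x P * (P.2.1 * (fderiv ℝ K.s1 x (e3 K x) - fderiv ℝ K.w1 x (e4 K x))
          - (K.h1 x P * fderiv ℝ K.w1 x e1 + K.h2 x P * fderiv ℝ K.w1 x e2)))
        + K.g22 x * K.h2 x P * (P.2.1 * (fderiv ℝ K.s2 x (e3 K x) - fderiv ℝ K.w2 x (e4 K x))
          - (K.h1 x P * fderiv ℝ K.w2 x e1 + K.h2 x P * fderiv ℝ K.w2 x e2))) := by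
  have hom := clm_decomp' K x (fderiv ℝ K.om x) P
  have hw1 := clm_decomp' K x (fderiv ℝ K.w1 x) P
  have hw2 := clm_decomp' K x (fderiv ℝ K.w2 x) P
  have k1 : K.h1 x (e3 K x) = 0 := by simp [Coef.h1, e3]
  have k2 : K.h2 x (e3 K x) = 0 := by simp [Coef.h2, e3]
  simp only [Coef.dgF, Coef.d1, Coef.d2, k1, k2,
    show (e3 K x : P4).2.1 = 0 from rfl, show (e3 K x : P4).2.2.1 = 1 from rfl]
  rw [hom, hw1, hw2]
  ring

lemma comb_alpha (K : Coef) (x P : P4) :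
    2 * K.dgF x P P (e4 K x) - K.dgF x (e4 K x) P P =
    -2 * (P.2.2.1 * (P.2.2.1 * fderiv ℝ K.om x (e3 K x) + K.h1 x P * fderiv ℝ K.om x e1
          + K.h2 x P * fderiv ℝ K.om x e2))
      - (fderiv ℝ K.g11 x (e4 K x) * K.h1 x P ^ 2
        + 2 * fderiv ℝ K.g12 x (e4 K x) * (K.h1 x P * K.h2 x P)
        + fderiv ℝ K.g22 x (e4 K x) * K.h2 x P ^ 2)
      + 2 * (K.g11 x * K.h1 x P * (P.2.2.1 * (-(fderiv ℝ K.s1 x (e3 K x) - fderiv ℝ K.w1 x (e4 K x)))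
          - (K.h1 x P * fderiv ℝ K.s1 x e1 + K.h2 x P * fderiv ℝ K.s1 x e2))
        + K.g12 x * (K.h1 x P * (P.2.2.1 * (-(fderiv ℝ K.s2 x (e3 K x) - fderiv ℝ K.w2 x (e4 K x)))
          - (K.h1 x P * fderiv ℝ K.s2 x e1 + K.h2 x P * fderiv ℝ K.s2 x e2))
          + K.h2 x P * (P.2.2.1 * (-(fderiv ℝ K.s1 x (e3 K x) - fderiv ℝ K.w1 x (e4 K x)))
          - (K.h1 x P * fderiv ℝ K.s1 x e1 + K.h2 x P * fderiv ℝ K.s1 x e2)))
        + K.g22 x * K.h2 x P * (P.2.2.1 * (-(fderiv ℝ K.s2 x (e3 K x) - fderiv ℝ K.w2 x (e4 K x)))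
          - (K.h1 x P * fderiv ℝ K.s2 x e1 + K.h2 x P * fderiv ℝ K.s2 x e2))) := by
  have hom := clm_decomp' K x (fderiv ℝ K.om x) P
  have hs1 := clm_decomp' K x (fderiv ℝ K.s1 x) P
  have hs2 := clm_decomp' K x (fderiv ℝ K.s2 x) P
  have k1 : K.h1 x (e4 K x) = 0 := by simp [Coef.h1, e4]
  have k2 : K.h2 x (e4 K x) = 0 := by simp [Coef.h2, e4]
  simp only [Coef.dgF, Coef.d1, Coef.d2, k1, k2,
    show (e4 K x : P4).2.1 = 1 from rfl, show (e4 K x : P4).2.2.1 = 0 from rfl]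
  rw [hom, hs1, hs2]
  ring

end PtHyp

end Vale.Agent.P354w
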