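import Vale.Agent.P354.SMain
import Vale.Agent.P354w.Corner

set_option maxSynthPendingDepth 3

open Set Filter Topology

namespace Vale.Agent.P354w

open Vale.Agent.P354 (mink NearM Tv norm_Tv cone mem_cone InV norm_sub_le_of_deriv
  hasDerivAt_line)

/-- Pointwise bounds of the coefficients. -/
structure CBdW (K : Coef) (C : ℝ) (x : P4) : Prop where
  one_le : 1 ≤ C
  om_lo : 1 / C ≤ K.om x
  om_hi : K.om x ≤ C
  g_lo : ∀ p q : ℝ, (p ^ 2 + q ^ 2) / C ≤ K.g11 x * p ^ 2 + 2 * K.g12 x * p * q + K.g22 x * q ^ 2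
  g11_hi : |K.g11 x| ≤ C
  g12_hi : |K.g12 x| ≤ C
  g22_hi : |K.g22 x| ≤ C
  s1_hi : |K.s1 x| ≤ C
  s2_hi : |K.s2 x| ≤ C
  w1_hi : |K.w1 x| ≤ C
  w2_hi : |K.w2 x| ≤ C

/-- the quadratic form of the sphere part -/
def Qg (K : Coef) (x : P4) (p q : ℝ) : ℝ := K.g11 x * p ^ 2 + 2 * K.g12 x * p * q + K.g22 x * q ^ 2

lemma gF_diag (K : Coef) (x a : P4) :
    K.gF x a a = -(2 * K.om x * (a.2.1 * a.2.2.1)) + Qg K x (K.h1 x a) (K.h2 x a) := by
  unfold Coef.gF Qg; ring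

namespace CBdW

variable {K : Coef} {C : ℝ} {x : P4}

lemma C_pos (h : CBdW K C x) : 0 < C := by linarith only [h.one_le]

lemma om_pos (h : CBdW K C x) : 0 < K.om x :=
  lt_of_lt_of_le (by have := h.C_pos; positivity) h.om_lo

lemma Q_nonneg (h : CBdW K C x) (p q : ℝ) : 0 ≤ Qg K x p q := by
  have h1 := h.g_lo p q
  have := h.C_pos
  have h2 : 0 ≤ (p ^ 2 + q ^ 2) / C := by positivity
  unfold Qg; linarith

lemma det_nonneg (h : CBdW K C x) : 0 ≤ K.g11 x * K.g22 x - K.g12 x ^ 2 := by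
  have h1 := h.Q_nonneg (K.g12 x) (-K.g11 x)
  have h2 := h.g_lo 1 0
  have h3 : 0 < K.g11 x := by
    have := h.C_pos
    have h4 : 0 < (1 ^ 2 + 0 ^ 2) / C := by positivity
    linarith
  unfold Qg at h1
  have h5 : 0 ≤ K.g11 x * (K.g11 x * K.g22 x - K.g12 x ^ 2) := by linarith only [h1]
  exact nonneg_of_mul_nonneg_right h5 h3

/-- Cauchy-Schwarz -/
lemma cs (h : CBdW K C x) (p q p' q' : ℝ) :
    (K.g11 x * (p * p') + K.g12 x * (p * q' + q * p') + K.g22 x * (q * q')) ^ 2 ≤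
      Qg K x p q * Qg K x p' q' := by
  have h1 := h.det_nonneg
  have h2 : Qg K x p q * Qg K x p' q' -
      (K.g11 x * (p * p') + K.g12 x * (p * q' + q * p') + K.g22 x * (q * q')) ^ 2 =
      (K.g11 x * K.g22 x - K.g12 x ^ 2) * (p * q' - q * p') ^ 2 := by
    unfold Qg; ring
  have h3 : 0 ≤ (K.g11 x * K.g22 x - K.g12 x ^ 2) * (p * q' - q * p') ^ 2 := by positivity
  linarith only [h2, h3]

lemma uv_pos (h : CBdW K C x) {a : P4} (ha : K.gF x a a < 0) : 0 < a.2.1 * a.2.2.1 := by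
  rw [gF_diag] at ha
  have h1 := h.Q_nonneg (K.h1 x a) (K.h2 x a)
  have h2 := h.om_pos
  have h3 : 0 < K.om x * (a.2.1 * a.2.2.1) := by linarith
  exact (pos_iff_pos_of_mul_pos h3).1 h2

lemma u_pos (h : CBdW K C x) {a : P4} (ha : K.gF x a a < 0) (hv : 0 < a.2.1) : 0 < a.2.2.1 :=
  (pos_iff_pos_of_mul_pos (h.uv_pos ha)).1 hv

lemma hat_le (h : CBdW K C x) {a : P4} (ha : K.gF x a a ≤ 0) :
    K.h1 x a ^ 2 + K.h2 x a ^ 2 ≤ 2 * C ^ 2 * (a.2.1 * a.2.2.1) ∨ a.2.1 * a.2.2.1 < 0 := by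
  by_cases hs : a.2.1 * a.2.2.1 < 0
  · exact Or.inr hs
  · left
    push Not at hs
    rw [gF_diag] at ha
    have h1 := h.g_lo (K.h1 x a) (K.h2 x a)
    have hC := h.C_pos
    have h2 := h.om_hi
    rw [div_le_iff₀ hC] at h1
    unfold Qg at ha
    have h3 : K.om x * (a.2.1 * a.2.2.1) ≤ C * (a.2.1 * a.2.2.1) := by gcongr
    linarith only [h1, mul_nonneg hC.le (neg_nonneg.2 ha), mul_le_mul_of_nonneg_left h3 hC.le]

/-- two timelike vectors with positive v components are in the same cone -/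
lemma gF_neg (h : CBdW K C x) {a b : P4} (ha : K.gF x a a < 0) (hb : K.gF x b b < 0)
    (hav : 0 < a.2.1) (hbv : 0 < b.2.1) : K.gF x a b < 0 := by
  have hau := h.u_pos ha hav
  have hbu := h.u_pos hb hbv
  have hom := h.om_pos
  have h1 := h.cs (K.h1 x a) (K.h2 x a) (K.h1 x b) (K.h2 x b)
  have hQa := h.Q_nonneg (K.h1 x a) (K.h2 x a)
  have hQb := h.Q_nonneg (K.h1 x b) (K.h2 x b)
  have e1 : Qg K x (K.h1 x a) (K.h2 x a) < 2 * K.om x * (a.2.1 * a.2.2.1) := by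
    have := gF_diag K x a; linarith only [ha, this]
  have e2 : Qg K x (K.h1 x b) (K.h2 x b) < 2 * K.om x * (b.2.1 * b.2.2.1) := by
    have := gF_diag K x b; linarith only [hb, this]
  set m : ℝ := K.g11 x * (K.h1 x a * K.h1 x b) + K.g12 x * (K.h1 x a * K.h2 x b +
    K.h2 x a * K.h1 x b) + K.g22 x * (K.h2 x a * K.h2 x b) with hm
  have e3 : m ^ 2 < (K.om x * (a.2.1 * b.2.2.1 + a.2.2.1 * b.2.1)) ^ 2 := by
    calc m ^ 2 ≤ _ := h1
      _ < (2 * K.om x * (a.2.1 * a.2.2.1)) * (2 * K.om x * (b.2.1 * b.2.2.1)) := by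
          have : 0 < 2 * K.om x * (b.2.1 * b.2.2.1) := by positivity
          calc _ ≤ Qg K x (K.h1 x a) (K.h2 x a) * (2 * K.om x * (b.2.1 * b.2.2.1)) := by gcongr
            _ < _ := by gcongr
      _ ≤ _ := by
          have h4 : 0 ≤ K.om x ^ 2 * (a.2.1 * b.2.2.1 - a.2.2.1 * b.2.1) ^ 2 := by positivity
          linarith only [h4]
  have hpos : 0 ≤ K.om x * (a.2.1 * b.2.2.1 + a.2.2.1 * b.2.1) := by positivity
  have e4 := (abs_lt.1 (abs_lt_of_sq_lt_sq e3 hpos)).2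
  have e5 : K.gF x a b = -(K.om x * (a.2.1 * b.2.2.1 + a.2.2.1 * b.2.1)) + m := by
    rw [hm]; unfold Coef.gF; ring
  rw [e5]; linarith only [e4]

lemma v_pos_of_gF_neg (h : CBdW K C x) {a b : P4} (ha : K.gF x a a < 0) (hb : K.gF x b b < 0)
    (hav : 0 < a.2.1) (hab : K.gF x a b < 0) : 0 < b.2.1 := by
  by_contra hcon
  push Not at hcon
  have hne : b.2.1 ≠ 0 := by
    intro h0
    have := h.uv_pos hb
    rw [h0] at this; simp at this
  have hneg : 0 < (-b).2.1 := by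
    have : (-b).2.1 = -(b.2.1) := rfl
    rw [this]
    have := lt_of_le_of_ne hcon hne
    linarith
  have hb' : K.gF x (-b) (-b) < 0 := by
    have : K.gF x (-b) (-b) = K.gF x b b := by
      simp only [Coef.gF, Coef.h1, Coef.h2, Prod.fst_neg, Prod.snd_neg]; ring
    rw [this]; exact hb
  have h1 := h.gF_neg ha hb' hav hneg
  have h2 : K.gF x a (-b) = - K.gF x a b := by
    simp only [Coef.gF, Coef.h1, Coef.h2, Prod.fst_neg, Prod.snd_neg]; ring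
  rw [h2] at h1
  linarith only [hab, h1]

end CBdW

/-- the corner box -/
def MC (p0 : P4) (ρ : ℝ) : Set P4 := {x | ‖x - p0‖ < ρ ∧ x.2.1 < 0 ∧ x.2.2.1 < 0}

/-- relation between successive points on future causal curves -/
def RelW (C : ℝ) (x y : P4) : Prop :=
  x.2.1 ≤ y.2.1 ∧ x.2.2.1 ≤ y.2.2.1 ∧
    |y.1 - x.1| ≤ 2 * C * ((y.2.1 - x.2.1) + (y.2.2.1 - x.2.2.1)) ∧
    |y.2.2.2 - x.2.2.2| ≤ 2 * C * ((y.2.1 - x.2.1) + (y.2.2.1 - x.2.2.1))

lemma RelW.refl (C : ℝ) (x : P4) : RelW C x x := by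
  refine ⟨le_rfl, le_rfl, ?_, ?_⟩ <;> simp only [sub_self, abs_zero, add_zero, mul_zero, Std.le_refl]

lemma RelW.trans {C : ℝ} {x y z : P4} (h1 : RelW C x y) (h2 : RelW C y z) : RelW C x z := by
  refine ⟨h1.1.trans h2.1, h1.2.1.trans h2.2.1, ?_, ?_⟩
  · have e : z.1 - x.1 = (y.1 - x.1) + (z.1 - y.1) := by ring
    rw [e]
    refine (abs_add_le _ _).trans ?_
    linarith [h1.2.2.1, h2.2.2.1]
  · have e : z.2.2.2 - x.2.2.2 = (y.2.2.2 - x.2.2.2) + (z.2.2.2 - y.2.2.2) := by ring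
    rw [e]
    refine (abs_add_le _ _).trans ?_
    linarith [h1.2.2.2, h2.2.2.2]

/-- a future causal vector on the standard side -/
def FCW (K : Coef) (C : ℝ) (x a : P4) : Prop :=
  0 ≤ a.2.1 ∧ 0 ≤ a.2.2.1 ∧ K.h1 x a ^ 2 + K.h2 x a ^ 2 ≤ 2 * C ^ 2 * (a.2.1 * a.2.2.1)

lemma FCW.abs_h {K : Coef} {C : ℝ} {x a : P4} (hC : 0 ≤ C) (h : FCW K C x a) :
    |K.h1 x a| ≤ C * (a.2.1 + a.2.2.1) ∧ |K.h2 x a| ≤ C * (a.2.1 + a.2.2.1) := by
  obtain ⟨h1, h2, h3⟩ := h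
  have h5 : 0 ≤ C * (a.2.1 + a.2.2.1) := by positivity
  have h6 : 2 * C ^ 2 * (a.2.1 * a.2.2.1) ≤ (C * (a.2.1 + a.2.2.1)) ^ 2 := by
    have : (C * (a.2.1 + a.2.2.1)) ^ 2 =
      2 * C ^ 2 * (a.2.1 * a.2.2.1) + C ^ 2 * (a.2.1 ^ 2 + a.2.2.1 ^ 2) := by ring
    rw [this]
    have : 0 ≤ C ^ 2 * (a.2.1 ^ 2 + a.2.2.1 ^ 2) := by positivity
    linarith only [this]
  constructor
  · apply abs_le_of_sq_le_sq _ h5
    linarith only [h3, h6, sq_nonneg (K.h2 x a)]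
  · apply abs_le_of_sq_le_sq _ h5
    linarith [sq_nonneg (K.h1 x a)]

lemma FCW.abs_th {K : Coef} {C : ℝ} {x a : P4} (hc : CBdW K C x) (h : FCW K C x a) :
    |a.1| ≤ 2 * C * (a.2.1 + a.2.2.1) ∧ |a.2.2.2| ≤ 2 * C * (a.2.1 + a.2.2.1) := by
  have hh := h.abs_h hc.C_pos.le
  obtain ⟨h1, h2, h3⟩ := h
  have sb : ∀ s w : ℝ, |s| ≤ C → |w| ≤ C →
      |s * a.2.1 + w * a.2.2.1| ≤ C * (a.2.1 + a.2.2.1) := by
    intro s w hs hw
    refine (abs_add_le _ _).trans ?_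
    rw [abs_mul, abs_mul, abs_of_nonneg h1, abs_of_nonneg h2, mul_add]
    exact add_le_add (mul_le_mul_of_nonneg_right hs h1) (mul_le_mul_of_nonneg_right hw h2)
  constructor
  · have e : a.1 = K.h1 x a + (K.s1 x * a.2.1 + K.w1 x * a.2.2.1) := by
      unfold Coef.h1; ring
    rw [e]
    refine (abs_add_le _ _).trans ?_
    have := sb _ _ hc.s1_hi hc.w1_hi
    linarith only [this, hh.1]
  · have e : a.2.2.2 = K.h2 x a + (K.s2 x * a.2.1 + K.w2 x * a.2.2.1) := by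
      unfold Coef.h2; ring
    rw [e]
    refine (abs_add_le _ _).trans ?_
    have := sb _ _ hc.s2_hi hc.w2_hi
    linarith only [this, hh.2]

lemma relW_of_curve {K : Coef} {C : ℝ} {ν ν' : ℝ → P4} {a b : ℝ} (hab : a ≤ b)
    (hd : ∀ τ ∈ Icc a b, HasDerivAt ν (ν' τ) τ) (hC : ∀ τ ∈ Icc a b, CBdW K C (ν τ))
    (hT : ∀ τ ∈ Icc a b, FCW K C (ν τ) (ν' τ)) : RelW C (ν a) (ν b) := by
  have hd1 : ∀ τ ∈ Icc a b, HasDerivAt (fun τ => (ν τ).1) (ν' τ).1 τ := fun τ hτ => (hd τ hτ).fst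
  have hd2 : ∀ τ ∈ Icc a b, HasDerivAt (fun τ => (ν τ).2.1) (ν' τ).2.1 τ :=
    fun τ hτ => (hd τ hτ).snd.fst
  have hd3 : ∀ τ ∈ Icc a b, HasDerivAt (fun τ => (ν τ).2.2.1) (ν' τ).2.2.1 τ :=
    fun τ hτ => (hd τ hτ).snd.snd.fst
  have hd4 : ∀ τ ∈ Icc a b, HasDerivAt (fun τ => (ν τ).2.2.2) (ν' τ).2.2.2 τ :=
    fun τ hτ => (hd τ hτ).snd.snd.snd
  have hz : ∀ τ ∈ Icc a b, HasDerivAt (fun _ : ℝ => (0:ℝ)) ((fun _ => (0:ℝ)) τ) τ :=
    fun τ _ => hasDerivAt_const τ 0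
  have r1 := norm_sub_le_of_deriv hab hz hd2 (fun τ hτ => by simpa only [norm_zero] using (hT τ hτ).1)
  have r2 := norm_sub_le_of_deriv hab hz hd3 (fun τ hτ => by simpa only [norm_zero] using (hT τ hτ).2.1)
  simp only [sub_self, norm_zero, sub_nonneg] at r1 r2
  have hg : ∀ τ ∈ Icc a b, HasDerivAt (fun τ => 2 * C * ((ν τ).2.1 + (ν τ).2.2.1))
      (2 * C * ((ν' τ).2.1 + (ν' τ).2.2.1)) τ := by
    intro τ hτ
    exact ((hd2 τ hτ).add (hd3 τ hτ)).const_mul (2 * C)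
  refine ⟨r1, r2, ?_, ?_⟩
  · have := norm_sub_le_of_deriv hab hd1 hg (fun τ hτ => by
      rw [Real.norm_eq_abs]
      exact ((hT τ hτ).abs_th (hC τ hτ)).1)
    rw [Real.norm_eq_abs] at this
    refine this.trans (le_of_eq ?_)
    ring
  · have := norm_sub_le_of_deriv hab hd4 hg (fun τ hτ => by
      rw [Real.norm_eq_abs]
      exact ((hT τ hτ).abs_th (hC τ hτ)).2)
    rw [Real.norm_eq_abs] at this
    refine this.trans (le_of_eq ?_)
    ring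

/-- The hypotheses of the structure lemma at a corner. -/
structure SHypC (K : Coef) (G : P4 → P4 →L[ℝ] P4 →L[ℝ] ℝ) (Psi : P4 → P4) (V : Set P4)
    (R0 ρ C : ℝ) (p0 : P4) : Prop where
  iso : Iso K G Psi V
  R0_pos : 0 < R0
  ρ_pos : 0 < ρ
  p0v : p0.2.1 = 0
  p0u : p0.2.2.1 = 0
  V_sub : V ⊆ Metric.ball 0 R0
  near : ∀ z ∈ Metric.ball (0 : P4) R0, NearM (G z)
  maps : ∀ z ∈ V, Psi z ∈ MC p0 ρ
  beta : ∀ z ∈ V, 0 < (fderiv ℝ Psi z Tv).2.1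
  cl : ∀ Kc : Set P4, IsCompact Kc → Kc ⊆ MC p0 ρ →
    ∃ F, IsClosed F ∧ V ∩ Psi ⁻¹' Kc = Metric.ball 0 R0 ∩ F
  one_le : 1 ≤ C
  bd : ∀ x ∈ MC p0 ρ, CBdW K C x

namespace SHypC

variable {K : Coef} {G : P4 → P4 →L[ℝ] P4 →L[ℝ] ℝ} {Psi : P4 → P4} {V : Set P4}
  {R0 ρ C : ℝ} {p0 : P4}

lemma cbd (H : SHypC K G Psi V R0 ρ C p0) {z : P4} (hz : z ∈ V) : CBdW K C (Psi z) :=
  H.bd _ (H.maps z hz)

lemma nearV (H : SHypC K G Psi V R0 ρ C p0) {z : P4} (hz : z ∈ V) : NearM (G z) :=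
  H.near z (H.V_sub hz)

/-- future timelike vectors have positive `v` component -/
lemma v_pos (H : SHypC K G Psi V R0 ρ C p0) {z : P4} (hz : z ∈ V) {a : P4}
    (ha : G z a a < 0) (h0 : 0 < a.1) : 0 < (fderiv ℝ Psi z a).2.1 := by
  have hN := H.nearV hz
  have h1 := hN.T_neg ha.le h0
  rw [H.iso.iso z hz] at h1 ha
  have h2 : K.gF (Psi z) (fderiv ℝ Psi z Tv) (fderiv ℝ Psi z Tv) < 0 := by
    rw [← H.iso.iso z hz]
    have : Tv ∈ cone (1 / 4) := by simp only [one_div, Tv, mem_cone, Prod.norm_mk, norm_zero, max_self, mul_one, inv_nonneg, Nat.ofNat_nonneg]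
    have := hN.timelike_of_cone this
    simp only [Tv] at this ⊢
    linarith
  exact (H.cbd hz).v_pos_of_gF_neg h2 ha (H.beta z hz) h1

lemma fc_of_timelike (H : SHypC K G Psi V R0 ρ C p0) {x a : P4} (hx : x ∈ MC p0 ρ)
    (ha : K.gF x a a < 0) (h0 : 0 < a.2.1) : FCW K C x a := by
  have hc := H.bd x hx
  refine ⟨h0.le, (hc.u_pos ha h0).le, ?_⟩
  rcases hc.hat_le ha.le with h | h
  · exact h
  · have := hc.uv_pos ha
    linarith

lemma fc_cone (H : SHypC K G Psi V R0 ρ C p0) {z : P4} (hz : z ∈ V) {a : P4}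
    (ha : a ∈ cone (1 / 4)) : FCW K C (Psi z) (fderiv ℝ Psi z a) := by
  by_cases h0 : a.1 = 0
  · have : a = 0 := by
      rw [mem_cone, h0, mul_zero] at ha
      have h1 : a.2 = 0 := by simpa only [norm_le_zero_iff] using ha
      exact Prod.ext h0 h1
    rw [this, map_zero]
    simp only [FCW, Prod.snd_zero, Prod.fst_zero, Std.le_refl, Coef.h1, mul_zero, sub_self, ne_eq, OfNat.ofNat_ne_zero, not_false_eq_true, zero_pow, Coef.h2, add_zero, and_self]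
  · have h1 := (H.nearV hz).timelike_of_cone ha
    have h2 : 0 ≤ a.1 := by
      rw [mem_cone] at ha
      have := norm_nonneg a.2
      linarith only [ha, this]
    have h3 : 0 < a.1 := lt_of_le_of_ne h2 (Ne.symm h0)
    have h4 : G z a a < 0 := by
      have : 0 < a.1 ^ 2 := by positivity
      linarith only [h1, this]
    have h5 := H.v_pos hz h4 h3
    rw [H.iso.iso z hz] at h4
    exact H.fc_of_timelike (H.maps z hz) h4 h5

lemma hasDerivAt_seg (H : SHypC K G Psi V R0 ρ C p0) {a w : P4} {τ : ℝ}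
    (h : a + τ • w ∈ V) :
    HasDerivAt (fun τ : ℝ => Psi (a + τ • w)) (fderiv ℝ Psi (a + τ • w) w) τ :=
  (H.iso.hasFDerivAt h).comp_hasDerivAt τ (hasDerivAt_line a w τ)

lemma rel_seg (H : SHypC K G Psi V R0 ρ C p0) {a b : P4} (hab : b - a ∈ cone (1 / 4))
    (hin : InV V a b) {τ1 τ2 : ℝ} (h0 : 0 ≤ τ1) (h12 : τ1 ≤ τ2) (h2 : τ2 ≤ 1) :
    RelW C (Psi (a + τ1 • (b - a))) (Psi (a + τ2 • (b - a))) := by
  have hin' : ∀ τ ∈ Icc τ1 τ2, a + τ • (b - a) ∈ V :=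
    fun τ hτ => hin τ ⟨h0.trans hτ.1, hτ.2.trans h2⟩
  exact relW_of_curve (K := K) (ν := fun τ => Psi (a + τ • (b - a)))
    (ν' := fun τ => fderiv ℝ Psi (a + τ • (b - a)) (b - a)) h12
    (fun τ hτ => H.hasDerivAt_seg (hin' τ hτ)) (fun τ hτ => H.cbd (hin' τ hτ))
    (fun τ hτ => H.fc_cone (hin' τ hτ) hab)

lemma rel_ends (H : SHypC K G Psi V R0 ρ C p0) {a b : P4} (hab : b - a ∈ cone (1 / 4))
    (hin : InV V a b) : RelW C (Psi a) (Psi b) := by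
  have := H.rel_seg hab hin le_rfl zero_le_one le_rfl
  simpa using this

end SHypC

end Vale.Agent.P354w
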