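import Vale.Agent.P354w.SC1

set_option maxSynthPendingDepth 3

open Set Filter Topology

namespace Vale.Agent.P354w

open Vale.Agent.P354 (mink NearM Tv norm_Tv cone mem_cone InV norm_sub_le_of_deriv
  hasDerivAt_line norm_P4_le norm_P4 tube ball_seg SCurve Reach inV_const cone_nonneg cone_add
  cone_smul cone_zero cone_mono)

/-- compact subset of the corner box -/
def KC (p0 : P4) (r vs us : ℝ) : Set P4 := {x | ‖x - p0‖ ≤ r ∧ x.2.1 ≤ vs ∧ x.2.2.1 ≤ us}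

lemma KC_compact (p0 : P4) (r vs us : ℝ) : IsCompact (KC p0 r vs us) := by
  have h1 : KC p0 r vs us = Metric.closedBall p0 r ∩ ({x : P4 | x.2.1 ≤ vs} ∩
      {x : P4 | x.2.2.1 ≤ us}) := by
    ext x
    simp only [KC, mem_ofPred_eq, mem_inter_iff, Metric.mem_closedBall, dist_eq_norm]
  rw [h1]
  refine (isCompact_closedBall p0 r).inter_right ?_
  exact (isClosed_le (by fun_prop) continuous_const).inter
    (isClosed_le (by fun_prop) continuous_const)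

lemma KC_sub {p0 : P4} {r vs us ρ : ℝ} (h1 : r < ρ) (h2 : vs < 0) (h3 : us < 0) :
    KC p0 r vs us ⊆ MC p0 ρ :=
  fun _ hx => ⟨hx.1.trans_lt h1, hx.2.1.trans_lt h2, hx.2.2.trans_lt h3⟩

/-- future points of good points are good -/
lemma confine0 {C η : ℝ} {p0 x y : P4} (hC : 1 ≤ C) (hp : p0.2.1 = 0) (hpu : p0.2.2.1 = 0)
    (hxy : RelW C x y) (hx : ‖x - p0‖ ≤ η) (hyv : y.2.1 < 0) (hyu : y.2.2.1 < 0) :
    ‖y - p0‖ ≤ 5 * C * η := by
  obtain ⟨x1, x2, x3, x4⟩ := norm_P4_le.1 hx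
  simp only [Prod.fst_sub, Prod.snd_sub, hp, hpu, sub_zero] at x1 x2 x3 x4
  have hη : 0 ≤ η := (norm_nonneg _).trans hx
  obtain ⟨a1, a2, c1, c2⟩ := hxy
  have hCη : η ≤ C * η := le_mul_of_one_le_left (by linarith only [hη]) (by linarith only [hC])
  have hV : y.2.1 - x.2.1 ≤ η := by linarith only [hyv, (abs_le.1 x2).1]
  have hU : y.2.2.1 - x.2.2.1 ≤ η := by linarith only [hyu, (abs_le.1 x3).1]
  have hS : 2 * C * ((y.2.1 - x.2.1) + (y.2.2.1 - x.2.2.1)) ≤ 2 * C * (2 * η) := by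
    gcongr
    linarith only [hV, hU]
  refine norm_P4_le.2 ⟨?_, ?_, ?_, ?_⟩
  · simp only [Prod.fst_sub]
    have : y.1 - p0.1 = (y.1 - x.1) + (x.1 - p0.1) := by ring
    rw [this]
    refine (abs_add_le _ _).trans ?_
    linarith only [x1, c1, hCη, hS]
  · simp only [Prod.fst_sub, Prod.snd_sub, hp, sub_zero]
    rw [abs_le]
    constructor <;> linarith only [hyv, a1, hCη, (abs_le.1 x2).1, hη]
  · simp only [Prod.fst_sub, Prod.snd_sub, hpu, sub_zero]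
    rw [abs_le]
    constructor <;> linarith only [hyu, a2, hCη, (abs_le.1 x3).1, hη]
  · simp only [Prod.snd_sub]
    have : y.2.2.2 - p0.2.2.2 = (y.2.2.2 - x.2.2.2) + (x.2.2.2 - p0.2.2.2) := by ring
    rw [this]
    refine (abs_add_le _ _).trans ?_
    linarith only [x4, c2, hCη, hS]

namespace SHypC

variable {K : Coef} {G : P4 → P4 →L[ℝ] P4 →L[ℝ] ℝ} {Psi : P4 → P4} {V : Set P4}
  {R0 ρ C : ℝ} {p0 : P4} {γ : ℝ → P4} {s0 η1 η : ℝ}

lemma conf (H : SHypC K G Psi V R0 ρ C p0) {a b : P4} (hb : b ∈ V) (hab : RelW C (Psi a) (Psi b))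
    (ha : ‖Psi a - p0‖ ≤ η) : ‖Psi b - p0‖ ≤ 5 * C * η :=
  confine0 H.one_le H.p0v H.p0u hab ha (H.maps b hb).2.1 (H.maps b hb).2.2

/-- points of broken future segments between good points stay in a compact set -/
lemma seg_mem_KB (H : SHypC K G Psi V R0 ρ C p0) {η vs us : ℝ} {a m b : P4}
    (ham : m - a ∈ cone (1 / 4)) (hmb : b - m ∈ cone (1 / 4))
    (hin1 : InV V a m) (hin2 : InV V m b) (ha : ‖Psi a - p0‖ ≤ η)
    (hbv : (Psi b).2.1 ≤ vs) (hbu : (Psi b).2.2.1 ≤ us) {τ : ℝ} (hτ : τ ∈ Icc (0:ℝ) 1) :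
    Psi (a + τ • (m - a)) ∈ KC p0 (5 * C * η) vs us ∧
    Psi (m + τ • (b - m)) ∈ KC p0 (5 * C * η) vs us := by
  constructor
  · have r1 := H.rel_seg ham hin1 le_rfl hτ.1 hτ.2
    have r2 := H.rel_seg ham hin1 hτ.1 hτ.2 le_rfl
    have r3 := H.rel_ends hmb hin2
    simp only [zero_smul, add_zero, one_smul, add_sub_cancel] at r1 r2
    have r4 := r2.trans r3
    exact ⟨H.conf (hin1 τ hτ) r1 ha, r4.1.trans hbv, r4.2.1.trans hbu⟩
  · have r1 := H.rel_seg hmb hin2 le_rfl hτ.1 hτ.2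
    have r2 := H.rel_seg hmb hin2 hτ.1 hτ.2 le_rfl
    have r3 := H.rel_ends ham hin1
    simp only [zero_smul, add_zero, one_smul, add_sub_cancel] at r1 r2
    exact ⟨H.conf (hin2 τ hτ) (r3.trans r1) ha, r2.1.trans hbv, r2.2.1.trans hbu⟩

lemma push (H : SHypC K G Psi V R0 ρ C p0) {η vs us : ℝ} (hη : 5 * C * η < ρ) (hvs : vs < 0)
    (hus : us < 0)
    {a m b : ℝ → P4} (ha : Continuous a) (hm : Continuous m) (hb : Continuous b)
    (ham : ∀ l ∈ Icc (0:ℝ) 1, m l - a l ∈ cone (1 / 4))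
    (hmb : ∀ l ∈ Icc (0:ℝ) 1, b l - m l ∈ cone (1 / 4))
    (hmR : ∀ l ∈ Icc (0:ℝ) 1, m l ∈ Metric.ball (0 : P4) R0)
    (haV : ∀ l ∈ Icc (0:ℝ) 1, a l ∈ V ∧ ‖Psi (a l) - p0‖ ≤ η)
    (hbV : ∀ l ∈ Icc (0:ℝ) 1, b l ∈ V ∧ (Psi (b l)).2.1 ≤ vs ∧ (Psi (b l)).2.2.1 ≤ us)
    (h0 : InV V (a 0) (m 0) ∧ InV V (m 0) (b 0)) :
    ∀ l ∈ Icc (0:ℝ) 1, InV V (a l) (m l) ∧ InV V (m l) (b l) := by
  obtain ⟨F, hF, hVF⟩ := H.cl _ (KC_compact p0 (5 * C * η) vs us) (KC_sub hη hvs hus)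
  set S : Set ℝ := {l | InV V (a l) (m l) ∧ InV V (m l) (b l)} with hS
  have hset : S ∩ Icc 0 1 = {l | l ∈ Icc (0:ℝ) 1 ∧ ∀ τ ∈ Icc (0:ℝ) 1,
      a l + τ • (m l - a l) ∈ F ∧ m l + τ • (b l - m l) ∈ F} := by
    ext l
    constructor
    · rintro ⟨⟨h1, h2⟩, hl⟩
      refine ⟨hl, fun τ hτ => ?_⟩
      have h3 := H.seg_mem_KB (ham l hl) (hmb l hl) h1 h2 (haV l hl).2 (hbV l hl).2.1
        (hbV l hl).2.2 hτ
      have h4 : a l + τ • (m l - a l) ∈ V ∩ Psi ⁻¹' KC p0 (5 * C * η) vs us := ⟨h1 τ hτ, h3.1⟩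
      have h5 : m l + τ • (b l - m l) ∈ V ∩ Psi ⁻¹' KC p0 (5 * C * η) vs us := ⟨h2 τ hτ, h3.2⟩
      rw [hVF] at h4 h5
      exact ⟨h4.2, h5.2⟩
    · rintro ⟨hl, h⟩
      refine ⟨⟨fun τ hτ => ?_, fun τ hτ => ?_⟩, hl⟩
      · have h4 : a l + τ • (m l - a l) ∈ Metric.ball (0 : P4) R0 ∩ F :=
          ⟨ball_seg (H.V_sub (haV l hl).1) (hmR l hl) hτ, (h τ hτ).1⟩
        rw [← hVF] at h4
        exact h4.1
      · have h4 : m l + τ • (b l - m l) ∈ Metric.ball (0 : P4) R0 ∩ F :=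
          ⟨ball_seg (hmR l hl) (H.V_sub (hbV l hl).1) hτ, (h τ hτ).2⟩
        rw [← hVF] at h4
        exact h4.1
  have hclosed : IsClosed (S ∩ Icc 0 1) := by
    rw [hset]
    have : {l : ℝ | l ∈ Icc (0:ℝ) 1 ∧ ∀ τ ∈ Icc (0:ℝ) 1,
        a l + τ • (m l - a l) ∈ F ∧ m l + τ • (b l - m l) ∈ F} =
        Icc (0:ℝ) 1 ∩ ⋂ τ ∈ Icc (0:ℝ) 1, ((fun l => a l + τ • (m l - a l)) ⁻¹' F ∩
          (fun l => m l + τ • (b l - m l)) ⁻¹' F) := by
      ext l; simp only [mem_Icc, and_imp, mem_ofPred_eq, mem_inter_iff, mem_iInter, mem_preimage]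
    rw [this]
    refine isClosed_Icc.inter (isClosed_biInter fun τ _ => ?_)
    exact (hF.preimage (by fun_prop)).inter (hF.preimage (by fun_prop))
  have key : Icc (0:ℝ) 1 ⊆ S := by
    refine hclosed.Icc_subset_of_forall_mem_nhdsWithin h0 ?_
    rintro l ⟨⟨h1, h2⟩, hl⟩
    refine mem_nhdsWithin_of_mem_nhds ?_
    filter_upwards [tube H.iso.isOpen ha hm h1, tube H.iso.isOpen hm hb h2] with l' k1 k2
    exact ⟨k1, k2⟩
  exact fun l hl => key hl

lemma reach_rel (H : SHypC K G Psi V R0 ρ C p0) {a b : P4} (h : Reach V a b) :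
    RelW C (Psi a) (Psi b) := by
  obtain ⟨m, h1, h2, h3, h4⟩ := h
  exact (H.rel_ends h1 h3).trans (H.rel_ends h2 h4)

/-- segments between points of the curve -/
lemma curve_seg (H : SHypC K G Psi V R0 ρ C p0) (hc : SCurve Psi V p0 γ s0 η1)
    (hη : 5 * C * η1 < ρ) {s s' : ℝ} (hs : s0 ≤ s) (hss : s ≤ s') (hs' : s' < 1) :
    InV V (γ s) (γ s') := by
  have hmem : ∀ t ∈ Icc s s', γ t ∈ V := fun t ht => hc.mem t ⟨hs.trans ht.1, ht.2.trans_lt hs'⟩
  have hcont0 : ContinuousOn (fun t => Psi (γ t)) (Icc s s') :=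
    H.iso.smooth.continuousOn.comp hc.cont.continuousOn hmem
  have hcont : ContinuousOn (fun t => (Psi (γ t)).2.1) (Icc s s') :=
    (continuous_fst.comp continuous_snd).comp_continuousOn hcont0
  have hcontu : ContinuousOn (fun t => (Psi (γ t)).2.2.1) (Icc s s') :=
    (continuous_fst.comp (continuous_snd.comp continuous_snd)).comp_continuousOn hcont0
  obtain ⟨t, ht, hmax⟩ := isCompact_Icc.exists_isMaxOn (nonempty_Icc.2 hss) hcont
  obtain ⟨tu, htu, hmaxu⟩ := isCompact_Icc.exists_isMaxOn (nonempty_Icc.2 hss) hcontu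
  have hneg : (Psi (γ t)).2.1 < 0 := (H.maps _ (hmem t ht)).2.1
  have hnegu : (Psi (γ tu)).2.2.1 < 0 := (H.maps _ (hmem tu htu)).2.2
  have hpar : ∀ l ∈ Icc (0:ℝ) 1, s + l * (s' - s) ∈ Icc s s' := by
    intro l hl
    have h1 : 0 ≤ l * (s' - s) := mul_nonneg hl.1 (by linarith)
    have h2 : l * (s' - s) ≤ 1 * (s' - s) := mul_le_mul_of_nonneg_right hl.2 (by linarith)
    constructor <;> linarith
  have hsI : s ∈ Ico s0 1 := ⟨hs, hss.trans_lt hs'⟩
  have key := H.push (η := η1) (vs := (Psi (γ t)).2.1) (us := (Psi (γ tu)).2.2.1) hη hneg hnegu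
    (a := fun _ => γ s)
    (m := fun _ => γ s) (b := fun l => γ (s + l * (s' - s))) continuous_const continuous_const
    (hc.cont.comp (by fun_prop)) (fun l _ => by simpa only [one_div, sub_self] using cone_zero (1/4))
    (fun l hl => by
      have h3 := hpar l hl
      exact cone_mono (by norm_num) (by norm_num) (hc.cone s ⟨hs, hsI.2.le⟩ _
        ⟨hs.trans h3.1, h3.2.trans hs'.le⟩ h3.1))
    (fun l _ => H.V_sub (hc.mem s hsI)) (fun l _ => ⟨hc.mem s hsI, hc.good s hsI⟩)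
    (fun l hl => by
      have h3 := hpar l hl
      exact ⟨hmem _ h3, hmax h3, hmaxu h3⟩)
    (by simpa using inV_const (hc.mem s hsI))
  have := (key 1 ⟨zero_le_one, le_rfl⟩).2
  simpa using this

lemma zero_notMem (H : SHypC K G Psi V R0 ρ C p0) (hc : SCurve Psi V p0 γ s0 η1) :
    (0 : P4) ∉ V := by
  intro h0
  have h1 : ContinuousAt Psi 0 := (H.iso.contDiffAt h0).continuousAt
  have h2 : Tendsto γ (𝓝[<] 1) (𝓝 0) := by
    have := hc.cont.tendsto 1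
    rw [hc.one] at this
    exact this.mono_left nhdsWithin_le_nhds
  have h3 : Tendsto (fun s => Psi (γ s)) (𝓝[<] 1) (𝓝 (Psi 0)) := h1.tendsto.comp h2
  have h4 := tendsto_nhds_unique h3 hc.tend
  have h5 := (H.maps 0 h0).2.1
  rw [h4, H.p0v] at h5
  exact lt_irrefl _ h5

/-- moving the break point -/
lemma reach_move (H : SHypC K G Psi V R0 ρ C p0) (hc : SCurve Psi V p0 γ s0 η1)
    (hη : 5 * C * η1 < ρ) {s : ℝ} (hs : s ∈ Ico s0 1) {b : P4}
    (hr : Reach V (γ s) b) {q : P4} (hq : q ∈ Metric.ball (0 : P4) R0)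
    (hq1 : q - γ s ∈ cone (1 / 4)) (hq2 : b - q ∈ cone (1 / 4)) :
    InV V (γ s) q ∧ InV V q b := by
  obtain ⟨m, h1, h2, h3, h4⟩ := hr
  have hbV := h4.right
  have key := H.push (η := η1) (vs := (Psi b).2.1) (us := (Psi b).2.2.1) hη (H.maps b hbV).2.1
    (H.maps b hbV).2.2 (a := fun _ => γ s)
    (m := fun l => m + l • (q - m)) (b := fun _ => b) continuous_const (by fun_prop)
    continuous_const
    (fun l hl => by
      have : m + l • (q - m) - γ s = (1 - l) • (m - γ s) + l • (q - γ s) := by module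
      rw [this]
      exact cone_add (cone_smul (by linarith [hl.2]) h1) (cone_smul hl.1 hq1))
    (fun l hl => by
      have : b - (m + l • (q - m)) = (1 - l) • (b - m) + l • (b - q) := by module
      rw [this]
      exact cone_add (cone_smul (by linarith [hl.2]) h2) (cone_smul hl.1 hq2))
    (fun l hl => ball_seg (H.V_sub h3.right) hq hl)
    (fun l _ => ⟨hc.mem s hs, hc.good s hs⟩)
    (fun l _ => ⟨hbV, le_rfl, le_rfl⟩) (by simpa using ⟨h3, h4⟩)
  have := key 1 ⟨zero_le_one, le_rfl⟩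
  simpa using this

lemma neg_cone (hc : SCurve Psi V p0 γ s0 η1) {s : ℝ} (hs : s ∈ Ico s0 1) :
    -γ s ∈ cone (1 / 8) := by
  have := hc.cone s ⟨hs.1, hs.2.le⟩ 1 ⟨hc.s0_lt.le, le_rfl⟩ hs.2.le
  rwa [hc.one, zero_sub] at this

/-- reachable points are not in the future cone of the exit point -/
lemma not_future (H : SHypC K G Psi V R0 ρ C p0) (hc : SCurve Psi V p0 γ s0 η1)
    (hη : 5 * C * η1 < ρ) {s : ℝ} (hs : s ∈ Ico s0 1) {b : P4}
    (hr : Reach V (γ s) b) : b.1 < 4 * ‖b.2‖ := by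
  by_contra hcon
  push Not at hcon
  have hb' : b - 0 ∈ cone (1 / 4) := by
    rw [sub_zero, mem_cone]; linarith
  have h0 : (0 : P4) - γ s ∈ cone (1 / 4) := by
    rw [zero_sub]; exact cone_mono (by norm_num) (by norm_num) (neg_cone hc hs)
  have := (H.reach_move hc hη hs hr (q := 0) (by simpa only [Metric.mem_ball, dist_self] using H.R0_pos) h0 hb').1.right
  exact H.zero_notMem hc this

/-- the past region -/
lemma past (H : SHypC K G Psi V R0 ρ C p0) (hc : SCurve Psi V p0 γ s0 η1)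
    (hη : 5 * C * η1 < ρ) {s : ℝ} (hs : s ∈ Ico s0 1) {q : P4} (hq1 : q - γ s ∈ cone (1 / 4))
    (hq2 : 4 * ‖q.2‖ < -q.1) : InV V (γ s) q := by
  have htend : Tendsto γ (𝓝[<] 1) (𝓝 0) := by
    have := hc.cont.tendsto 1
    rw [hc.one] at this
    exact this.mono_left nhdsWithin_le_nhds
  have hev : ∀ᶠ s' in 𝓝[<] (1:ℝ), γ s' - q ∈ cone (1 / 4) := by
    have h1 : Tendsto (fun s' => ‖(γ s' - q).2‖ - 1 / 4 * (γ s' - q).1) (𝓝[<] 1)
        (𝓝 (‖(0 - q).2‖ - 1 / 4 * (0 - q).1)) := by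
      have hcont : Continuous (fun z : P4 => ‖(z - q).2‖ - 1 / 4 * (z - q).1) := by fun_prop
      exact (hcont.tendsto 0).comp htend
    have h2 : ‖(0 - q).2‖ - 1 / 4 * (0 - q).1 < 0 := by
      have e1 : (0 - q).2 = -q.2 := by simp
      have e2 : (0 - q).1 = -q.1 := by simp
      rw [e1, e2, norm_neg]; linarith
    filter_upwards [h1.eventually (gt_mem_nhds h2)] with s' hs'
    rw [mem_cone]
    have : ‖(γ s' - q).2‖ - 1 / 4 * (γ s' - q).1 < 0 := hs'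
    linarith only [hs']
  have hqR : q ∈ Metric.ball (0 : P4) R0 := by
    have h1 := cone_nonneg (by norm_num) hq1
    have e1 : (q - γ s).1 = q.1 - (γ s).1 := rfl
    rw [e1] at h1
    have h2 := H.V_sub (hc.mem s hs)
    rw [mem_ball_zero_iff] at h2 ⊢
    have h3 := (norm_fst_le (γ s)).trans_lt h2
    rw [Real.norm_eq_abs, abs_of_neg (hc.neg s hs)] at h3
    have h4 := norm_nonneg q.2
    rw [norm_P4]
    apply max_lt
    · rw [abs_of_nonpos (by linarith)]; linarith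
    · linarith
  have hev2 : ∀ᶠ s' in 𝓝[<] (1:ℝ), s' ∈ Ico s 1 := Ico_mem_nhdsLT hs.2
  obtain ⟨s', h1, hs'⟩ := (hev.and hev2).exists
  have hs'I : s' ∈ Ico s0 1 := ⟨hs.1.trans hs'.1, hs'.2⟩
  have hr : Reach V (γ s) (γ s') := ⟨γ s, by simpa only [one_div, sub_self] using cone_zero (1 / 4),
    cone_mono (by norm_num) (by norm_num) (hc.cone s ⟨hs.1, hs.2.le⟩ s' ⟨hs'I.1, hs'.2.le⟩ hs'.1),
    inV_const (hc.mem s hs), H.curve_seg hc hη hs.1 hs'.1 hs'.2⟩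
  exact (H.reach_move hc hη hs hr hqR hq1 h1).1

/-- reachable points are good -/
lemma reach_good (H : SHypC K G Psi V R0 ρ C p0) (hc : SCurve Psi V p0 γ s0 η1)
    {s : ℝ} (hs : s ∈ Ico s0 1) {b : P4} (hr : Reach V (γ s) b) :
    ‖Psi b - p0‖ ≤ 5 * C * η1 := by
  have hbV : b ∈ V := by
    obtain ⟨m, -, -, -, h⟩ := hr
    exact h.right
  exact H.conf hbV (H.reach_rel hr) (hc.good s hs)

end SHypC

end Vale.Agent.P354w
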