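import Vale.Agent.P354w.SC2

set_option maxSynthPendingDepth 3

open Set Filter Topology

namespace Vale.Agent.P354w

open Vale.Agent.P354 (mink NearM Tv norm_Tv cone mem_cone InV norm_sub_le_of_deriv
  hasDerivAt_line norm_P4_le norm_P4 tube ball_seg SCurve Reach inV_const cone_nonneg cone_add
  cone_smul cone_zero cone_mono vline_sub vline_cone vline_inV vline_norm TT exitT TT_facts)

namespace SHypC

variable {K : Coef} {G : P4 → P4 →L[ℝ] P4 →L[ℝ] ℝ} {Psi : P4 → P4} {V : Set P4}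
  {R0 ρ C : ℝ} {p0 : P4} {γ : ℝ → P4} {s0 η1 η : ℝ}

/-- the initial slice -/
lemma slice_cone (hc : SCurve Psi V p0 γ s0 η1) {s1 : ℝ} (hs1 : s1 ∈ Ico s0 1)
    {x : ℝ × ℝ × ℝ} (hx : ‖x‖ < -(γ s1).1 / 16) :
    (((γ s1).1 / 4, x) : P4) - γ s1 ∈ cone (1 / 4) ∧ 4 * ‖x‖ < -((γ s1).1 / 4) := by
  have hneg := hc.neg s1 hs1
  have hnc := neg_cone hc hs1
  rw [mem_cone] at hnc
  have hn1 : (-γ s1).2 = -(γ s1).2 := rfl
  have hn2 : (-γ s1).1 = -(γ s1).1 := rfl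
  rw [hn1, hn2, norm_neg] at hnc
  constructor
  · rw [mem_cone]
    have e1 : ((((γ s1).1 / 4, x) : P4) - γ s1).2 = x - (γ s1).2 := rfl
    have e2 : ((((γ s1).1 / 4, x) : P4) - γ s1).1 = (γ s1).1 / 4 - (γ s1).1 := rfl
    rw [e1, e2]
    refine (norm_sub_le _ _).trans ?_
    linarith only [hx, hnc]
  · linarith only [hx]

lemma line_reach (H : SHypC K G Psi V R0 ρ C p0) (hc : SCurve Psi V p0 γ s0 η1)
    (hη : 5 * C * η1 < ρ) {s1 : ℝ} (hs1 : s1 ∈ Ico s0 1) {x : ℝ × ℝ × ℝ}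
    (hx : ‖x‖ < -(γ s1).1 / 16) {t : ℝ} (ht : (γ s1).1 / 4 ≤ t)
    (hV : ∀ t' ∈ Icc ((γ s1).1 / 4) t, ((t', x) : P4) ∈ V) : Reach V (γ s1) (t, x) := by
  obtain ⟨h1, h2⟩ := slice_cone hc hs1 hx
  exact ⟨((γ s1).1 / 4, x), h1, vline_cone ht x, H.past hc hη hs1 h1 h2, vline_inV ht hV⟩

/-- The structure lemma at a corner. -/
theorem main (H : SHypC K G Psi V R0 ρ C p0) (hc : SCurve Psi V p0 γ s0 η1)
    (hη : 5 * C * η1 < ρ) :
    ∃ (t0 r : ℝ) (f : P3 → ℝ), 0 < r ∧ (∀ x ∈ Metric.ball (0 : P3) r, t0 < f x) ∧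
      (∀ x ∈ Metric.ball (0 : P3) r, ∀ t ∈ Ico t0 (f x), ((t, x) : P4) ∈ V) ∧
      IsOpen (DD t0 r f) ∧
      (∀ x ∈ Metric.ball (0 : P3) r, ∀ t ∈ Ico t0 (f x), ‖Psi (t, x) - p0‖ ≤ 5 * C * η1) ∧
      (∀ x ∈ Metric.ball (0 : P3) r, ∀ v2 < 0, ∀ u2 < 0, ∃ t ∈ Ico t0 (f x),
        v2 < (Psi (t, x)).2.1 ∨ u2 < (Psi (t, x)).2.2.1) ∧
      (∀ x ∈ Metric.ball (0 : P3) r, ∀ t ∈ Icc t0 (f x), ‖((t, x) : P4)‖ ≤ R0 / 2) := by
  have hC := H.one_le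
  have hC0 : 0 < C := by linarith only [hC]
  have hs0 : s0 ∈ Ico s0 1 := ⟨le_rfl, hc.s0_lt⟩
  set t0 := (γ s0).1 / 4 with ht0
  have hneg := hc.neg s0 hs0
  have ht0R : -t0 < R0 / 4 := by
    have h1 := H.V_sub (hc.mem s0 hs0)
    rw [mem_ball_zero_iff] at h1
    have h2 := (norm_fst_le (γ s0)).trans_lt h1
    rw [Real.norm_eq_abs, abs_of_neg hneg] at h2
    rw [ht0]; linarith only [h2]
  have ht0neg : t0 < 0 := by rw [ht0]; linarith only [hneg]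
  set r : ℝ := min (-(γ s0).1 / 16) (R0 / 32) with hrdef
  have hr : 0 < r := lt_min (by linarith only [ht0, ht0neg]) (by linarith only [ht0R, ht0neg])
  have hr1 : r ≤ -(γ s0).1 / 16 := min_le_left _ _
  have hr2 : 4 * r ≤ R0 / 8 := by
    have : r ≤ R0 / 32 := min_le_right _ _
    linarith only [this]
  have hslice : ∀ x ∈ Metric.ball (0 : P3) r, ((t0, x) : P4) ∈ V := by
    intro x hx
    rw [mem_ball_zero_iff] at hx
    obtain ⟨h1, h2⟩ := slice_cone hc hs0 (hx.trans_le hr1)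
    exact (H.past hc hη hs0 h1 h2).right
  -- points on lines
  have hline : ∀ x ∈ Metric.ball (0 : P3) r, ∀ t ∈ TT V t0 x,
      t < 4 * ‖x‖ ∧ ‖Psi (t, x) - p0‖ ≤ 5 * C * η1 := by
    intro x hx t ht
    rw [mem_ball_zero_iff] at hx
    have h2 := H.line_reach hc hη hs0 (hx.trans_le hr1) ht.1 ht.2
    exact ⟨H.not_future hc hη hs0 h2, H.reach_good hc hs0 h2⟩
  have hM : ∀ x ∈ Metric.ball (0 : P3) r, ∀ t ∈ TT V t0 x, t ≤ 4 * r := by
    intro x hx t ht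
    have h1 := (hline x hx t ht).1
    rw [mem_ball_zero_iff] at hx
    linarith only [hx, h1]
  have hfacts := fun x hx => TT_facts H.iso.isOpen (hslice x hx) (hM x hx)
  refine ⟨t0, r, exitT V t0, hr, fun x hx => (hfacts x hx).1, ?_, ?_, ?_, ?_, ?_⟩
  · intro x hx t ht
    exact ((hfacts x hx).2.1 t ht).2 t ⟨ht.1, le_rfl⟩
  · -- openness
    rw [isOpen_iff_mem_nhds]
    rintro ⟨t, x⟩ ⟨hx, ht, htf⟩
    simp only at hx ht htf
    have hT := (hfacts x hx).2.1 t ⟨ht.le, htf⟩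
    have hin : InV V (t0, x) (t, x) := vline_inV ht.le hT.2
    have ev1 : ∀ᶠ z : P4 in 𝓝 (t, x), z.2 ∈ Metric.ball (0 : P3) r :=
      continuous_snd.continuousAt.eventually (Metric.isOpen_ball.mem_nhds hx)
    have ev2 : ∀ᶠ z : P4 in 𝓝 (t, x), t0 < z.1 :=
      continuous_fst.continuousAt.eventually (lt_mem_nhds ht)
    have ev3 : ∀ᶠ z : P4 in 𝓝 (t, x), ∀ τ ∈ Icc (0:ℝ) 1,
        ((t0 + τ * (z.1 - t0), z.2) : P4) ∈ V := by
      refine isCompact_Icc.eventually_forall_of_forall_eventually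
        (P := fun (z : P4) (τ : ℝ) => ((t0 + τ * (z.1 - t0), z.2) : P4) ∈ V) ?_
      intro τ hτ
      have hcc : Continuous (fun p : P4 × ℝ => ((t0 + p.2 * (p.1.1 - t0), p.1.2) : P4)) := by
        fun_prop
      refine hcc.continuousAt.eventually (H.iso.isOpen.mem_nhds ?_)
      have h1 : 0 ≤ τ * (t - t0) := mul_nonneg hτ.1 (by linarith only [ht])
      have h2 : τ * (t - t0) ≤ 1 * (t - t0) := mul_le_mul_of_nonneg_right hτ.2 (by linarith only [ht])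
      exact hT.2 _ ⟨by simp only; linarith only [h1], by simp only; linarith only [h2]⟩
    filter_upwards [ev1, ev2, ev3] with z h1 h2 h3
    refine ⟨h1, h2, ?_⟩
    refine (hfacts z.2 h1).2.2.2.1 z.1 ⟨h2.le, fun t' ht' => ?_⟩
    have hpos : 0 < z.1 - t0 := by linarith only [h2]
    have h4 := h3 ((t' - t0) / (z.1 - t0)) ⟨div_nonneg (by linarith only [ht'.1]) hpos.le, by
      rw [div_le_one hpos]; linarith only [ht'.2]⟩
    rw [div_mul_cancel₀ _ hpos.ne'] at h4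
    have : t0 + (t' - t0) = t' := by ring
    rwa [this] at h4
  · intro x hx t ht
    exact (hline x hx t ((hfacts x hx).2.1 t ht)).2
  · -- exit
    intro x hx v2 hv2 u2 hu2
    by_contra hcon
    push Not at hcon
    obtain ⟨F, hF, hVF⟩ := H.cl _ (KC_compact p0 (5 * C * η1) v2 u2) (KC_sub hη hv2 hu2)
    obtain ⟨f1, f2, f3, f4, f5⟩ := hfacts x hx
    have hmem : ∀ t ∈ Ico t0 (exitT V t0 x), ((t, x) : P4) ∈ F := by
      intro t ht
      have hT := f2 t ht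
      have : ((t, x) : P4) ∈ V ∩ Psi ⁻¹' KC p0 (5 * C * η1) v2 u2 :=
        ⟨hT.2 t ⟨ht.1, le_rfl⟩, (hline x hx t hT).2, hcon t ht⟩
      rw [hVF] at this
      exact this.2
    have hlim : Tendsto (fun t : ℝ => ((t, x) : P4)) (𝓝[<] (exitT V t0 x))
        (𝓝 ((exitT V t0 x, x) : P4)) := by
      have hcc : Continuous (fun t : ℝ => ((t, x) : P4)) := by fun_prop
      exact (hcc.tendsto _).mono_left nhdsWithin_le_nhds
    have hFin : ((exitT V t0 x, x) : P4) ∈ F := by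
      refine hF.mem_of_tendsto hlim ?_
      filter_upwards [Ico_mem_nhdsLT f1] with t ht
      exact hmem t ht
    have hball : ((exitT V t0 x, x) : P4) ∈ Metric.ball (0 : P4) R0 := by
      rw [mem_ball_zero_iff] at hx ⊢
      rw [vline_norm]
      apply max_lt
      · rw [abs_lt]; constructor <;> linarith only [ht0R, hr, hr2, f1, f5]
      · linarith only [hr, hr2, hx]
    have : ((exitT V t0 x, x) : P4) ∈ V ∩ Psi ⁻¹' KC p0 (5 * C * η1) v2 u2 := by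
      rw [hVF]; exact ⟨hball, hFin⟩
    exact f3 this.1
  · -- norm bound
    rintro x h1 t ⟨h2, h3⟩
    obtain ⟨-, -, -, -, f5⟩ := hfacts x h1
    rw [mem_ball_zero_iff] at h1
    rw [norm_P4]
    apply max_le
    · simp only
      rw [abs_le]; constructor <;> linarith only [ht0R, hr, hr2, h2, h3, f5]
    · simp only
      linarith only [hr, hr2, h1]

/-- limits along the vertical lines -/
theorem line_limit (H : SHypC K G Psi V R0 ρ C p0) {t0 b : ℝ} {x : P3} (htb : t0 < b)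
    (hV : ∀ t ∈ Ico t0 b, ((t, x) : P4) ∈ V) {η : ℝ}
    (hη : ∀ t ∈ Ico t0 b, ‖Psi (t, x) - p0‖ ≤ η)
    (hexit : ∀ v2 < 0, ∀ u2 < 0, ∃ t ∈ Ico t0 b,
        v2 < (Psi (t, x)).2.1 ∨ u2 < (Psi (t, x)).2.2.1) :
    ∃ q : P4, Tendsto (fun t => Psi (t, x)) (𝓝[<] b) (𝓝 q) ∧ ‖q - p0‖ ≤ η ∧
      q.2.1 ≤ 0 ∧ q.2.2.1 ≤ 0 ∧ (q.2.1 = 0 ∨ q.2.2.1 = 0) := by
  have hC := H.one_le
  have hrel : ∀ s ∈ Ico t0 b, ∀ t ∈ Ico t0 b, s ≤ t → RelW C (Psi (s, x)) (Psi (t, x)) := by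
    intro s hs t ht hst
    exact H.rel_ends (vline_cone hst x)
      (vline_inV hst (fun s' hs' => hV s' ⟨hs.1.trans hs'.1, hs'.2.trans_lt ht.2⟩))
  have hbd : ∀ t ∈ Ico t0 b, |(Psi (t, x)).1 - p0.1| ≤ η ∧ |(Psi (t, x)).2.1| ≤ η ∧
      |(Psi (t, x)).2.2.1| ≤ η ∧ |(Psi (t, x)).2.2.2 - p0.2.2.2| ≤ η := by
    intro t ht
    have h1 := norm_P4_le.1 (hη t ht)
    simpa only [Prod.fst_sub, Prod.snd_sub, H.p0v, H.p0u, sub_zero] using h1
  -- monotone functions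
  have hmono : ∀ F : ℝ → ℝ, (∀ s ∈ Ico t0 b, ∀ t ∈ Ico t0 b, s ≤ t → F s ≤ F t) →
      (∃ B, ∀ t ∈ Ico t0 b, F t ≤ B) → ∃ L, Tendsto F (𝓝[<] b) (𝓝 L) ∧ ∀ t ∈ Ico t0 b, F t ≤ L := by
    intro F h1 h2
    obtain ⟨B, hB⟩ := h2
    have hm : MonotoneOn F (Ioo t0 b) := fun s hs t ht hst =>
      h1 s ⟨hs.1.le, hs.2⟩ t ⟨ht.1.le, ht.2⟩ hst
    have hb : BddAbove (F '' Ioo t0 b) := by
      refine ⟨B, ?_⟩
      rintro _ ⟨t, ht, rfl⟩
      exact hB t ⟨ht.1.le, ht.2⟩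
    have h3 := MonotoneOn.tendsto_nhdsWithin_Ioo_left (nonempty_Ioo.2 htb) hm hb
    refine ⟨_, h3, fun t ht => ?_⟩
    obtain ⟨t', ht'1, ht'2⟩ := exists_between ht.2
    exact (h1 t ht t' ⟨ht.1.trans ht'1.le, ht'2⟩ ht'1.le).trans
      (le_csSup hb ⟨t', ⟨ht.1.trans_lt ht'1, ht'2⟩, rfl⟩)
  obtain ⟨Lv, hLv, hLv'⟩ := hmono (fun t => (Psi (t, x)).2.1)
    (fun s hs t ht hst => (hrel s hs t ht hst).1)
    ⟨0, fun t ht => (H.maps _ (hV t ht)).2.1.le⟩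
  obtain ⟨Lu, hLu, hLu'⟩ := hmono (fun t => (Psi (t, x)).2.2.1)
    (fun s hs t ht hst => (hrel s hs t ht hst).2.1)
    ⟨0, fun t ht => (H.maps _ (hV t ht)).2.2.le⟩
  have hη0 : 0 ≤ η := (norm_nonneg _).trans (hη t0 ⟨le_rfl, htb⟩)
  obtain ⟨L1, hL1, -⟩ := hmono
    (fun t => (Psi (t, x)).1 + 2 * C * ((Psi (t, x)).2.1 + (Psi (t, x)).2.2.1))
    (fun s hs t ht hst => by
      have := (abs_le.1 (hrel s hs t ht hst).2.2.1).1
      linarith)
    ⟨η + p0.1 + 2 * C * (η + η), fun t ht => by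
      obtain ⟨a1, a2, a3, a4⟩ := hbd t ht
      have : 2 * C * ((Psi (t, x)).2.1 + (Psi (t, x)).2.2.1) ≤ 2 * C * (η + η) := by
        have := (abs_le.1 a2).2
        have := (abs_le.1 a3).2
        gcongr
      linarith only [this, (abs_le.1 a1).2]⟩
  obtain ⟨L2, hL2, -⟩ := hmono
    (fun t => (Psi (t, x)).2.2.2 + 2 * C * ((Psi (t, x)).2.1 + (Psi (t, x)).2.2.1))
    (fun s hs t ht hst => by
      have := (abs_le.1 (hrel s hs t ht hst).2.2.2).1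
      linarith)
    ⟨η + p0.2.2.2 + 2 * C * (η + η), fun t ht => by
      obtain ⟨a1, a2, a3, a4⟩ := hbd t ht
      have : 2 * C * ((Psi (t, x)).2.1 + (Psi (t, x)).2.2.1) ≤ 2 * C * (η + η) := by
        have := (abs_le.1 a2).2
        have := (abs_le.1 a3).2
        gcongr
      linarith only [this, (abs_le.1 a4).2]⟩
  have hL1' : Tendsto (fun t => (Psi (t, x)).1) (𝓝[<] b) (𝓝 (L1 - 2 * C * (Lv + Lu))) := by
    have h1 := hL1.sub ((hLv.add hLu).const_mul (2 * C))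
    refine h1.congr fun t => ?_
    ring
  have hL2' : Tendsto (fun t => (Psi (t, x)).2.2.2) (𝓝[<] b) (𝓝 (L2 - 2 * C * (Lv + Lu))) := by
    have h1 := hL2.sub ((hLv.add hLu).const_mul (2 * C))
    refine h1.congr fun t => ?_
    ring
  have hlim : Tendsto (fun t => Psi (t, x)) (𝓝[<] b)
      (𝓝 (L1 - 2 * C * (Lv + Lu), Lv, Lu, L2 - 2 * C * (Lv + Lu))) :=
    hL1'.prodMk_nhds (hLv.prodMk_nhds (hLu.prodMk_nhds hL2'))
  have hIco : ∀ᶠ t in 𝓝[<] b, t ∈ Ico t0 b := Ico_mem_nhdsLT htb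
  have hv0 : Lv ≤ 0 := le_of_tendsto hLv (hIco.mono fun t ht => (H.maps _ (hV t ht)).2.1.le)
  have hu0 : Lu ≤ 0 := le_of_tendsto hLu (hIco.mono fun t ht => (H.maps _ (hV t ht)).2.2.le)
  refine ⟨_, hlim, ?_, hv0, hu0, ?_⟩
  · have h1 := (hlim.sub_const p0).norm
    exact le_of_tendsto h1 (hIco.mono fun t ht => hη t ht)
  · by_contra hcon
    push Not at hcon
    have hv1 : Lv < 0 := lt_of_le_of_ne hv0 hcon.1
    have hu1 : Lu < 0 := lt_of_le_of_ne hu0 hcon.2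
    obtain ⟨t, ht, h1⟩ := hexit Lv hv1 Lu hu1
    rcases h1 with h1 | h1
    · exact absurd (hLv' t ht) (not_le.2 h1)
    · exact absurd (hLu' t ht) (not_le.2 h1)

end SHypC

end Vale.Agent.P354w
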